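import Crest.Agent.X212.Cht98.Br
import Crest.Agent.X212.Sob92.Fun
import Crest.Agent.X212.Sob92.Iso
import Crest.Agent.X212.Cyf70.Cyl

/-! Row 212, layer AN (helper98): Sobolev constants from covers with bounded overlap, transport
along `Iso`, and tameness of the cylinder. -/

set_option autoImplicit false
set_option linter.unusedSectionVars false

open scoped Manifold ContDiff Topology
open Set Filter Function MeasureTheory

noncomputable section
namespace Crest.Agent.X212.Cht98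
open Crest.Agent.X212.Sob92 Crest.Agent.X212.An

variable {E : Type} [NormedAddCommGroup E] [NormedSpace ℝ E] [FiniteDimensional ℝ E]
  [MeasurableSpace E] [BorelSpace E]
  {HM : Type} [TopologicalSpace HM] {I : ModelWithCorners ℝ E HM}
  {M : Type} [TopologicalSpace M] [ChartedSpace HM M] [IsManifold I ∞ M]
  [MeasurableSpace M] [BorelSpace M] [T2Space M] {ι : Type} [Fintype ι]
  {E' : Type} [NormedAddCommGroup E'] [NormedSpace ℝ E'] [FiniteDimensional ℝ E']
  [MeasurableSpace E'] [BorelSpace E']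
  {HM' : Type} [TopologicalSpace HM'] {I' : ModelWithCorners ℝ E' HM'}
  {M' : Type} [TopologicalSpace M'] [ChartedSpace HM' M'] [IsManifold I' ∞ M']
  [MeasurableSpace M'] [BorelSpace M'] [T2Space M']

section iso
variable {F : Pre I M ι} {F' : Pre I' M' ι} {φ : OpenPartialHomeomorph M M'} {K : Set M}
  {K' : Set M'} {S : ℝ}

theorem push_spec (h : Iso F F' φ) (hK : K ⊆ φ.source) (hm : MapsTo φ K K') {f : M → ℝ}
    (hf : Sm I f) (hc : HasCompactSupport f) (hs : tsupport f ⊆ K) :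
    Sm I' (pull φ.symm f) ∧ HasCompactSupport (pull φ.symm f) ∧ tsupport (pull φ.symm f) ⊆ K' ∧
      ∀ k, F'.ip k (pull φ.symm f) (pull φ.symm f) = F.ip k f f := by
  have ha : Adm φ.symm (tsupport f) := Adm.of_isCompact hc.isCompact (hs.trans hK)
  refine ⟨sm_pull (iso_symm h) hf ha, hcs_pull hc (hs.trans hK), fun y hy => ?_,
    fun k => ip_pull (iso_symm h) k hf ha hf ha⟩
  obtain ⟨h1, h2⟩ := ha.tsupport_pull hy
  have h3 := hm (hs h2)
  rwa [φ.right_inv h1] at h3

theorem L4On.iso (h : Iso F F' φ) (hK : K ⊆ φ.source) (hm : MapsTo φ K K')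
    (H : L4On F' K' S) : L4On F K S := fun f hf hc hs => by
  obtain ⟨h1, h2, h3, h4⟩ := push_spec h hK hm hf hc hs
  have h5 := H _ h1 h2 h3
  have h6 := integral_pull (iso_symm h) (g := fun x => f x ^ 4) (hf.continuous.pow 4)
    fun x hx => hK (hs (subset_tsupport _ fun h0 => hx (by simp [h0])))
  have h7 : (fun y => pull φ.symm f y ^ 4) = pull φ.symm fun x => f x ^ 4 := funext fun y => by
    by_cases hy : y ∈ φ.symm.source
    · rw [pull_of_mem hy, pull_of_mem hy]
    · simp [pull_of_notMem hy]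
  rwa [h4, h7, h6] at h5

theorem SupOn.iso (h : Iso F F' φ) (hK : K ⊆ φ.source) (hm : MapsTo φ K K')
    (H : SupOn F' K' S) : SupOn F K |S| := fun f hf hc hs x => by
  obtain ⟨h1, h2, h3, h4⟩ := push_spec h hK hm hf hc hs
  by_cases hx : x ∈ φ.source
  · have h5 := H _ h1 h2 h3 (φ x)
    rw [h4, pull_of_mem (φ := φ.symm) (φ.map_source hx), φ.left_inv hx] at h5
    exact h5.trans (mul_le_mul_of_nonneg_right (le_abs_self S) (F.ip_nonneg 3 f))
  · rw [image_eq_zero_of_notMem_tsupport fun h0 => hx (hK (hs h0)), zero_pow two_ne_zero]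
    exact mul_nonneg (abs_nonneg S) (F.ip_nonneg 3 f)

end iso

/-- at most `N` of the sets `T j` meet at a point -/
def Ovl {J : Type} (T : J → Set M) (N : ℕ) : Prop :=
  ∀ (x : M) (t : Finset J), (∀ j ∈ t, x ∈ T j) → t.card ≤ N

theorem sum_NS_le (F : Pre I M ι) {J : Type} {T : J → Set M} {N : ℕ}
    (hT : ∀ j, MeasurableSet (T j)) (ho : Ovl T N) (t : Finset J) (k : ℕ) :
    ∀ {u : M → ℝ}, FL F k u → ∑ j ∈ t, NS F (T j) k u ≤ N * N2 F k u := by
  classical
  have h0 : ∀ {u : M → ℝ}, MemLp u 2 F.μ → ∑ j ∈ t, NS F (T j) 0 u ≤ N * N2 F 0 u := by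
    intro u hu
    simp only [n2, fun j => (integral_indicator (μ := F.μ) (f := fun x => ‖u x‖ ^ 2) (hT j)).symm]
    rw [← integral_finsetSum _ fun j _ => (int_sq hu).indicator (hT j), ← integral_const_mul]
    refine integral_mono (integrable_finsetSum _ fun j _ => (int_sq hu).indicator (hT j))
      ((int_sq hu).const_mul _) fun x => ?_
    simp only [indicator_apply, ← Finset.sum_filter, Finset.sum_const, nsmul_eq_mul]
    gcongr
    exact ho x _ fun j hj => (Finset.mem_filter.1 hj).2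
  induction k with
  | zero => exact h0
  | succ k ih =>
    intro u hu
    simp only [n2_succ, Finset.sum_add_distrib, mul_add, Finset.mul_sum]
    rw [Finset.sum_comm]
    exact add_le_add (h0 hu.1) (Finset.sum_le_sum fun a _ => ih (hu.2 a))

variable [SecondCountableTopology M]

theorem ip_cut (F : Pre I M ι) {χ f : M → ℝ} {A : ℝ} {k : ℕ} (hχ : Sm I χ) (hA : F.CB k χ A)
    (hf : Sm I f) (hc : HasCompactSupport f) :
    F.ip k (fun x => χ x * f x) (fun x => χ x * f x) ≤
      (cK ι k * A) ^ 2 * NS F (tsupport χ) k f := by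
  rw [ip_eq, ← NS_of_tsupport (S := tsupport χ) k (tsupport_mul_subset_left (f := χ) (g := f))]
  exact (NS_smul hχ hf hA (FL_FS (FL_of_hcs k hf hc) _)).2

/-- the `L⁴` constant from a locally finite cover with bounded overlap -/
theorem l4_of_cover (F : Pre I M ι) {J : Type} {χ : J → M → ℝ} {A S : ℝ} {N : ℕ} {U : Set M}
    (hχ : ∀ j, Sm I (χ j)) (hA : ∀ j, F.CB 1 (χ j) A) (h1 : ∀ x ∈ U, ∃ j, χ j x = 1)
    (hfin : ∀ K, IsCompact K → {j | (tsupport (χ j) ∩ K).Nonempty}.Finite)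
    (ho : Ovl (fun j => tsupport (χ j)) N) (h4 : ∀ j, L4On F (tsupport (χ j)) S) :
    L4On F U (|S| * ((cK ι 1 * A) ^ 2 * N)) := fun f hf hc hs => by
  set t := (hfin _ hc.isCompact).toFinset
  have hg : ∀ j, Sm I fun x => χ j x * f x := fun j => (hχ j).mul hf
  have hgc : ∀ j, HasCompactSupport fun x => χ j x * f x := fun j => hc.mul_left
  have hi : ∀ j, Integrable (fun x => (χ j x * f x) ^ 4) F.μ := fun j =>
    ((hg j).continuous.pow 4).integrable_of_hasCompactSupport
      ((hgc j).mono fun x hx h0 => hx (by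
        show (χ j x * f x) ^ 4 = 0
        rw [show χ j x * f x = 0 from h0]
        norm_num))
  set a : J → ℝ := fun j => |S| * ((cK ι 1 * A) ^ 2 * NS F (tsupport (χ j)) 1 f)
  have ha : ∀ j, 0 ≤ a j := fun j => mul_nonneg (abs_nonneg S)
    (mul_nonneg (sq_nonneg _) (n2_nonneg _ _))
  have h2 : ∀ j, ∫ x, (χ j x * f x) ^ 4 ∂F.μ ≤ a j ^ 2 := fun j => by
    refine (Real.sqrt_le_left (ha j)).1 ((h4 j _ (hg j) (hgc j)
      (tsupport_mul_subset_left (f := χ j) (g := f))).trans ?_)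
    exact mul_le_mul (le_abs_self S) (ip_cut F (hχ j) (hA j) hf hc) (F.ip_nonneg 1 _) (abs_nonneg S)
  have h3 : ∫ x, f x ^ 4 ∂F.μ ≤ ∑ j ∈ t, ∫ x, (χ j x * f x) ^ 4 ∂F.μ := by
    rw [← integral_finsetSum _ fun j _ => hi j]
    refine integral_mono_of_nonneg (Eventually.of_forall fun x => by positivity)
      (integrable_finsetSum _ fun j _ => hi j) (Eventually.of_forall fun x => ?_)
    by_cases hx : x ∈ tsupport f
    · obtain ⟨j, hj⟩ := h1 x (hs hx)
      have hjt : j ∈ t := (hfin _ hc.isCompact).mem_toFinset.2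
        ⟨x, subset_tsupport _ (by simp [hj]), hx⟩
      exact le_trans (by simp [hj]) (Finset.single_le_sum (f := fun j => (χ j x * f x) ^ 4)
        (fun _ _ => by positivity) hjt)
    · simp [image_eq_zero_of_notMem_tsupport hx]
  refine (Real.sqrt_le_left ?_).2 (h3.trans ((Finset.sum_le_sum fun j _ => h2 j).trans
    ((Finset.sum_sq_le_sq_sum_of_nonneg fun j _ => ha j).trans ?_)))
  · exact mul_nonneg (by positivity) (F.ip_nonneg 1 f)
  · refine pow_le_pow_left₀ (Finset.sum_nonneg fun j _ => ha j) ?_ 2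
    simp only [a, ← Finset.mul_sum, mul_assoc, ip_eq]
    gcongr
    exact sum_NS_le F (fun j => (isClosed_tsupport _).measurableSet) ho t 1 (FL_of_hcs 1 hf hc)

/-- the sup constant from a cover -/
theorem sup_of_cover (F : Pre I M ι) {J : Type} {χ : J → M → ℝ} {A S : ℝ} {U : Set M}
    (hχ : ∀ j, Sm I (χ j)) (hA : ∀ j, F.CB 3 (χ j) A) (h1 : ∀ x ∈ U, ∃ j, χ j x = 1)
    (hs : ∀ j, SupOn F (tsupport (χ j)) S) : SupOn F U (|S| * (cK ι 3 * A) ^ 2) :=
  fun f hf hc hU x => by
  by_cases hx : x ∈ tsupport f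
  · obtain ⟨j, hj⟩ := h1 x (hU hx)
    have h2 := hs j _ ((hχ j).mul hf) hc.mul_left (tsupport_mul_subset_left (f := χ j) (g := f)) x
    rw [Pi.mul_apply, hj, one_mul] at h2
    refine h2.trans ((mul_le_mul (le_abs_self S) (ip_cut F (hχ j) (hA j) hf hc) (F.ip_nonneg 3 _)
      (abs_nonneg S)).trans ?_)
    rw [mul_assoc, ip_eq]
    gcongr
    exact NS_le (FL_of_hcs 3 hf hc) _
  · rw [image_eq_zero_of_notMem_tsupport hx, zero_pow two_ne_zero]
    exact mul_nonneg (by positivity) (F.ip_nonneg 3 f)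

/-! ### the cylinder -/

open Crest.Agent.X212.Cyf70

variable [SigmaCompactSpace M]

theorem CB_snd (F : Pre I M ι) [I.Boundaryless] {N : Type} [NormedAddCommGroup N]
    [NormedSpace ℝ N] {C : ℝ} (k : ℕ) : ∀ {h : ℝ → N}, ContDiff ℝ ∞ h →
    (∀ i ≤ k, ∀ t, ‖iteratedDeriv i h t‖ ≤ C) → (cylP F).CB k (fun x => h x.2) C := by
  induction k with
  | zero => exact fun _ hb => CB_zero.2 fun x => by simpa using hb 0 le_rfl x.2
  | succ k ih =>
    intro h hh hb
    refine CB_succ.2 ⟨fun x => by simpa using hb 0 (Nat.zero_le _) x.2, fun a => ?_⟩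
    cases a with
    | none =>
      rw [D_none_snd F hh]
      exact ih (contDiff_infty_iff_deriv.1 hh).2 fun i hi t => by
        rw [← iteratedDeriv_succ']
        exact hb _ (by omega) t
    | some a =>
      rw [D_some_snd F hh]
      exact CB_mono (CB_const k (0 : N)) (by simpa using (norm_nonneg _).trans (hb 0 (by omega) 0))

theorem CB_fst (F : Pre I M ι) [I.Boundaryless] {N : Type} [NormedAddCommGroup N]
    [NormedSpace ℝ N] {C : ℝ} (k : ℕ) : ∀ {f : M → N}, Sm I f → F.CB k f C →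
    (cylP F).CB k (fun x => f x.1) |C| := by
  induction k with
  | zero => exact fun _ hb => CB_zero.2 fun x => (CB_bound hb x.1).trans (le_abs_self C)
  | succ k ih =>
    intro f hf hb
    refine CB_succ.2 ⟨fun x => (CB_bound hb x.1).trans (le_abs_self C), fun a => ?_⟩
    cases a with
    | none =>
      rw [D_none_fst F hf]
      exact CB_mono (CB_const k (0 : N)) (by simp)
    | some a =>
      rw [D_some_fst F hf]
      exact ih (F.sm_D hf a) (CB_D hb a)

theorem Cb_fst (F : Pre I M ι) [I.Boundaryless] {N : Type} [NormedAddCommGroup N]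
    [NormedSpace ℝ N] {f : M → N} (h : F.Cb f) : (cylP F).Cb fun x => f x.1 :=
  let ⟨_, hC⟩ := h
  ⟨_, sm_fst hC.1, fun k => CB_fst F k hC.1 (hC.2 k)⟩

/-- a smooth function with compactly supported derivative has bounded derivatives -/
theorem deriv_bounds {h : ℝ → ℝ} (hh : ContDiff ℝ ∞ h) (hc : HasCompactSupport (deriv h))
    {B : ℝ} (hB : ∀ t, ‖h t‖ ≤ B) :
    ∃ C : ℕ → ℝ, ∀ k, ∀ i ≤ k, ∀ t, ‖iteratedDeriv i h t‖ ≤ C k := by
  have h1 : ∀ i, HasCompactSupport (iteratedDeriv (i + 1) h) := by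
    intro i
    induction i with
    | zero => rwa [zero_add, iteratedDeriv_one]
    | succ i ih => rw [iteratedDeriv_succ]; exact ih.deriv
  have h2 : ∀ i, ∃ C, ∀ t, ‖iteratedDeriv i h t‖ ≤ C := by
    rintro (_ | i)
    · exact ⟨B, by simpa using hB⟩
    · exact (hh.continuous_iteratedDeriv _ (by exact_mod_cast le_top)).bounded_above_of_compact_support
        (h1 i)
  choose C hC using h2
  refine ⟨fun k => ∑ i ∈ Finset.range (k + 1), |C i|, fun k i hi t => ?_⟩
  exact ((hC i t).trans (le_abs_self _)).trans (Finset.single_le_sum (f := fun i => |C i|)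
    (fun _ _ => abs_nonneg _) (Finset.mem_range.2 (by omega)))

/-- all translates of such a function of `t` have the same bounds -/
theorem CBs_shift (F : Pre I M ι) [I.Boundaryless] {h : ℝ → ℝ} (hh : ContDiff ℝ ∞ h)
    (hc : HasCompactSupport (deriv h)) {B : ℝ} (hB : ∀ t, ‖h t‖ ≤ B) :
    ∃ C : ℕ → ℝ, ∀ s : ℝ, (cylP F).CBs (fun x => h (x.2 + s)) C := by
  obtain ⟨C, hC⟩ := deriv_bounds hh hc hB
  have h1 : ∀ s : ℝ, ContDiff ℝ ∞ fun t => h (t + s) :=
    fun s => hh.comp (contDiff_id.add contDiff_const)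
  refine ⟨C, fun s => ⟨sm_snd (h1 s), fun k => CB_snd F k (h1 s) fun i hi t => ?_⟩⟩
  rw [iteratedDeriv_comp_add_const]
  exact hC k i hi _

/-- translation of the cylinder -/
def tau (M : Type) [TopologicalSpace M] (s : ℝ) : M × ℝ ≃ₜ M × ℝ :=
  (Homeomorph.refl M).prodCongr (Homeomorph.addRight s)

theorem iso_tau (F : Pre I M ι) [I.Boundaryless] (s : ℝ) :
    Iso (cylP F) (cylP F) (tau M s).toOpenPartialHomeomorph := by
  have h1 : ∀ s : ℝ, ContMDiff (IC I) (IC I) ∞ fun x : M × ℝ => (x.1, x.2 + s) := fun s =>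
    contMDiff_fst.prodMk (contMDiff_snd.add contMDiff_const)
  refine ⟨(h1 s).contMDiffOn, (h1 (-s)).contMDiffOn, fun a x _ => ?_, ?_⟩
  · have h2 : HasMFDerivAt (IC I) (IC I) (fun x : M × ℝ => (x.1, x.2 + s)) x
        ((ContinuousLinearMap.fst ℝ E ℝ).prod (ContinuousLinearMap.snd ℝ E ℝ)) :=
      (hasMFDerivAt_fst x).prodMk
        (((hasFDerivAt_id x.2).add_const s).hasMFDerivAt.comp x (hasMFDerivAt_snd x))
    refine (congrArg (fun L : E × ℝ →L[ℝ] E × ℝ => L ((cylP F).e a x)) h2.mfderiv).trans ?_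
    cases a <;> rfl
  · simp only [Homeomorph.toOpenPartialHomeomorph_source, Homeomorph.toOpenPartialHomeomorph_target,
      Measure.restrict_univ, cylP_μ]
    exact ((MeasurePreserving.id F.μ).prod (measurePreserving_add_right volume s)).map_eq

theorem hcs_deriv_st : HasCompactSupport (deriv Real.smoothTransition) := by
  refine HasCompactSupport.intro (isCompact_Icc (a := (0 : ℝ)) (b := 1)) fun t ht => ?_
  rcases not_and_or.1 ht with h | h
  · have : Real.smoothTransition =ᶠ[𝓝 t] fun _ => 0 := by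
      filter_upwards [Iio_mem_nhds (not_le.1 h)] with z hz
      exact Real.smoothTransition.zero_of_nonpos (le_of_lt hz)
    rw [this.deriv_eq, deriv_const]
  · have : Real.smoothTransition =ᶠ[𝓝 t] fun _ => 1 := by
      filter_upwards [Ioi_mem_nhds (not_le.1 h)] with z hz
      exact Real.smoothTransition.one_of_one_le (le_of_lt hz)
    rw [this.deriv_eq, deriv_const]

/-- the cut-off equal to `1` on `[a, b]` and to `0` off `(a - 1, b + 1)` -/
def cut (a b t : ℝ) : ℝ := Real.smoothTransition (t + (1 - a)) * (1 - Real.smoothTransition (t + -b))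

theorem cut_one {a b t : ℝ} (ha : a ≤ t) (hb : t ≤ b) : cut a b t = 1 := by
  rw [cut, Real.smoothTransition.one_of_one_le (by linarith),
    Real.smoothTransition.zero_of_nonpos (by linarith)]
  norm_num

theorem cut_zero {a b t : ℝ} (h : t ∉ Icc (a - 1) (b + 1)) : cut a b t = 0 := by
  rcases not_and_or.1 h with h | h
  · rw [cut, Real.smoothTransition.zero_of_nonpos (by linarith), zero_mul]
  · rw [cut, Real.smoothTransition.one_of_one_le (x := t + -b) (by linarith), sub_self, mul_zero]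

theorem cut_mem (a b t : ℝ) : 0 ≤ cut a b t ∧ cut a b t ≤ 1 :=
  ⟨mul_nonneg (Real.smoothTransition.nonneg _) (sub_nonneg.2 (Real.smoothTransition.le_one _)),
    mul_le_one₀ (Real.smoothTransition.le_one _) (sub_nonneg.2 (Real.smoothTransition.le_one _))
      (sub_le_self _ (Real.smoothTransition.nonneg _))⟩

theorem tsupport_cut (a b : ℝ) :
    tsupport (fun x : M × ℝ => cut a b x.2) ⊆ univ ×ˢ Icc (a - 1) (b + 1) :=
  closure_minimal (fun _ hx => ⟨trivial, by_contra fun h => hx (cut_zero h)⟩)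
    (isClosed_univ.prod isClosed_Icc)

/-- the cut-offs have uniform bounds -/
theorem CBs_cut (F : Pre I M ι) [I.Boundaryless] :
    ∃ C : ℕ → ℝ, ∀ a b : ℝ, (cylP F).CBs (fun x => cut a b x.2) C := by
  obtain ⟨C, hC⟩ := CBs_shift F Real.smoothTransition.contDiff hcs_deriv_st (B := 1) fun t => by
    rw [Real.norm_eq_abs, abs_of_nonneg (Real.smoothTransition.nonneg t)]
    exact Real.smoothTransition.le_one t
  refine ⟨fun k => 2 ^ (k + 1) * ‖ContinuousLinearMap.mul ℝ ℝ‖ * |C k| * abs (‖(1 : ℝ)‖ + |C k|),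
    fun a b => ⟨(hC _).1.mul (contMDiff_const.sub (hC _).1), fun k => ?_⟩⟩
  exact CB_bil (ContinuousLinearMap.mul ℝ ℝ) (hC (1 - a)).1 (contMDiff_const.add (hC (-b)).1.neg)
    ((hC (1 - a)).2 k) (CB_add contMDiff_const (hC (-b)).1.neg (CB_const k (1 : ℝ))
      (CB_neg (hC (-b)).1 ((hC (-b)).2 k)))

variable [CompactSpace M] [I.Boundaryless]

theorem exh_cyl (F : Pre I M ι) : ∃ C, Exh (cylP F) C := by
  obtain ⟨C, hC⟩ := CBs_cut F
  refine ⟨C, fun K hK => ?_⟩
  obtain ⟨R, hR⟩ := (hK.image continuous_snd).isBounded.exists_norm_le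
  refine ⟨_, hC (-R) R, (isCompact_univ.prod isCompact_Icc).of_isClosed_subset
    (isClosed_tsupport _) (tsupport_cut _ _), fun x => cut_mem _ _ _, fun x hx => ?_⟩
  obtain ⟨h1, h2⟩ := abs_le.1 (hR _ ⟨x, hx, rfl⟩)
  exact cut_one h1 h2

/-- the Sobolev constants of the cylinder -/
theorem sob_cyl (F : Pre I M ι) (hn : Module.finrank ℝ E ≤ 3) :
    ∃ S, L4On (cylP F) univ S ∧ SupOn (cylP F) univ S := by
  have hn' : Module.finrank ℝ (E × ℝ) ≤ 4 := by
    rw [Module.finrank_prod, Module.finrank_self]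
    omega
  obtain ⟨C, hC⟩ := CBs_cut F
  have hK : IsCompact ((univ : Set M) ×ˢ Icc (-1 : ℝ) 2) := isCompact_univ.prod isCompact_Icc
  obtain ⟨S1, -, h1⟩ := l4On (cylP F) hn' hK
  obtain ⟨S2, -, h2⟩ := supOn (cylP F) hn' hK
  let χ : ℤ → M × ℝ → ℝ := fun j x => cut j (j + 1) x.2
  have ht : ∀ j x, x ∈ tsupport (χ j) → (j : ℝ) - 1 ≤ x.2 ∧ x.2 ≤ j + 1 + 1 :=
    fun j x hx => (tsupport_cut _ _ hx).2
  have hm : ∀ j : ℤ, MapsTo (tau M (-j)).toOpenPartialHomeomorph (tsupport (χ j))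
      ((univ : Set M) ×ˢ Icc (-1 : ℝ) 2) := fun j x hx =>
    ⟨trivial, by
      show x.2 + -(j : ℝ) ∈ Icc (-1 : ℝ) 2
      constructor <;> linarith [(ht j x hx).1, (ht j x hx).2]⟩
  have hone : ∀ x ∈ (univ : Set (M × ℝ)), ∃ j, χ j x = 1 :=
    fun x _ => ⟨⌊x.2⌋, cut_one (Int.floor_le _) (Int.lt_floor_add_one _).le⟩
  have h3 := l4_of_cover (cylP F) (χ := χ) (N := 4) (fun j => (hC _ _).1) (fun j => (hC _ _).2 1)
    hone (fun K hK => ?_) (fun x t hx => ?_)
    fun j => h1.iso (iso_tau F (-j)) (subset_univ _) (hm j)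
  · have h4 := sup_of_cover (cylP F) (χ := χ) (fun j => (hC _ _).1) (fun j => (hC _ _).2 3) hone
      fun j => h2.iso (iso_tau F (-j)) (subset_univ _) (hm j)
    exact ⟨_, h3.mono Subset.rfl (le_max_left _ _), h4.mono Subset.rfl (le_max_right _ _)⟩
  · obtain ⟨R, hR⟩ := (hK.image continuous_snd).isBounded.exists_norm_le
    refine (Set.finite_Icc ⌈-R - 2⌉ ⌊R + 1⌋).subset ?_
    rintro j ⟨x, hx, hxK⟩
    obtain ⟨k1, k2⟩ := abs_le.1 (hR _ ⟨x, hxK, rfl⟩)
    exact ⟨Int.ceil_le.2 (by linarith [(ht j x hx).2]), Int.le_floor.2 (by linarith [(ht j x hx).1])⟩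
  · have h5 : t ⊆ Finset.Icc (⌈x.2⌉ - 2) (⌊x.2⌋ + 1) := fun j hj => by
      obtain ⟨k1, k2⟩ := ht j x (hx j hj)
      have k3 : ⌈x.2⌉ ≤ j + 2 := Int.ceil_le.2 (by push_cast; linarith)
      have k4 : j - 1 ≤ ⌊x.2⌋ := Int.le_floor.2 (by push_cast; linarith)
      exact Finset.mem_Icc.2 ⟨by omega, by omega⟩
    refine (Finset.card_le_card h5).trans ?_
    have := Int.floor_le_ceil x.2
    rw [Int.card_Icc]
    omega

/-- **the cylinder over a closed manifold of dimension `≤ 3` is tame** -/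
theorem tame_cyl (F : Fr I M ι) (hn : Module.finrank ℝ E ≤ 3) : ∃ C, (cyl F).Tame C := by
  obtain ⟨S, h1, h2⟩ := sob_cyl F.toPre hn
  obtain ⟨C, hC⟩ := exh_cyl F.toPre
  refine tame_of (fun a b => ?_) (fun a b l => ?_) (fun a => ?_) h1 h2 hC
  · cases a <;> cases b
    exacts [Cb_const _, Cb_const _, Cb_const _, Cb_fst _ (Cb_of_compact (F.P_sm _ _))]
  · cases a <;> cases b <;> cases l <;>
      first | exact Cb_const _ | exact Cb_fst _ (Cb_of_compact (F.c_sm _ _ _))
  · cases a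
    exacts [Cb_const _, Cb_fst _ (Cb_of_compact (F.dv_sm _))]

end Crest.Agent.X212.Cht98
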