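import Crest.Agent.X212.Cht98.Br
import Crest.Agent.X212.Sob92.Ops
import Crest.Agent.R330.Rellich_893

/-! Row 212, layer AN (helper98): **Rellich's theorem** in the format `An.Pre`. -/

set_option autoImplicit false
set_option linter.unusedSectionVars false

open scoped Manifold ContDiff Topology ENNReal NNReal InnerProductSpace
open Set Filter Function MeasureTheory

noncomputable section
namespace Crest.Agent.X212.Cht98
open Crest.Agent.X212.Sob92 Crest.Agent.X212.An

/-- pairs of indices along the hyperfilter -/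
abbrev H2 : Filter (ℕ × ℕ) := (hyperfilter ℕ : Filter ℕ) ×ˢ (hyperfilter ℕ : Filter ℕ)

theorem H2_exists {P : ℕ × ℕ → Prop} (h : ∀ᶠ p in H2, P p) : ∃ m n, m < n ∧ P (m, n) := by
  obtain ⟨s, hs, h2⟩ := mem_prod_self_iff.1 h
  have hinf : s.Infinite := fun hf => hf.notMem_hyperfilter hs
  obtain ⟨m, hm⟩ := hinf.nonempty
  obtain ⟨n, hn, hmn⟩ := hinf.exists_gt m
  exact ⟨m, n, hmn, h2 (mk_mem_prod hm hn)⟩

theorem compact_of_seq {X Y S : Type*} [NormedAddCommGroup X] [NormedSpace ℝ X]
    [NormedAddCommGroup Y] [NormedSpace ℝ Y] [CompleteSpace Y] (A : X →L[ℝ] Y) {j : S → X}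
    (hj : DenseRange j) (h : ∀ u : ℕ → S, (∀ n, ‖j (u n)‖ ≤ 1) →
      Tendsto (fun p : ℕ × ℕ => ‖A (j (u p.1)) - A (j (u p.2))‖) H2 (𝓝 0)) :
    IsCompactOperator A := by
  classical
  have h1 : TotallyBounded ((fun s => A (j s)) '' {s | ‖j s‖ ≤ 1}) := by
    rw [Metric.totallyBounded_iff]
    intro ε hε
    by_contra hc
    obtain ⟨u, hu, hr⟩ := exists_seq_of_forall_finset_exists (fun s : S => ‖j s‖ ≤ 1)
      (fun s t => ε ≤ ‖A (j s) - A (j t)‖) fun t _ => by
        by_contra h2
        refine hc ⟨(fun s => A (j s)) '' t, t.finite_toSet.image _, ?_⟩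
        rintro _ ⟨s, hs, rfl⟩
        by_contra h3
        refine h2 ⟨s, hs, fun x hx => not_lt.1 fun h4 => h3 ?_⟩
        exact mem_iUnion₂.2 ⟨_, ⟨x, hx, rfl⟩, by rwa [Metric.mem_ball, dist_comm, dist_eq_norm]⟩
    obtain ⟨m, n, hmn, h5⟩ := H2_exists ((h u hu).eventually (gt_mem_nhds hε))
    exact absurd (hr m n hmn) (not_le.2 h5)
  refine ⟨_, h1.closure.isCompact_of_isClosed isClosed_closure, ?_⟩
  filter_upwards [Metric.ball_mem_nhds (0 : X) one_pos] with x hx
  have h2 : x ∈ closure (Metric.ball (0 : X) 1 ∩ range j) :=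
    (Dense.open_subset_closure_inter hj Metric.isOpen_ball) hx
  refine map_mem_closure A.continuous h2 ?_
  rintro _ ⟨h3, s, rfl⟩
  exact ⟨s, (mem_ball_zero_iff.1 h3).le, rfl⟩

theorem int_sq_le {α G : Type*} [MeasurableSpace α] {μ : Measure α} [NormedAddCommGroup G]
    {f : α → G} (hf : MemLp f 2 μ) {D : ℝ≥0} (h : eLpNorm f 2 μ ≤ D) :
    ∫ x, ‖f x‖ ^ 2 ∂μ ≤ D ^ 2 := by
  rw [R330.Rel893.eLpNorm_two_sq hf, ENNReal.ofReal_le_coe] at h
  exact (Real.sqrt_le_left D.coe_nonneg).1 h

/-- Rellich in a Euclidean space -/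
theorem rel_euc {n : ℕ} {w : ℕ → EuclideanSpace ℝ (Fin n) → ℝ} (hw : ∀ m, ContDiff ℝ ∞ (w m))
    {s : Set (EuclideanSpace ℝ (Fin n))} (hs : IsCompact s) (hws : ∀ m, support (w m) ⊆ s)
    {D : ℝ≥0} (h0 : ∀ m, eLpNorm (w m) 2 volume ≤ D)
    (h1 : ∀ m, eLpNorm (fderiv ℝ (w m)) 2 volume ≤ D) :
    Tendsto (fun p : ℕ × ℕ => eLpNorm (w p.1 - w p.2) 2 volume) H2 (𝓝 0) := by
  have hc : ∀ m, HasCompactSupport (w m) :=
    fun m => HasCompactSupport.of_support_subset_isCompact hs (hws m)
  let φ : ℕ → EuclideanSpace ℝ (Fin n) → ℂ := fun m x => Complex.ofRealCLM (w m x)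
  have hφ : ∀ m, ContDiff ℝ ∞ (φ m) := fun m => Complex.ofRealCLM.contDiff.comp (hw m)
  have hφc : ∀ m, HasCompactSupport (φ m) :=
    fun m => (hc m).comp_left (g := Complex.ofRealCLM) (map_zero _)
  have hd : ∀ m, MemLp (fderiv ℝ (w m)) 2 volume := fun m =>
    ((hw m).continuous_fderiv (by simp)).memLp_of_hasCompactSupport ((hc m).fderiv ℝ)
  refine Exists.elim (R330.Rel893.rellich_hyper hφ hφc (C := (n + 1) * D ^ 2) (fun m => ?_)
    fun m => ?_) ?_
  rotate_left 2
  · rintro Ψ ⟨hΨ, hR⟩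
    obtain ⟨R, hR'⟩ := hs.isBounded.exists_norm_le
    set B : Set (EuclideanSpace ℝ (Fin n)) := {x | ‖x‖ ≤ R}
    have hm : ∀ m, MemLp (φ m - Ψ) 2 (volume.restrict B) := fun m =>
      (((hφ m).continuous.memLp_of_hasCompactSupport (hφc m)).sub hΨ).restrict B
    have h2 := (R330.Rel893.tendsto_eLpNorm_iff hm).2 (hR R)
    have h3 := (h2.comp tendsto_fst).add (h2.comp (tendsto_snd (f := (hyperfilter ℕ : Filter ℕ))))
    rw [add_zero] at h3
    refine tendsto_of_tendsto_of_tendsto_of_le_of_le tendsto_const_nhds h3 (fun _ => zero_le)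
      fun p => ?_
    have h4 : support (w p.1 - w p.2) ⊆ B := (support_sub _ _).trans
      (union_subset (fun x hx => hR' x (hws _ hx)) fun x hx => hR' x (hws _ hx))
    refine le_trans ?_ (eLpNorm_sub_le (hm p.1).1 (hm p.2).1 one_le_two)
    rw [← eLpNorm_restrict_eq_of_support_subset h4]
    refine eLpNorm_mono fun x => le_of_eq ?_
    simp only [φ, Pi.sub_apply, sub_sub_sub_cancel_right, ← map_sub]
    rw [Complex.ofRealCLM_apply, Complex.norm_real]
  · have h2 := int_sq_le ((hw m).continuous.memLp_of_hasCompactSupport (hc m)) (h0 m)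
    have h3 : ∀ x, ‖φ m x‖ = ‖w m x‖ := fun x => by simp [φ]
    simp only [h3]
    refine h2.trans (le_mul_of_one_le_left (by positivity) ?_)
    exact le_add_of_nonneg_left (by positivity)
  · have h2 := int_sq_le (hd m) (h1 m)
    calc _ ≤ ∫ x, (n + 1 : ℝ) * ‖fderiv ℝ (w m) x‖ ^ 2 := by
          refine integral_mono_of_nonneg
            (Eventually.of_forall fun x => Finset.sum_nonneg fun _ _ => by positivity)
            ((int_sq (hd m)).const_mul _) (Eventually.of_forall fun x => ?_)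
          have h3 : ∀ i, ‖fderiv ℝ (φ m) x (EuclideanSpace.single i 1)‖ ^ 2 ≤
              ‖fderiv ℝ (w m) x‖ ^ 2 := fun i => by
            have h4 : HasFDerivAt (φ m) (Complex.ofRealCLM.comp (fderiv ℝ (w m) x)) x :=
              Complex.ofRealCLM.hasFDerivAt.comp x
                ((hw m).differentiable (by simp) x).hasFDerivAt
            rw [h4.fderiv]
            refine pow_le_pow_left₀ (norm_nonneg _) ?_ 2
            simpa using (fderiv ℝ (w m) x).le_opNorm (EuclideanSpace.single i 1)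
          refine (Finset.sum_le_sum fun i _ => h3 i).trans ?_
          rw [Finset.sum_const, Finset.card_univ, Fintype.card_fin, nsmul_eq_mul]
          exact mul_le_mul_of_nonneg_right (le_add_of_nonneg_right zero_le_one) (sq_nonneg _)
      _ ≤ _ := by rw [integral_const_mul]; gcongr

variable {E : Type} [NormedAddCommGroup E] [NormedSpace ℝ E] [FiniteDimensional ℝ E]
  [MeasurableSpace E] [BorelSpace E]
  {HM : Type} [TopologicalSpace HM] {I : ModelWithCorners ℝ E HM} [I.Boundaryless]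
  {M : Type} [TopologicalSpace M] [ChartedSpace HM M] [IsManifold I ∞ M]
  [MeasurableSpace M] [BorelSpace M] [T2Space M] [SecondCountableTopology M]
  {ι : Type} [Fintype ι]
  {V W : Type} [NormedAddCommGroup V] [InnerProductSpace ℝ V] [NormedAddCommGroup W]
  [InnerProductSpace ℝ W] [FiniteDimensional ℝ W] (F : Pre I M ι)

theorem rel_scalar {K : Set M} (hK : IsCompact K) {v : ℕ → M → ℝ} (hv : ∀ n, Sm I (v n))
    (hs : ∀ n, tsupport (v n) ⊆ K) {D : ℝ} (hD : ∀ n, F.nrm 1 (v n) ≤ D) :
    Tendsto (fun p : ℕ × ℕ => N2 F 0 (v p.1 - v p.2)) H2 (𝓝 0) := by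
  obtain ⟨t, c, χ, hχ, hcov⟩ := (atl F).bumps isOpen_univ hK (subset_univ K)
  have hc : ∀ n, HasCompactSupport (v n) :=
    fun n => hK.of_isClosed_subset (isClosed_tsupport _) (hs n)
  have hg : ∀ j n, Sm I fun x => χ j x * v n x := fun j n => (hχ j).1.mul (hv n)
  have hgc : ∀ j n, HasCompactSupport fun x => χ j x * v n x := fun j n => (hc n).mul_left
  have hm : ∀ j (p : ℕ × ℕ), MemLp ((fun x => χ j x * v p.1 x) - fun x => χ j x * v p.2 x) 2 F.μ :=
    fun j p => ((hg j _).continuous.memLp_of_hasCompactSupport (hgc j _)).sub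
      ((hg j _).continuous.memLp_of_hasCompactSupport (hgc j _))
  have loc : ∀ j, Tendsto (fun p : ℕ × ℕ => ∫ x, ‖((fun x => χ j x * v p.1 x) -
      fun x => χ j x * v p.2 x) x‖ ^ 2 ∂F.μ) H2 (𝓝 0) := by
    intro j
    obtain ⟨h1, h2, h3, -⟩ := hχ j
    have hs' : tsupport (χ j) ⊆ (c j).φ.source := h3.trans inter_subset_left
    obtain ⟨C1, k1⟩ := (c j).eLp_cmp h2.isCompact hs' 2
    obtain ⟨C3, k3⟩ := (c j).w1_le F.sm F.span h2.isCompact hs' (p := 2) one_le_two
    obtain ⟨C, hC⟩ := Cb_of_hcs (F := F) h1 h2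
    have hgs : ∀ n, support (fun x => χ j x * v n x) ⊆ tsupport (χ j) :=
      fun n => (support_mul_subset_left _ _).trans (subset_tsupport _)
    set A : ℝ≥0 := (cK ι 1 * |C 1| * D).toNNReal
    have b1 : ∀ n, F.nrm 1 (fun x => χ j x * v n x) ≤ A := fun n => by
      refine (nrm_smul h1 (hv n) (hC.2 1) (FL_of_hcs 1 (hv n) (hc n))).trans
        (le_trans ?_ (Real.le_coe_toNNReal _))
      exact mul_le_mul_of_nonneg_left (hD n) (mul_nonneg (cK_nonneg 1) (abs_nonneg _))
    have b2 : ∀ n, eLpNorm (fun x => χ j x * v n x) 2 F.μ ≤ A := fun n => by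
      rw [eLp_two F (hg j n) (hgc j n), ENNReal.ofReal_le_coe]
      exact (nrm_mono zero_le_one _).trans (b1 n)
    have b3 : ∀ n a, eLpNorm (dv I (F.e a) fun x => χ j x * v n x) 2 F.μ ≤ A := fun n a => by
      rw [← Pre.D_def, eLp_two F (F.sm_D (hg j n) a) (F.hcs_D (hgc j n) a), ENNReal.ofReal_le_coe]
      exact (nrm_D_le 0 _ a).trans (b1 n)
    have h4 := rel_euc (w := fun n => (c j).pf fun x => χ j x * v n x)
      (fun n => (c j).pf_smooth h2.isCompact hs' (hgs n) (hg j n)) ((c j).img_cpt h2.isCompact hs')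
      (fun n => (subset_tsupport _).trans ((c j).tsupport_pf h2.isCompact hs' (hgs n)))
      (D := C3 * ((1 + Fintype.card ι) * A)) (fun n => ?_) fun n => ?_
    · refine (R330.Rel893.tendsto_eLpNorm_iff (hm j)).1 ?_
      have h5 := ENNReal.Tendsto.const_mul (a := (C1 : ℝ≥0∞)) h4 (Or.inr ENNReal.coe_ne_top)
      rw [mul_zero] at h5
      refine tendsto_of_tendsto_of_tendsto_of_le_of_le tendsto_const_nhds h5 (fun _ => zero_le)
        fun p => ?_
      refine (k1 ℝ _ ((hg j _).continuous.sub (hg j _).continuous).norm.measurable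
        ((support_sub _ _).trans (union_subset (hgs _) (hgs _)))).1.trans (le_of_eq ?_)
      congr 2
      exact indicator_sub' _ _ _
    · refine (k3 _ (hg j n) (hgs n)).1.trans ?_
      push_cast
      gcongr
      exact (b2 n).trans (le_mul_of_one_le_left' le_self_add)
    · refine (k3 _ (hg j n) (hgs n)).2.trans ?_
      push_cast
      gcongr
      refine (Finset.sum_le_sum fun a _ => b3 n a).trans ?_
      rw [Finset.sum_const, Finset.card_univ, nsmul_eq_mul]
      gcongr
      exact le_add_self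
  have h1 := tendsto_finsetSum t fun j _ => loc j
  rw [Finset.sum_const_zero] at h1
  refine squeeze_zero (fun p => n2_nonneg _ _) (fun p => ?_) h1
  rw [← integral_finsetSum _ fun j _ => int_sq (hm j p)]
  refine integral_mono_of_nonneg (Eventually.of_forall fun x => by positivity)
    (integrable_finsetSum _ fun j _ => int_sq (hm j p)) (Eventually.of_forall fun x => ?_)
  by_cases hx : x ∈ K
  · obtain ⟨j, hj, hx1⟩ := hcov x hx
    refine le_trans (by simp [hx1]) (Finset.single_le_sum (f := fun j =>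
      ‖((fun x => χ j x * v p.1 x) - fun x => χ j x * v p.2 x) x‖ ^ 2) (fun _ _ => by positivity) hj)
  · have h2 : ∀ n, v n x = 0 := fun n => image_eq_zero_of_notMem_tsupport fun h => hx (hs n h)
    simp [h2]

theorem D_sub {N : Type} [NormedAddCommGroup N] [NormedSpace ℝ N] {u v : M → N} (hu : Sm I u)
    (hv : Sm I v) (a : ι) : F.D a (u - v) = F.D a u - F.D a v := funext fun _ =>
  dv_sub (hu.mdifferentiableAt (by simp)) (hv.mdifferentiableAt (by simp))

/-- **Rellich**, for functions with supports in a fixed compact set -/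
theorem rel_seq {K : Set M} (hK : IsCompact K) (k : ℕ) : ∀ {v : ℕ → M → W}, (∀ n, Sm I (v n)) →
    (∀ n, tsupport (v n) ⊆ K) → ∀ {D : ℝ}, (∀ n, F.nrm (k + 1) (v n) ≤ D) →
    Tendsto (fun p : ℕ × ℕ => N2 F k (v p.1 - v p.2)) H2 (𝓝 0) := by
  have base : ∀ {v : ℕ → M → W}, (∀ n, Sm I (v n)) →
      (∀ n, tsupport (v n) ⊆ K) → ∀ {D : ℝ}, (∀ n, F.nrm 1 (v n) ≤ D) →
      Tendsto (fun p : ℕ × ℕ => N2 F 0 (v p.1 - v p.2)) H2 (𝓝 0) := by
    intro v hv hs D hD
    let o := stdOrthonormalBasis ℝ W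
    have hc : ∀ n, HasCompactSupport (v n) :=
      fun n => hK.of_isClosed_subset (isClosed_tsupport _) (hs n)
    have hsm : ∀ α n, Sm I fun x => innerSL ℝ (o α) (v n x) :=
      fun α n => (innerSL ℝ (o α)).contMDiff.comp (hv n)
    have h1 := tendsto_finsetSum Finset.univ fun α _ => rel_scalar F hK (hsm α)
      (fun n => (tsupport_comp_subset (g := innerSL ℝ (o α)) (map_zero _) (v n)).trans (hs n)) (D := D) fun n => by
        refine le_trans ?_ (hD n)
        rw [nrm_eq, nrm_eq]
        refine Real.sqrt_le_sqrt ((n2_clm_le F.sm _ 1 (hv n) (FL_of_hcs 1 (hv n) (hc n))).trans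
          (le_of_eq ?_))
        rw [innerSL_apply_norm, o.orthonormal.1 α, one_pow, one_mul]
    rw [Finset.sum_const_zero] at h1
    refine h1.congr fun p => ?_
    simp only [n2]
    rw [← integral_finsetSum _ fun α _ => int_sq
      (((hsm α _).continuous.memLp_of_hasCompactSupport ((hc _).comp_left (map_zero _))).sub
        ((hsm α _).continuous.memLp_of_hasCompactSupport ((hc _).comp_left (map_zero _))))]
    refine integral_congr_ae (Eventually.of_forall fun x => ?_)
    simp only [Pi.sub_apply, innerSL_apply_apply, ← inner_sub_right]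
    exact o.sum_sq_norm_inner_right _
  induction k with
  | zero => exact base
  | succ k ih =>
    intro v hv hs D hD
    have h1 := (base hv hs fun n => (nrm_mono (by omega) _).trans (hD n)).add
      (tendsto_finsetSum Finset.univ fun a _ => ih (v := fun n => F.D a (v n))
        (fun n => F.sm_D (hv n) a) (fun n => (F.tsupport_D _ a).trans (hs n))
        fun n => (nrm_D_le _ _ a).trans (hD n))
    rw [Finset.sum_const_zero, add_zero] at h1
    refine h1.congr fun p => ?_
    simp only [← D_sub F (hv _) (hv _)]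
    rfl

variable {F} {p : M → V →L[ℝ] V} {q : M → W →L[ℝ] W}

/-- **Rellich**: an operator gaining one derivative, with supports in a compact set, is compact -/
theorem rellich_rep {j k : ℕ} {A : F.H j p →L[ℝ] F.H k q} {T : (M → V) → M → W} (hA : F.Rep A T)
    {K : Set M} (hK : IsCompact K) (hs : ∀ u : Sec I p, tsupport (T u.1) ⊆ K) {C : ℝ}
    (hb : ∀ u : Sec I p, F.nrm (k + 1) (T u.1) ≤ C * F.nrm j u.1) : IsCompactOperator A := by
  refine compact_of_seq A (F.dense_toH j p) fun u hu => ?_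
  have h1 := rel_seq F hK k (v := fun n => T (u n).1) (fun n => (RepT_mem hA (u n)).1)
    (fun n => hs _) (D := |C|) fun n => (hb _).trans ((mul_le_mul_of_nonneg_right (le_abs_self C)
      (nrm_nonneg _ _)).trans (mul_le_of_le_one_right (abs_nonneg C) (by
        rw [← Pre.norm_toH]; exact hu n)))
  have h2 := (Real.continuous_sqrt.tendsto 0).comp h1
  rw [Real.sqrt_zero] at h2
  refine h2.congr fun p => ?_
  rw [RepT_toH hA, RepT_toH hA, ← map_sub, Pre.norm_toH, nrm_eq]
  rfl

/-- **Rellich** for a compactly supported coefficient -/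
theorem rellich_mul {f : M → V →L[ℝ] W} (hf : Sm I f) (hc : HasCompactSupport f)
    (hm : Maps p q f) {j k : ℕ} (h : k < j) :
    IsCompactOperator ((F.mulH k p q f).comp (F.incl j k p)) := by
  obtain ⟨C, hC⟩ := Cb_of_hcs (F := F) hf hc
  refine rellich_rep (RepT_comp (rep_mulH ⟨C, hC⟩ hm) (rep_incl h.le)) hc.isCompact
    (fun u => closure_mono fun x hx h0 => hx (by simp [h0])) (C := cK ι (k + 1) * |C (k + 1)|)
    fun u => (nrm_app hf u.2.1 (hC.2 _) (FL_of_hcs _ u.2.1 u.2.2.1)).trans ?_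
  exact mul_le_mul_of_nonneg_left (nrm_mono h _) (mul_nonneg (cK_nonneg _) (abs_nonneg _))

/-- **Rellich** for a compactly supported cut-off -/
theorem rellich_smul {χ : M → ℝ} (hχ : Sm I χ) (hc : HasCompactSupport χ) {j k : ℕ} (h : k < j) :
    IsCompactOperator ((smulH F k q χ).comp (F.incl j k q)) := by
  rw [smulH_eq]
  refine rellich_mul (hχ.smul contMDiff_const) (hc.mono fun x hx h0 => hx (by simp [h0]))
    (fun x v hv => ?_) h
  simp [hv]

/-- **Rellich** on a closed manifold -/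
theorem rellich [CompactSpace M] {j k : ℕ} (h : k < j) : IsCompactOperator (F.incl j k q) :=
  rellich_rep (rep_incl h.le) isCompact_univ (fun _ => subset_univ _) (C := 1)
    fun u => by simpa using nrm_mono h u.1

end Crest.Agent.X212.Cht98
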