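import Crest.Agent.R249.SReg3_352

/-! Row 212, layer AN (helper98): weak solutions for a spanning frame and a density on an open
subset of a Euclidean space are smooth (reduction to `R249.SReg352.sys_reg`). -/

set_option autoImplicit false
set_option linter.unusedSectionVars false

open scoped ContDiff Topology ENNReal NNReal RealInnerProductSpace
open Set Filter Function MeasureTheory

noncomputable section
namespace Crest.Agent.X212.Cht98
open Crest.Agent.R249.EV Crest.Agent.R249.SReg352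

variable {F : Type} [NormedAddCommGroup F] [InnerProductSpace ℝ F] [FiniteDimensional ℝ F]
  [MeasurableSpace F] [BorelSpace F] {ι n κ : Type} [Fintype ι] [Fintype n] [Fintype κ]

/-- smooth dual coefficients of a smooth spanning family -/
theorem exists_dual {U : Set F} {w : ι → F → F} (hw : ∀ a, ContDiffOn ℝ ∞ (w a) U)
    (hsp : ∀ y ∈ U, Submodule.span ℝ (range fun a => w a y) = ⊤) (v : F) :
    ∃ l : ι → F → ℝ, (∀ a, ContDiffOn ℝ ∞ (l a) U) ∧ ∀ y ∈ U, ∑ a, l a y • w a y = v := by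
  let G : F → F →L[ℝ] F := fun y => ∑ a, (innerSL ℝ (w a y)).smulRight (w a y)
  have hG : ContDiffOn ℝ ∞ G U := ContDiffOn.sum fun a _ =>
    ((innerSL ℝ (E := F)).contDiff.comp_contDiffOn (hw a)).smulRight (hw a)
  have hGa : ∀ y z, G y z = ∑ a, ⟪w a y, z⟫ • w a y := fun y z => by simp [G]
  have hinv : ∀ y ∈ U, (G y).IsInvertible := by
    intro y hy
    have hinj : Injective (G y) := by
      refine (injective_iff_map_eq_zero _).2 fun z hz => ?_
      have h1 : ∑ a, ⟪w a y, z⟫ ^ 2 = 0 := by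
        have h2 := congrArg (fun t => ⟪t, z⟫) hz
        simp only [hGa, sum_inner, real_inner_smul_left, inner_zero_left] at h2
        simpa only [sq] using h2
      have h3 : ∀ a, ⟪w a y, z⟫ = 0 := fun a => pow_eq_zero_iff (two_ne_zero) |>.1
        ((Finset.sum_eq_zero_iff_of_nonneg fun _ _ => sq_nonneg _).1 h1 a (Finset.mem_univ a))
      have h4 : (innerSL ℝ z : F →ₗ[ℝ] ℝ) = 0 :=
        LinearMap.ext_on_range (hsp y hy) fun a => by simpa [real_inner_comm] using h3 a
      have h5 : ⟪z, z⟫ = 0 := congrArg (fun L : F →ₗ[ℝ] ℝ => L z) h4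
      exact inner_self_eq_zero.1 h5
    exact ⟨(LinearEquiv.ofInjectiveEndo (G y : F →ₗ[ℝ] F) hinj).toContinuousLinearEquiv,
      by ext z; rfl⟩
  have hI : ContDiffOn ℝ ∞ (fun y => (G y).inverse) U := fun y hy =>
    ((hinv y hy).contDiffAt_map_inverse (n := ∞)).comp_contDiffWithinAt y (hG y hy)
  refine ⟨fun a y => ⟪w a y, (G y).inverse v⟫, fun a => (hw a).inner ℝ
    (hI.clm_apply contDiffOn_const), fun y hy => ?_⟩
  rw [← hGa]
  exact (hinv y hy).self_apply_inverse v

theorem TO.int {U : Set F} {φ : F → ℝ} (h : TO U φ) : Integrable φ := h.1.integrable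

theorem TO.sum {U : Set F} {α : Type} (s : Finset α) {φ : α → F → ℝ} (h : ∀ i, TO U (φ i)) :
    TO U fun y => ∑ i ∈ s, φ i y := by
  classical
  induction s using Finset.induction_on with
  | empty =>
    simp only [Finset.sum_empty]
    exact ⟨⟨contDiff_const, HasCompactSupport.zero⟩, by
      have : tsupport (fun _ : F => (0 : ℝ)) = ∅ := tsupport_zero
      rw [this]; exact empty_subset _⟩
  | insert a s ha ih =>
    simp only [Finset.sum_insert ha]
    exact (h a).add ih

theorem TO.diffAt {U : Set F} {φ : F → ℝ} (h : TO U φ) (y : F) : DifferentiableAt ℝ φ y :=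
  h.1.1.differentiable (by simp) y

theorem integral_dd {U : Set F} (hU : IsOpen U) {φ : F → ℝ} (h : TO U φ) (d : F) :
    ∫ y, dd d φ y = 0 := by
  have h1 := ibp_on hU (g := fun _ => (1 : ℝ)) contDiffOn_const h d
  simpa [dd] using h1

theorem dd_mul_at (d : F) {f g : F → ℝ} {y : F} (hf : DifferentiableAt ℝ f y)
    (hg : DifferentiableAt ℝ g y) :
    dd d (fun y => f y * g y) y = dd d f y * g y + f y * dd d g y := by
  unfold dd
  rw [fderiv_fun_mul hf hg]
  simp only [add_apply, smul_apply, smul_eq_mul]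
  ring

theorem L2on.mul_on {U : Set F} (hU : IsOpen U) {a u : F → ℝ} (ha : ContinuousOn a U)
    (h : L2on U u) : L2on U fun y => a y * u y := by
  refine ⟨h.1.continuousOn_mul ha hU.isLocallyClosed, ?_⟩
  have h2 := h.2.continuousOn_mul (ha.pow 2) hU.isLocallyClosed
  simpa only [mul_pow, Pi.pow_apply] using h2

theorem L2on.add {U : Set F} {u v : F → ℝ} (h : L2on U u) (h' : L2on U v) :
    L2on U fun y => u y + v y := by
  refine ⟨h.1.add h'.1, fun y hy => ?_⟩
  have h1 := (h.2 y hy).add (h'.2 y hy)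
  obtain ⟨s, hs, h2⟩ := h1.eventually.and ((h.1 y hy).add (h'.1 y hy)).eventually |>.exists_mem_of_smallSets
  refine ⟨s, hs, Integrable.mono' (h2.1.const_mul 2) (h2.2.1.pow 2)
    (Eventually.of_forall fun z => ?_)⟩
  rw [Real.norm_eq_abs, abs_of_nonneg (sq_nonneg _)]
  show (u z + v z) ^ 2 ≤ 2 * (u z ^ 2 + v z ^ 2)
  nlinarith [sq_nonneg (u z - v z)]

theorem L2on.sum {U : Set F} {α : Type} (s : Finset α) {u : α → F → ℝ} (h : ∀ i, L2on U (u i)) :
    L2on U fun y => ∑ i ∈ s, u i y := by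
  classical
  induction s using Finset.induction_on with
  | empty =>
    simp only [Finset.sum_empty]
    exact ⟨(locallyIntegrable_const (0 : ℝ)).locallyIntegrableOn U, by
      simpa using (locallyIntegrable_const (0 : ℝ)).locallyIntegrableOn U⟩
  | insert a s ha ih =>
    simp only [Finset.sum_insert ha]
    exact L2on.add (h a) ih

/-- divergence of the field with components `X i` -/
def dvg (b : n → F) (X : n → F → ℝ) (y : F) : ℝ := ∑ i, dd (b i) (X i) y

section main
variable {U : Set F} (hU : IsOpen U) (b : OrthonormalBasis n ℝ F) {w : ι → F → F}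
  (hw : ∀ a, ContDiffOn ℝ ∞ (w a) U) {ρ : F → ℝ} (hρ : ContDiffOn ℝ ∞ ρ U)
  (hρp : ∀ y ∈ U, 0 < ρ y) {d : ι → F → ℝ} (hd : ∀ a, ContDiffOn ℝ ∞ (d a) U)

theorem fderiv_eq_sum (ψ : F → ℝ) (y v : F) :
    fderiv ℝ ψ y v = ∑ i, ⟪b i, v⟫ * dd (b i) ψ y := by
  conv_lhs => rw [← b.sum_repr' v, map_sum]
  simp only [map_smul, smul_eq_mul, dd]

include hU hw hρ hρp hd

/-- the formal adjoint of the frame derivative is the divergence -/
theorem adj_eq (hibp : ∀ a ψ, TO U ψ →
      ∫ y, ρ y * (fderiv ℝ ψ y (w a y) + d a y * ψ y) = 0) (a : ι) {ψ : F → ℝ} (hψ : TO U ψ)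
    (y : F) : ρ y * (fderiv ℝ ψ y (w a y) + d a y * ψ y) =
      dvg b (fun i y => ρ y * ⟪b i, w a y⟫ * ψ y) y := by
  have hE : ∀ i, ContDiffOn ℝ ∞ (fun y => ρ y * ⟪b i, w a y⟫) U :=
    fun i => hρ.mul (contDiffOn_const.inner ℝ (hw a))
  have h1 : ∀ {ψ : F → ℝ}, TO U ψ → ∀ y, dvg b (fun i y => ρ y * ⟪b i, w a y⟫ * ψ y) y =
      ρ y * fderiv ℝ ψ y (w a y) + dvg b (fun i y => ρ y * ⟪b i, w a y⟫) y * ψ y := by
    intro ψ hψ y
    by_cases hy : y ∈ U
    · simp only [dvg, fderiv_eq_sum b ψ y, Finset.mul_sum, Finset.sum_mul,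
        ← Finset.sum_add_distrib]
      refine Finset.sum_congr rfl fun i _ => ?_
      rw [dd_mul_at _ (((hE i).contDiffAt (hU.mem_nhds hy)).differentiableAt (by simp))
        (TO.diffAt hψ y)]
      ring
    · have h2 : ∀ i, dd (b i) (fun y => ρ y * ⟪b i, w a y⟫ * ψ y) y = 0 :=
        fun i => ((hψ.mul_on hU (hE i)).dd (b i)).zero_off hy
      have h3 : ∀ i, dd (b i) ψ y = 0 := fun i => (hψ.dd (b i)).zero_off hy
      simp only [dvg, h2, fderiv_eq_sum b ψ y, h3, hψ.zero_off hy, mul_zero,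
        Finset.sum_const_zero, add_zero]
  have hD : ContinuousOn (dvg b fun i y => ρ y * ⟪b i, w a y⟫) U :=
    continuousOn_finsetSum _ fun i _ => (contDiffOn_dd hU (hE i) _).continuousOn
  have hR : ContinuousOn (fun y => ρ y * d a y) U := (hρ.mul (hd a)).continuousOn
  have h4 : ∀ y ∈ U, ρ y * d a y = dvg b (fun i y => ρ y * ⟪b i, w a y⟫) y := by
    refine eqOn_of_ae hU hR hD (ae_eq_of_pair hU (locInt_contOn hU hR) (locInt_contOn hU hD)
      fun φ hφ => ?_)
    have h5 : ∫ y, dvg b (fun i y => ρ y * ⟪b i, w a y⟫ * φ y) y = 0 := by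
      unfold dvg
      rw [integral_finsetSum _ fun i _ => TO.int ((hφ.mul_on hU (hE i)).dd (b i))]
      exact Finset.sum_eq_zero fun i _ => integral_dd hU (hφ.mul_on hU (hE i)) _
    have i1 := integrable_mul_test (locInt_contOn hU hR) hφ
    have i2 := integrable_mul_test (locInt_contOn hU hD) hφ
    have i3 : Integrable fun y => ρ y * fderiv ℝ φ y (w a y) := by
      simp only [fderiv_eq_sum b φ, Finset.mul_sum, ← mul_assoc]
      exact integrable_finsetSum _ fun i _ => TO.int ((hφ.dd (b i)).mul_on hU (hE i))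
    have h6 := hibp a φ hφ
    simp only [mul_add, ← mul_assoc] at h6
    simp only [h1 hφ] at h5
    rw [integral_add i3 i1] at h6
    rw [integral_add i3 i2] at h5
    linarith
  rw [h1 hψ, mul_add, ← mul_assoc]
  by_cases hy : y ∈ U
  · rw [h4 y hy]
  · rw [hψ.zero_off hy, mul_zero, mul_zero]

/-- weak frame derivatives, tested without the density -/
theorem weak_dvg (hibp : ∀ a ψ, TO U ψ →
      ∫ y, ρ y * (fderiv ℝ ψ y (w a y) + d a y * ψ y) = 0) (a : ι) {u v : F → ℝ}
    (h : ∀ ψ, TO U ψ → ∫ y, v y * (ρ y * ψ y) =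
      -∫ y, u y * (ρ y * (fderiv ℝ ψ y (w a y) + d a y * ψ y))) {ψ : F → ℝ} (hψ : TO U ψ) :
    ∫ y, v y * ψ y = -∫ y, u y * dvg b (fun i y => ⟪b i, w a y⟫ * ψ y) y := by
  have hi : ContDiffOn ℝ ∞ (fun y => (ρ y)⁻¹) U := hρ.inv fun y hy => (hρp y hy).ne'
  have h1 := h _ (hψ.mul_on hU hi)
  have h2 : ∀ y, ρ y * ((ρ y)⁻¹ * ψ y) = ψ y := fun y => by
    by_cases hy : y ∈ U
    · rw [← mul_assoc, mul_inv_cancel₀ (hρp y hy).ne', one_mul]
    · rw [hψ.zero_off hy, mul_zero, mul_zero]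
  simp only [adj_eq hU b hw hρ hρp hd hibp a (hψ.mul_on hU hi), h2] at h1
  have h3 : (fun i y => ρ y * ⟪b i, w a y⟫ * ((ρ y)⁻¹ * ψ y)) =
      fun i y => ⟪b i, w a y⟫ * ψ y := by
    funext i y
    rw [mul_right_comm, h2, mul_comm]
  rwa [h3] at h1

/-- **regularity in a Euclidean chart** -/
theorem reg_euc (hsp : ∀ y ∈ U, Submodule.span ℝ (range fun a => w a y) = ⊤)
    (hibp : ∀ a ψ, TO U ψ → ∫ y, ρ y * (fderiv ℝ ψ y (w a y) + d a y * ψ y) = 0)
    {B : ι → κ → κ → F → ℝ} (hB : ∀ a α β, ContDiffOn ℝ ∞ (B a α β) U)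
    {C : κ → κ → F → ℝ} (hC : ∀ α β, ContDiffOn ℝ ∞ (C α β) U)
    {f : κ → F → ℝ} (hf : ∀ α, ContDiffOn ℝ ∞ (f α) U)
    {u : κ → F → ℝ} {v : ι → κ → F → ℝ} (hu : ∀ α, L2on U (u α)) (hv : ∀ a α, L2on U (v a α))
    (hW : ∀ a α ψ, TO U ψ → ∫ y, v a α y * (ρ y * ψ y) =
      -∫ y, u α y * (ρ y * (fderiv ℝ ψ y (w a y) + d a y * ψ y)))
    (heq : ∀ α ψ, TO U ψ → ∑ a, ∫ y, v a α y * (ρ y * fderiv ℝ ψ y (w a y)) =
      ∫ y, ((∑ a, ∑ β, B a α β y * v a β y) + (∑ β, C α β y * u β y) + f α y) * (ρ y * ψ y)) :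
    ∃ s : κ → F → ℝ, (∀ α, ContDiffOn ℝ ∞ (s α) U) ∧
      ∀ α, ∀ᵐ y ∂(volume : Measure F), y ∈ U → s α y = u α y := by
  classical
  let b := stdOrthonormalBasis ℝ F
  choose l hl hl' using fun i => exists_dual hw hsp (b i)
  have hE : ∀ a i, ContDiffOn ℝ ∞ (fun y => ⟪b i, w a y⟫) U :=
    fun a i => contDiffOn_const.inner ℝ (hw a)
  let u' : Fin (Module.finrank ℝ F) → κ → F → ℝ := fun i α y => ∑ a, l i a y * v a α y
  have hu' : ∀ i α, L2on U (u' i α) :=
    fun i α => L2on.sum _ fun a => L2on.mul_on hU (hl i a).continuousOn (hv a α)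
  have hlE : ∀ i j, ∀ y ∈ U, ∑ a, ⟪b j, w a y⟫ * l i a y = if j = i then 1 else 0 := by
    intro i j y hy
    rw [← orthonormal_iff_ite.1 b.orthonormal j i, ← hl' i y hy, inner_sum]
    exact Finset.sum_congr rfl fun a _ => by rw [real_inner_smul_right, mul_comm]
  have hWD : ∀ i α, WDon U (b i) (u α) (u' i α) := by
    intro i α ψ hψ
    have hT : ∀ a, TO U fun y => l i a y * ψ y := fun a => hψ.mul_on hU (hl i a)
    have hT2 : ∀ a j, TO U fun y => ⟪b j, w a y⟫ * (l i a y * ψ y) :=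
      fun a j => (hT a).mul_on hU (hE a j)
    have h1 : ∫ y, u' i α y * ψ y = ∑ a, ∫ y, v a α y * (l i a y * ψ y) := by
      rw [← integral_finsetSum _ fun a _ => integrable_mul_test (hv a α).1 (hT a)]
      refine integral_congr_ae (Eventually.of_forall fun y => ?_)
      simp only [u', Finset.sum_mul]
      exact Finset.sum_congr rfl fun a _ => by ring
    have h2 : ∀ y, dd (b i) ψ y =
        ∑ a, dvg b (fun j y => ⟪b j, w a y⟫ * (l i a y * ψ y)) y := by
      intro y
      have h3 : ∀ j, ∑ a, dd (b j) (fun y => ⟪b j, w a y⟫ * (l i a y * ψ y)) y =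
          if j = i then dd (b j) ψ y else 0 := by
        intro j
        have h4 : (fun y => ∑ a, ⟪b j, w a y⟫ * (l i a y * ψ y)) =
            fun y => (if j = i then 1 else 0) * ψ y := by
          funext z
          by_cases hz : z ∈ U
          · rw [← hlE i j z hz, Finset.sum_mul]
            exact Finset.sum_congr rfl fun a _ => by ring
          · simp [hψ.zero_off hz]
        have h5 : ∑ a, dd (b j) (fun y => ⟪b j, w a y⟫ * (l i a y * ψ y)) y =
            dd (b j) (fun y => ∑ a, ⟪b j, w a y⟫ * (l i a y * ψ y)) y := by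
          unfold dd
          rw [fderiv_fun_sum fun a _ => TO.diffAt (hT2 a j) y, _root_.sum_apply]
        rw [h5, h4]
        split_ifs
        · simp only [one_mul]
        · simp [dd]
      simp only [dvg]
      rw [Finset.sum_comm]
      simp only [h3, Finset.sum_ite_eq', Finset.mem_univ, if_true]
    have h6 : ∀ a, Integrable fun y =>
        u α y * dvg b (fun j y => ⟪b j, w a y⟫ * (l i a y * ψ y)) y :=
      fun a => integrable_mul_test (hu α).1 (TO.sum _ fun j => (hT2 a j).dd (b j))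
    rw [h1, Finset.sum_congr rfl fun a _ =>
      weak_dvg hU b hw hρ hρp hd hibp a (hW a α) (hT a), Finset.sum_neg_distrib, neg_neg,
      ← integral_finsetSum _ fun a _ => h6 a]
    simp only [h2, Finset.mul_sum]
  have hvu : ∀ a α, ∀ᵐ y ∂(volume : Measure F), y ∈ U →
      v a α y = ∑ i, ⟪b i, w a y⟫ * u' i α y := by
    intro a α
    refine ae_eq_of_pair hU (hv a α).1
      (L2on.sum _ fun i => L2on.mul_on hU (hE a i).continuousOn (hu' i α)).1 fun ψ hψ => ?_
    have hT : ∀ i, TO U fun y => ⟪b i, w a y⟫ * ψ y := fun i => hψ.mul_on hU (hE a i)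
    rw [weak_dvg hU b hw hρ hρp hd hibp a (hW a α) hψ]
    simp only [dvg, Finset.mul_sum, Finset.sum_mul]
    rw [integral_finsetSum _ fun i _ => integrable_mul_test (hu α).1 ((hT i).dd (b i)),
      Finset.sum_congr rfl fun i _ => hWD i α _ (hT i), Finset.sum_neg_distrib, neg_neg,
      ← integral_finsetSum _ fun i _ => integrable_mul_test (hu' i α).1 (hT i)]
    refine integral_congr_ae (Eventually.of_forall fun y => ?_)
    exact Finset.sum_congr rfl fun i _ => by ring
  have hall : ∀ᵐ y ∂(volume : Measure F), ∀ a α, y ∈ U →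
      v a α y = ∑ i, ⟪b i, w a y⟫ * u' i α y :=
    ae_all_iff.2 fun a => ae_all_iff.2 fun α => hvu a α
  refine Exists.imp (fun s h => ⟨h.1, h.2.1⟩) (sys_reg (κ := κ) hU b
    (a := fun i j y => ρ y * ∑ a, ⟪b i, w a y⟫ * ⟪b j, w a y⟫)
    (fun i j => hρ.mul (ContDiffOn.sum fun a _ => (hE a i).mul (hE a j))) ?_
    (B := fun i α β y => ρ y * ∑ a, B a α β y * ⟪b i, w a y⟫)
    (fun i α β => hρ.mul (ContDiffOn.sum fun a _ => (hB a α β).mul (hE a i)))
    (C := fun α β y => ρ y * C α β y) (fun α β => hρ.mul (hC α β))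
    (f := fun α y => ρ y * f α y) (fun α => hρ.mul (hf α)) hu hu' hWD ?_)
  · intro y hy ξ hξ
    have h1 : ∑ i, ∑ j, (ρ y * ∑ a, ⟪b i, w a y⟫ * ⟪b j, w a y⟫) * ξ j * ξ i =
        ρ y * ∑ a, ⟪∑ i, ξ i • b i, w a y⟫ ^ 2 := by
      simp only [sum_inner, real_inner_smul_left, sq, Finset.mul_sum, Finset.sum_mul]
      rw [Finset.sum_congr rfl fun i _ => Finset.sum_comm, Finset.sum_comm]
      refine Finset.sum_congr rfl fun a _ => ?_
      rw [Finset.sum_comm]
      exact Finset.sum_congr rfl fun i _ => Finset.sum_congr rfl fun j _ => by ring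
    rw [h1]
    refine mul_pos (hρp y hy) (lt_of_le_of_ne (Finset.sum_nonneg fun _ _ => sq_nonneg _)
      fun h => hξ ?_)
    have h3 : ∀ a, ⟪∑ i, ξ i • b i, w a y⟫ = 0 := fun a => pow_eq_zero_iff (two_ne_zero) |>.1
      ((Finset.sum_eq_zero_iff_of_nonneg fun _ _ => sq_nonneg _).1 h.symm a (Finset.mem_univ a))
    have h4 : (innerSL ℝ (∑ i, ξ i • b i) : F →ₗ[ℝ] ℝ) = 0 :=
      LinearMap.ext_on_range (hsp y hy) fun a => h3 a
    have h5 : ⟪∑ i, ξ i • b i, ∑ i, ξ i • b i⟫ = 0 :=
      congrArg (fun L : F →ₗ[ℝ] ℝ => L (∑ i, ξ i • b i)) h4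
    exact funext (Fintype.linearIndependent_iff.1 b.orthonormal.linearIndependent ξ
      (inner_self_eq_zero.1 h5))
  · intro α ψ hψ
    have hT : ∀ a, TO U fun y => ρ y * fderiv ℝ ψ y (w a y) := fun a => by
      simp only [fderiv_eq_sum b ψ]
      exact (TO.sum _ fun i => (hψ.dd (b i)).mul_on hU (hE a i)).mul_on hU hρ
    have hI : ∀ i, Integrable fun y =>
        (∑ j, (ρ y * ∑ a, ⟪b i, w a y⟫ * ⟪b j, w a y⟫) * u' j α y) * dd (b i) ψ y :=
      fun i => integrable_mul_test (L2on.sum _ fun j => L2on.mul_on hU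
        (hρ.mul (ContDiffOn.sum fun a _ => (hE a i).mul (hE a j))).continuousOn (hu' j α)).1
        (hψ.dd (b i))
    have h1 := heq α ψ hψ
    rw [← integral_finsetSum _ fun a _ => integrable_mul_test (hv a α).1 (hT a)] at h1
    rw [← integral_finsetSum _ fun i _ => hI i]
    refine (integral_congr_ae ?_).trans (h1.trans (integral_congr_ae ?_))
    · filter_upwards [hall] with y hy
      by_cases hyU : y ∈ U
      · simp only [fun a => hy a α hyU, fderiv_eq_sum b ψ y, Finset.mul_sum, Finset.sum_mul]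
        rw [Finset.sum_congr rfl fun i _ => Finset.sum_comm, Finset.sum_comm]
        refine Finset.sum_congr rfl fun a _ => ?_
        exact Finset.sum_congr rfl fun i _ => Finset.sum_congr rfl fun j _ => by ring
      · simp [fderiv_eq_sum b ψ y, fun i => (hψ.dd (b i)).zero_off hyU]
    · filter_upwards [hall] with y hy
      by_cases hyU : y ∈ U
      · have h2 : ∑ i, ∑ β, (ρ y * ∑ a, B a α β y * ⟪b i, w a y⟫) * u' i β y =
            ρ y * ∑ a, ∑ β, B a α β y * v a β y := by
          simp only [fun a β => hy a β hyU, Finset.mul_sum, Finset.sum_mul]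
          rw [Finset.sum_congr rfl fun i _ => Finset.sum_comm, Finset.sum_comm]
          refine Finset.sum_congr rfl fun a _ => ?_
          rw [Finset.sum_comm]
          exact Finset.sum_congr rfl fun β _ => Finset.sum_congr rfl fun i _ => by ring
        have h3 : ∑ β, ρ y * C α β y * u β y = ρ y * ∑ β, C α β y * u β y := by
          simp only [Finset.mul_sum, mul_assoc]
        rw [h2, h3]
        ring
      · simp [hψ.zero_off hyU]

end main

end Crest.Agent.X212.Cht98
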