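import Crest.Agent.X212.Cht98.Br
import Crest.Agent.X212.Cht98.RegE

/-! Row 212, layer AN (helper98): **weak solutions are smooth** in the format `An.Fr`. -/

set_option autoImplicit false
set_option linter.unusedSectionVars false

open scoped Manifold ContDiff Topology ENNReal NNReal InnerProductSpace
open Set Filter Function MeasureTheory

noncomputable section
namespace Crest.Agent.X212.Cht98
open Crest.Agent.X212.Sob92 Crest.Agent.X212.An
open Crest.Agent.R249.EV Crest.Agent.R249.SReg352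

section chart
variable {E H : Type} [NormedAddCommGroup E] [NormedSpace ℝ E] [TopologicalSpace H]
  {I : ModelWithCorners ℝ E H} {M : Type} [TopologicalSpace M] [ChartedSpace H M]
  [MeasurableSpace M] [BorelSpace M] [T2Space M]
  {F : Type} [NormedAddCommGroup F] [InnerProductSpace ℝ F] [FiniteDimensional ℝ F]
  [MeasurableSpace F] [BorelSpace F]
  {V : Type} [NormedAddCommGroup V] [NormedSpace ℝ V] {μ : Measure M} (c : Ch I μ F)

theorem Ch.ae_of_ae {P : F → Prop} (h : ∀ᵐ y ∂(volume : Measure F), P y) :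
    ∀ᵐ x ∂μ, x ∈ c.φ.source → P (c.φ x) := by
  obtain ⟨N, hN, hNm, hN0⟩ := exists_measurable_superset_of_null (ae_iff.1 h)
  have hm : MeasurableSet (c.φ.source ∩ c.φ ⁻¹' N) := by
    have h1 := c.φ.open_source.measurableSet.subtype_image
      (c.φ.continuousOn.domRestrict.measurable hNm)
    convert h1 using 1
    ext x
    constructor
    · rintro ⟨h2, h3⟩
      exact ⟨⟨x, h2⟩, h3, rfl⟩
    · rintro ⟨⟨z, h2⟩, h3, rfl⟩
      exact ⟨h2, h3⟩
  have h0 : μ (c.φ.source ∩ c.φ ⁻¹' N) = 0 := by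
    rw [c.μ_apply hm inter_subset_left]
    refine lintegral_eq_zero_of_ae_eq_zero ?_
    rw [EventuallyEq, ae_restrict_iff' c.φ.open_target.measurableSet]
    filter_upwards [measure_eq_zero_iff_ae_notMem.1 hN0] with y hy hyt
    have h2 : c.φ.symm y ∉ c.φ.source ∩ c.φ ⁻¹' N := fun h3 => hy (by
      have h4 : c.φ (c.φ.symm y) ∈ N := h3.2
      rwa [c.φ.right_inv hyt] at h4)
    simp [indicator_of_notMem h2]
  filter_upwards [measure_eq_zero_iff_ae_notMem.1 h0] with x hx hxs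
  by_contra h2
  exact hx ⟨hxs, hN h2⟩

theorem Ch.memLp_loc {L : Set F} (hL : IsCompact L) (hLs : L ⊆ c.φ.target) {u : M → V}
    {p : ℝ≥0∞} (hu : MemLp u p (μ.restrict (c.φ.symm '' L))) :
    MemLp (fun y => u (c.φ.symm y)) p ((volume : Measure F).restrict L) := by
  have hK := c.simg_cpt hL hLs
  obtain ⟨C, -, h⟩ := c.cmp hK (c.simg_sub hLs)
  have h1 : MemLp u p (c.ν.restrict (c.φ.symm '' L)) :=
    (hu.smul_measure (c := (C : ℝ≥0∞)) ENNReal.coe_ne_top).mono_measure h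
  rw [Ch.ν, Measure.restrict_map_of_aemeasurable c.aem hK.measurableSet] at h1
  refine (h1.comp_of_map c.aem.restrict).mono_measure ?_
  calc (volume : Measure F).restrict L = ((volume : Measure F).restrict c.φ.target).restrict L := by
        rw [Measure.restrict_restrict hL.measurableSet, inter_eq_left.2 hLs]
    _ ≤ _ := Measure.restrict_mono (subset_preimage_image _ _) le_rfl

theorem Ch.integral_supp {K : Set M} (hK : IsCompact K) (hKs : K ⊆ c.φ.source) {G : M → ℝ}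
    (h0 : ∀ x ∉ K, G x = 0) (hG : AEStronglyMeasurable G (μ.restrict K)) {G' : F → ℝ}
    (h1 : ∀ y ∈ c.φ.target, G' y = c.ρ y * G (c.φ.symm y)) (h2 : ∀ y ∉ c.φ.target, G' y = 0) :
    ∫ x, G x ∂μ = ∫ y, G' y := by
  have h3 : K.indicator G = G := indicator_eq_self.2 fun x hx => by
    by_contra h
    exact hx (h0 x h)
  have h4 : AEStronglyMeasurable G μ := by
    rw [← h3]
    exact (aestronglyMeasurable_indicator_iff hK.measurableSet).2 hG
  rw [← setIntegral_eq_integral_of_forall_compl_eq_zero (s := c.φ.source)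
      fun x hx => h0 x fun h => hx (hKs h),
    ← setIntegral_eq_integral_of_forall_compl_eq_zero h2, c.integral_eq h4.restrict]
  exact setIntegral_congr_fun c.φ.open_target.measurableSet fun y hy => (h1 y hy).symm

/-- gluing of local smooth representatives -/
theorem glue_rep [SecondCountableTopology M] [μ.IsOpenPosMeasure] {U : Set M} {u : M → V}
    (h : ∀ x ∈ U, ∃ W, IsOpen W ∧ x ∈ W ∧ W ⊆ U ∧ ∃ w : M → V, ContMDiffOn I 𝓘(ℝ, V) ∞ w W ∧
      ∀ᵐ y ∂μ, y ∈ W → u y = w y) :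
    ∃ w : M → V, ContMDiffOn I 𝓘(ℝ, V) ∞ w U ∧ ∀ᵐ y ∂μ, y ∈ U → u y = w y := by
  classical
  choose! W hW hx hWU w hw hae using h
  have key : ∀ x ∈ U, ∀ z ∈ W x, w z z = w x z := by
    intro x hxU z hz
    have hzU := hWU x hxU hz
    refine Measure.eqOn_open_of_ae_eq (μ := μ) ?_ ((hW z hzU).inter (hW x hxU))
      ((hw z hzU).continuousOn.mono inter_subset_left)
      ((hw x hxU).continuousOn.mono inter_subset_right) ⟨hx z hzU, hz⟩
    rw [EventuallyEq, ae_restrict_iff' ((hW z hzU).inter (hW x hxU)).measurableSet]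
    filter_upwards [hae z hzU, hae x hxU] with y h1 h2 hy
    rw [← h1 hy.1, h2 hy.2]
  refine ⟨fun z => w z z, fun x hxU => ?_, ?_⟩
  · have hn := (hW x hxU).mem_nhds (hx x hxU)
    refine (((hw x hxU).contMDiffAt hn).congr_of_eventuallyEq ?_).contMDiffWithinAt
    filter_upwards [hn] with z hz using key x hxU z hz
  · rw [ae_iff]
    refine measure_null_of_locally_null _ fun x hxs => ?_
    have hxU : x ∈ U := by
      by_contra h
      exact hxs fun h' => absurd h' h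
    refine ⟨_, inter_mem_nhdsWithin _ ((hW x hxU).mem_nhds (hx x hxU)), ?_⟩
    refine measure_mono_null (fun y hy => ?_) (ae_iff.1 (hae x hxU))
    intro h1
    exact hy.1 fun _ => (h1 hy.2).trans (key x hxU y hy.2).symm

end chart

variable {E : Type} [NormedAddCommGroup E] [NormedSpace ℝ E] [FiniteDimensional ℝ E]
  [MeasurableSpace E] [BorelSpace E]
  {HM : Type} [TopologicalSpace HM] {I : ModelWithCorners ℝ E HM} [I.Boundaryless]
  {M : Type} [TopologicalSpace M] [ChartedSpace HM M] [IsManifold I ∞ M]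
  [MeasurableSpace M] [BorelSpace M] [T2Space M] [SecondCountableTopology M]
  {ι : Type} [Fintype ι]
  {V : Type} [NormedAddCommGroup V] [InnerProductSpace ℝ V] [FiniteDimensional ℝ V]

/-- square integrable on the compact subsets of `U` -/
def L2loc (μ : Measure M) (U : Set M) (u : M → V) : Prop :=
  ∀ K, IsCompact K → K ⊆ U → MemLp u 2 (μ.restrict K)

theorem L2loc.of_memLp {μ : Measure M} {u : M → V} (h : MemLp u 2 μ) (U : Set M) : L2loc μ U u :=
  fun K _ _ => h.restrict K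

/-- **weak solutions are smooth**, local form -/
theorem reg_on (F : Fr I M ι) {U : Set M} (hU : IsOpen U) {u : M → V} {ua : ι → M → V}
    (hu : L2loc F.μ U u) (hua : ∀ a, L2loc F.μ U (ua a))
    {B : ι → M → V →L[ℝ] V} {B0 : M → V →L[ℝ] V} {f : M → V}
    (hB : ∀ a, ContMDiffOn I 𝓘(ℝ, V →L[ℝ] V) ∞ (B a) U)
    (hB0 : ContMDiffOn I 𝓘(ℝ, V →L[ℝ] V) ∞ B0 U) (hf : ContMDiffOn I 𝓘(ℝ, V) ∞ f U)
    (hW : ∀ a (φ : M → V), Sm I φ → HasCompactSupport φ → tsupport φ ⊆ U →
      ∫ x, ⟪ua a x, φ x⟫_ℝ ∂F.μ = -∫ x, ⟪u x, F.D a φ x + F.dv a x • φ x⟫_ℝ ∂F.μ)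
    (heq : ∀ φ : M → V, Sm I φ → HasCompactSupport φ → tsupport φ ⊆ U →
      ∑ a, ∫ x, ⟪ua a x, F.D a φ x⟫_ℝ ∂F.μ =
        ∫ x, ⟪∑ a, B a x (ua a x) + B0 x (u x) + f x, φ x⟫_ℝ ∂F.μ) :
    ∃ w : M → V, ContMDiffOn I 𝓘(ℝ, V) ∞ w U ∧ ∀ᵐ x ∂F.μ, x ∈ U → u x = w x := by
  have := openPos F.toPre
  refine glue_rep fun x₀ hx₀ => ?_
  obtain ⟨c, hc⟩ := atl F.toPre x₀
  set T := c.φ.target ∩ c.φ.symm ⁻¹' U with hTdef
  have hT : IsOpen T := c.φ.isOpen_inter_preimage_symm hU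
  have hTt : T ⊆ c.φ.target := inter_subset_left
  let o := stdOrthonormalBasis ℝ V
  have loc : ∀ {N : Type} [NormedAddCommGroup N] [NormedSpace ℝ N] {g : M → N},
      ContMDiffOn I 𝓘(ℝ, N) ∞ g U → ContDiffOn ℝ ∞ (fun y => g (c.φ.symm y)) T :=
    fun hg y hy => (c.locAt hy.1 (hg.contMDiffAt (hU.mem_nhds hy.2))).contDiffWithinAt
  have himg : ∀ L ⊆ T, c.φ.symm '' L ⊆ U := by
    rintro L hL _ ⟨y, hy, rfl⟩
    exact (hL hy).2
  have hL2 : ∀ {g : M → V}, L2loc F.μ U g → ∀ α,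
      L2on T fun y => ⟪o α, g (c.φ.symm y)⟫_ℝ := by
    intro g hg α
    have h1 : ∀ L ⊆ T, IsCompact L → MemLp (fun y => ⟪o α, g (c.φ.symm y)⟫_ℝ) 2
        (volume.restrict L) := fun L hL hLc =>
      (innerSL ℝ (o α)).comp_memLp' (c.memLp_loc hLc (hL.trans hTt)
        (hg _ (c.simg_cpt hLc (hL.trans hTt)) (himg L hL)))
    refine ⟨(locallyIntegrableOn_iff hT.isLocallyClosed).2 fun L hL hLc => ?_,
      (locallyIntegrableOn_iff hT.isLocallyClosed).2 fun L hL hLc => (h1 L hL hLc).integrable_sq⟩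
    have : IsFiniteMeasure ((volume : Measure (Eu E)).restrict L) :=
      isFiniteMeasure_restrict.2 hLc.measure_lt_top.ne
    exact (h1 L hL hLc).integrable one_le_two
  -- test functions
  have tst : ∀ {N : Type} [NormedAddCommGroup N] [NormedSpace ℝ N] {ψ : Eu E → ℝ}, TO T ψ →
      ∀ v : N, Sm I (c.pb fun y => ψ y • v) ∧ HasCompactSupport (c.pb fun y => ψ y • v) ∧
        tsupport (c.pb fun y => ψ y • v) ⊆ c.φ.symm '' tsupport ψ ∧
        (∀ y ∈ c.φ.target, c.pb (fun y => ψ y • v) (c.φ.symm y) = ψ y • v) ∧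
        ∀ a, ∀ y ∈ c.φ.target, F.D a (c.pb fun y => ψ y • v) (c.φ.symm y) =
          fderiv ℝ ψ y (c.vf (F.e a) y) • v := by
    intro N _ _ ψ hψ v
    have hs : support (fun y => ψ y • v) ⊆ tsupport ψ :=
      (support_smul_subset_left _ _).trans (subset_tsupport _)
    have hLs := hψ.2.trans hTt
    refine ⟨c.pb_smooth hψ.1.2.isCompact hLs hs (hψ.1.1.smul contDiff_const),
      c.pb_hcs hψ.1.2.isCompact hLs hs, c.tsupport_pb hψ.1.2.isCompact hLs hs, fun y hy => ?_,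
      fun a y hy => ?_⟩
    · rw [c.pb_of_mem _ (c.φ.map_target hy), c.φ.right_inv hy]
    · rw [Pre.D_def, c.dv_pb _ hy ((TO.diffAt hψ y).smul_const v),
        fderiv_smul_const (TO.diffAt hψ y)]
      rfl
  have hoff : ∀ {ψ : Eu E → ℝ}, TO T ψ → ∀ y ∉ c.φ.target, ψ y = 0 ∧ fderiv ℝ ψ y = 0 :=
    fun hψ y hy => ⟨hψ.zero_off fun h => hy h.1, by
      by_contra h
      exact hy (hψ.2 (support_fderiv_subset ℝ h)).1⟩
  -- pairing with a test function
  have pair : ∀ {ψ : Eu E → ℝ}, TO T ψ → ∀ {g φ : M → V} {r : Eu E → ℝ} (α),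
      AEStronglyMeasurable g (F.μ.restrict (c.φ.symm '' tsupport ψ)) → Continuous φ →
      tsupport φ ⊆ c.φ.symm '' tsupport ψ → (∀ y ∈ c.φ.target, φ (c.φ.symm y) = r y • o α) →
      (∀ y ∉ c.φ.target, r y = 0) →
      ∫ x, ⟪g x, φ x⟫_ℝ ∂F.μ = ∫ y, ⟪o α, g (c.φ.symm y)⟫_ℝ * (c.ρ y * r y) := by
    intro ψ hψ g φ r α hg hφ hs h1 h2
    refine c.integral_supp (c.simg_cpt hψ.1.2.isCompact (hψ.2.trans hTt))
      (c.simg_sub (hψ.2.trans hTt)) (fun x hx => ?_) (hg.inner hφ.aestronglyMeasurable)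
      (fun y hy => ?_) fun y hy => by rw [h2 y hy, mul_zero, mul_zero]
    · rw [image_eq_zero_of_notMem_tsupport fun h => hx (hs h), inner_zero_right]
    · rw [h1 y hy, real_inner_smul_right, real_inner_comm]
      ring
  have hK : ∀ {ψ : Eu E → ℝ}, TO T ψ → IsCompact (c.φ.symm '' tsupport ψ) ∧
      c.φ.symm '' tsupport ψ ⊆ U :=
    fun hψ => ⟨c.simg_cpt hψ.1.2.isCompact (hψ.2.trans hTt), himg _ hψ.2⟩
  refine Exists.elim (reg_euc (κ := Fin (Module.finrank ℝ V)) hT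
    (w := fun a => c.vf (F.e a)) (fun a => (c.vf_on (F.sm a)).mono hTt) (c.ρs.mono hTt)
    (fun y hy => c.ρp y hy.1) (d := fun a y => F.dv a (c.φ.symm y))
    (fun a => loc (F.dv_sm a).contMDiffOn) (fun y hy => c.vf_span F.span hy.1) ?_
    (B := fun a α β y => ⟪o α, B a (c.φ.symm y) (o β)⟫_ℝ)
    (fun a α β => contDiffOn_const.inner ℝ ((loc (hB a)).clm_apply contDiffOn_const))
    (C := fun α β y => ⟪o α, B0 (c.φ.symm y) (o β)⟫_ℝ)
    (fun α β => contDiffOn_const.inner ℝ ((loc hB0).clm_apply contDiffOn_const))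
    (f := fun α y => ⟪o α, f (c.φ.symm y)⟫_ℝ) (fun α => contDiffOn_const.inner ℝ (loc hf))
    (hL2 hu) (fun a => hL2 (hua a)) ?_ ?_) ?_
  rotate_left 3
  · rintro s ⟨hs, hsu⟩
    refine ⟨c.φ.source ∩ U, c.φ.open_source.inter hU, ⟨hc, hx₀⟩, inter_subset_right,
      fun x => ∑ α, s α (c.φ x) • o α, ?_, ?_⟩
    · refine contMDiffOn_finsetSum fun α _ => ?_
      refine ((hs α).smul_const (o α)).contMDiffOn.comp (c.sm.mono inter_subset_left) fun x hx =>
        ⟨c.φ.map_source hx.1, ?_⟩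
      show c.φ.symm (c.φ x) ∈ U
      rw [c.φ.left_inv hx.1]
      exact hx.2
    · filter_upwards [c.ae_of_ae (ae_all_iff.2 hsu)] with x hx hxW
      have h1 : c.φ x ∈ T := ⟨c.φ.map_source hxW.1, by
        show c.φ.symm (c.φ x) ∈ U
        rw [c.φ.left_inv hxW.1]
        exact hxW.2⟩
      simp only [fun α => hx hxW.1 α h1, c.φ.left_inv hxW.1]
      exact (o.sum_repr' (u x)).symm
  · intro a ψ hψ
    obtain ⟨h1, h2, h3, h4, h5⟩ := tst hψ (1 : ℝ)
    have h6 := F.ibp a _ h1 h2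
    have h7 := (F.sm_D h1 a).continuous
    have h8 : Continuous fun x => F.dv a x * c.pb (fun y => ψ y • (1 : ℝ)) x :=
      (F.dv_sm a).continuous.mul h1.continuous
    rw [eq_neg_iff_add_eq_zero, ← integral_add
      (h7.integrable_of_hasCompactSupport (F.hcs_D h2 a))
      (h8.integrable_of_hasCompactSupport h2.mul_left)] at h6
    rw [← h6]
    refine (c.integral_supp (hK hψ).1 (c.simg_sub (hψ.2.trans hTt)) (fun x hx => ?_)
      (h7.add h8).aestronglyMeasurable (fun y hy => ?_) fun y hy => ?_).symm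
    · rw [Pi.add_apply, image_eq_zero_of_notMem_tsupport fun h => hx (h3 (F.tsupport_D _ a h)),
        image_eq_zero_of_notMem_tsupport fun h => hx (h3 h), mul_zero, add_zero]
    · rw [Pi.add_apply, h4 y hy, h5 a y hy]
      simp only [smul_eq_mul, mul_one]
    · simp [hoff hψ y hy]
  · intro a α ψ hψ
    obtain ⟨h1, h2, h3, h4, h5⟩ := tst hψ (o α)
    have h6 := hW a _ h1 h2 (h3.trans (hK hψ).2)
    rw [pair hψ α (hua a _ (hK hψ).1 (hK hψ).2).1 h1.continuous h3 h4 fun y hy => (hoff hψ y hy).1,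
      pair hψ (r := fun y => fderiv ℝ ψ y (c.vf (F.e a) y) + F.dv a (c.φ.symm y) * ψ y)
        (φ := fun x => F.D a (c.pb fun y => ψ y • o α) x + F.dv a x • c.pb (fun y => ψ y • o α) x) α
        (hu _ (hK hψ).1 (hK hψ).2).1
        ((F.sm_D h1 a).continuous.add ((F.dv_sm a).continuous.smul h1.continuous))
        ((closure_minimal (fun x hx => ?_) (isClosed_tsupport _)).trans h3)
        (fun y hy => by rw [h4 y hy, h5 a y hy, add_smul, mul_smul])
        fun y hy => by simp [hoff hψ y hy]] at h6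
    · exact h6
    · by_contra h
      exact hx (by
        beta_reduce
        rw [image_eq_zero_of_notMem_tsupport fun h' => h (F.tsupport_D _ a h'),
          image_eq_zero_of_notMem_tsupport h, smul_zero, add_zero])
  · intro α ψ hψ
    obtain ⟨h1, h2, h3, h4, h5⟩ := tst hψ (o α)
    have h6 := heq _ h1 h2 (h3.trans (hK hψ).2)
    have hm := (hK hψ).1.measurableSet
    have m1 : ∀ {A : M → V →L[ℝ] V} {g : M → V}, ContMDiffOn I 𝓘(ℝ, V →L[ℝ] V) ∞ A U →
        L2loc F.μ U g → AEStronglyMeasurable (fun x => A x (g x))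
          (F.μ.restrict (c.φ.symm '' tsupport ψ)) := fun hA hg =>
      (isBoundedBilinearMap_apply (𝕜 := ℝ) (E := V) (F := V)).continuous.comp_aestronglyMeasurable
        (((hA.continuousOn.mono (hK hψ).2).aestronglyMeasurable hm).prodMk
          (hg _ (hK hψ).1 (hK hψ).2).1)
    rw [pair hψ (g := fun x => ∑ a, B a x (ua a x) + B0 x (u x) + f x) α (((Finset.aestronglyMeasurable_fun_sum _ fun a _ => m1 (hB a) (hua a)).add
        (m1 hB0 hu)).add ((hf.continuousOn.mono (hK hψ).2).aestronglyMeasurable hm))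
        h1.continuous h3 h4 fun y hy => (hoff hψ y hy).1,
      Finset.sum_congr rfl fun a _ => pair hψ (r := fun y => fderiv ℝ ψ y (c.vf (F.e a) y)) α
        (hua a _ (hK hψ).1 (hK hψ).2).1 (F.sm_D h1 a).continuous ((F.tsupport_D _ a).trans h3)
        (h5 a) fun y hy => by simp [hoff hψ y hy]] at h6
    refine h6.trans (integral_congr_ae (Eventually.of_forall fun y => ?_))
    have h7 : ∀ (A : V →L[ℝ] V) (v : V), ⟪o α, A v⟫_ℝ = ∑ β, ⟪o α, A (o β)⟫_ℝ * ⟪o β, v⟫_ℝ := by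
      intro A v
      conv_lhs => rw [← o.sum_repr' v, map_sum, inner_sum]
      exact Finset.sum_congr rfl fun β _ => by rw [map_smul, real_inner_smul_right, mul_comm]
    simp only [inner_add_right, inner_sum, ← h7]

/-- **weak solutions are smooth** -/
theorem reg (F : Fr I M ι) {u : M → V} {ua : ι → M → V} (hu : MemLp u 2 F.μ)
    (hua : ∀ a, MemLp (ua a) 2 F.μ) {B : ι → M → V →L[ℝ] V} {B0 : M → V →L[ℝ] V} {f : M → V}
    (hB : ∀ a, Sm I (B a)) (hB0 : Sm I B0) (hf : Sm I f)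
    (hW : ∀ a (φ : M → V), Sm I φ → HasCompactSupport φ →
      ∫ x, ⟪ua a x, φ x⟫_ℝ ∂F.μ = -∫ x, ⟪u x, F.D a φ x + F.dv a x • φ x⟫_ℝ ∂F.μ)
    (heq : ∀ φ : M → V, Sm I φ → HasCompactSupport φ →
      ∑ a, ∫ x, ⟪ua a x, F.D a φ x⟫_ℝ ∂F.μ =
        ∫ x, ⟪∑ a, B a x (ua a x) + B0 x (u x) + f x, φ x⟫_ℝ ∂F.μ) :
    ∃ w : M → V, Sm I w ∧ u =ᵐ[F.μ] w := by
  obtain ⟨w, hw, h⟩ := reg_on F isOpen_univ (L2loc.of_memLp hu _)
    (fun a => L2loc.of_memLp (hua a) _) (fun a => (hB a).contMDiffOn) hB0.contMDiffOn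
    hf.contMDiffOn (fun a φ h1 h2 _ => hW a φ h1 h2) fun φ h1 h2 _ => heq φ h1 h2
  exact ⟨w, contMDiffOn_univ.1 hw, h.mono fun x hx => hx (mem_univ x)⟩

end Crest.Agent.X212.Cht98
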