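import Crest.Agent.X212.Met55.Fam
import Crest.Agent.X212.Nk89.Idx
import Crest.Agent.X212.Nka63.A

/-! Row 212 (helper98): families of backgrounds which are constant off a compact set, and the
weight of a family with cylindrical ends. -/

set_option autoImplicit false
set_option linter.unusedSectionVars false
noncomputable section
open scoped Manifold ContDiff Topology
open MeasureTheory Set Function Filter

namespace Crest.Agent.X212.Cht98
open An Prm93 Sob92 Met55 Nk89 Nd18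

variable {E : Type} [NormedAddCommGroup E] [NormedSpace ℝ E] [FiniteDimensional ℝ E]
  [MeasurableSpace E] [BorelSpace E]
  {HM : Type} [TopologicalSpace HM] {I : ModelWithCorners ℝ E HM} [I.Boundaryless]
  {M : Type} [TopologicalSpace M] [ChartedSpace HM M] [IsManifold I ∞ M]
  [MeasurableSpace M] [T2Space M] [BorelSpace M] [SecondCountableTopology M]
  {ι κ : Type} [Fintype ι] [Fintype κ] {lam : Type} [Fintype lam]
  {T : Type} [NormedAddCommGroup T] [NormedSpace ℝ T]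
  {N : Type} [NormedAddCommGroup N] [NormedSpace ℝ N]

theorem sb_out {F : Pre I M ι} {K : Set M} {Q : Set T} (hK : IsCompact K) (hQ : IsOpen Q)
    {f : T → M → N} (hf : JS I Q f) {u : M → N} (hu : F.Cb u)
    (e : ∀ t ∈ Q, ∀ x ∉ K, f t x = u x) : SB F Q f :=
  Prm93.Fam.sb hK hQ ⟨hf, fun t ht => by
    rw [← add_sub_cancel u (f t)]
    exact Cb_add hu (Cb_of_hcs ((hf.sm ht).sub hu.choose_spec.1)
      (HasCompactSupport.intro hK fun x hx => sub_eq_zero.2 (e t ht x hx))),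
    fun t ht s hs x hx => (e t ht x hx).trans (e s hs x hx).symm⟩

/-- two backgrounds agree on the open set `U` -/
structure Agr (G G' : Geo I M ι lam) (U : Set M) : Prop where
  op : IsOpen U
  e : ∀ x ∈ U, ∀ a, G'.F.e a x = G.F.e a x
  a : ∀ x ∈ U, ∀ a, G'.a a x = G.a a x

namespace Agr
variable {B : Base M ι lam} {G G' : Geo I M ι lam} {U : Set M} (h : Agr G G' U) {x : M}
include h

theorem mono {V : Set M} (hV : IsOpen V) (e : V ⊆ U) : Agr G G' V :=
  ⟨hV, fun x hx => h.e x (e hx), fun x hx => h.a x (e hx)⟩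

theorem rel : Pj41.FRel G'.F G.F id U :=
  ⟨h.op, fun x _ => (Diffeomorph.refl I M ∞).isLocalDiffeomorph x, fun a x hx => by
    rw [mfderiv_id]; exact h.e x hx a⟩

theorem S (hx : x ∈ U) (a b : ι) :
    trS G.F G'.F x a b = G.F.P a b x ∧ trS G'.F G.F x a b = G.F.P a b x :=
  (trS_congr G.F G.F x a b (h.e x hx)).imp (·.trans (trS_self _ _ _ _)) (·.trans (trS_self _ _ _ _))

theorem cf (hx : x ∈ U) : cfS G.F G'.F x = 0 := by
  funext a b k
  simp only [cfS, Spn45.dG, (h.S hx _ _).1, h.rel.Gam hx, id,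
    (Wz78.lc_gam G.F).proj1 (Wz78.frm G.F) (Wz78.sep G.F), sub_self, mul_zero, Pi.zero_apply]

theorem la (hG : G.OK B) (hx : x ∈ U) : laS B G G' x = 0 := by
  funext a
  simp only [laS, dA, (h.S hx _ _).1, h.a x hx, hG.P, hG.con.proj, sub_self, mul_zero, zero_mul,
    map_zero, Pi.zero_apply]

theorem rd (hx : x ∈ U) : rd G.F.toPre G'.F.toPre x = 1 := by
  have : rj G'.F.e x = rj G.F.e x := congrArg (rjb _) (funext (h.e x hx))
  rw [Prm93.rd, this]
  exact div_self (pre_sp G.F.toPre x).rjb_pos.ne'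

theorem μ (hG : G.F.IsVol) (hG' : G'.F.IsVol) : G'.F.μ.restrict U = G.F.μ.restrict U := by
  rw [vol_eq hG hG', restrict_withDensity h.op.measurableSet, withDensity_congr_ae
    (g := 1) ((ae_restrict_mem h.op.measurableSet).mono fun x hx => by simp [h.rd hx]),
    withDensity_one]

end Agr

/-- families which are constant off a compact set -/
theorem famIn_out {B : Base M ι lam} {G0 : Geo I M ι lam} {H : T → Geo I M ι lam} {Q : Set T}
    {K : Set M} (hK : IsCompact K) (hQ : IsOpen Q) (hB : B.OK I) (h0 : G0.OK B)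
    (hG : ∀ t ∈ Q, (H t).OK B) (tame : ∃ C, G0.F.Tame C) (tameG : ∀ t ∈ Q, ∃ C, (H t).F.Tame C)
    (co : ∀ a b c d, G0.F.Cb (B.o a b c d)) (cl : G0.F.Cb B.l) (ca : ∀ a, G0.F.Cb (G0.a a))
    (hJ : JF Q fun t => (H t).F.toPre) (ha : ∀ a, JS I Q fun t => (H t).a a)
    (out : ∀ t ∈ Q, Agr G0 (H t) Kᶜ) : FamIn B G0.F G0 H Q where
  hB := hB
  h0 := h0
  hG := hG
  tame := tame
  tameG := tameG
  e0 := rfl
  co := co
  cl := cl
  ca := ca
  opn := hQ
  sS a b := sb_out hK hQ ((JF.fixed G0.F.toPre).mix hJ a b) ⟨_, tame.choose_spec.P a b⟩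
    fun t ht _ hx => ((out t ht).S hx a b).1
  sSi a b := sb_out hK hQ (hJ.mix (JF.fixed G0.F.toPre) a b) ⟨_, tame.choose_spec.P a b⟩
    fun t ht _ hx => ((out t ht).S hx a b).2
  sc a b k := sb_out hK hQ (hJ.c a b k) ⟨_, tame.choose_spec.c a b k⟩
    fun t ht _ hx => (out t ht).rel.c hx a b k
  sa a := sb_out hK hQ (ha a) (ca a) fun t ht x hx => (out t ht).a x hx a
  dens := ⟨_, sb_out hK hQ ((JF.fixed G0.F.toPre).rd hJ) (Cb_const 1)
    fun t ht _ hx => (out t ht).rd hx, fun t ht => ⟨rd_pos _ _, vol_eq h0.vol (hG t ht).vol⟩⟩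

/-! ### ends -/

/-- all weights `0 < δ ≤ dl0` are allowed -/
def dl0 : ℝ := (2 * (bd_dtf.choose 0 + 1))⁻¹

theorem dl0_pos : 0 < dl0 := by
  have := (bd_dtf.choose_spec none none).nonneg 0
  unfold dl0; positivity

theorem dl0_le (p q : Option ℝ) (s : ℝ) : dl0 * |deriv (tf p q) s| ≤ 1 / 2 := by
  have h0 := (bd_dtf.choose_spec none none).nonneg 0
  have h1 : |deriv (tf p q) s| ≤ bd_dtf.choose 0 := (bd_dtf.choose_spec p q).2 0 0 le_rfl s
  rw [dl0, inv_mul_le_iff₀ (by positivity)]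
  linarith

section ends
variable {𝔉 : Mod61.Fam I M (Option κ) lam T}

/-- the end starts at the time `0` -/
structure St0 (P : End 𝔉) : Prop where
  p : P.K.p = bif P.out then some 0 else none
  q : P.K.q = bif P.out then none else some 0

namespace St0
variable {P : End 𝔉} (h : St0 P) {x : M}
include h

theorem mem_J {s : ℝ} : s ∈ P.K.J ↔ 0 < P.sg * s := by
  rw [Nk.J, h.p, h.q, End.sg]; cases P.out <;> simp [Jv]

theorem mem_Dp {s d : ℝ} : s ∈ Nd18.Dp P.K.p P.K.q d ↔ d ≤ P.sg * s := by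
  rw [h.p, h.q, End.sg]; cases P.out <;> simp [Nd18.Dp, le_neg]

theorem mem_tgt : x ∈ P.K.ψ.target ↔ 0 < P.sg * P.K.tm x := by rw [P.K.tgt]; exact h.mem_J

theorem mem_U {R : ℝ} (hR : 0 ≤ R) : x ∈ P.U R ↔ R < P.sg * P.K.tm x :=
  and_iff_right_of_imp fun k => h.mem_tgt.2 (hR.trans_lt k)

theorem τ_eq (x : M) : P.sg * P.K.τ x =
    P.sg * P.K.tm x * Real.smoothTransition (2 * (P.sg * P.K.tm x) - 1) := by
  rw [Nk.τ, h.p, h.q, End.sg]; cases P.out <;> simp [tf, fl] <;> ring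

theorem τ_zero (hx : x ∉ P.K.ψ.target) : P.sg * P.K.τ x = 0 := by
  rw [h.τ_eq, Real.smoothTransition.zero_of_nonpos (by linarith [not_lt.1 (mt h.mem_tgt.2 hx)]),
    mul_zero]

theorem τ_nonneg (x : M) : 0 ≤ P.sg * P.K.τ x := by
  by_cases hx : x ∈ P.K.ψ.target
  · rw [h.τ_eq]; exact mul_nonneg (h.mem_tgt.1 hx).le (Real.smoothTransition.nonneg _)
  · exact (h.τ_zero hx).ge

end St0

theorem isOpen_U (P : End 𝔉) (R : ℝ) : IsOpen (P.U R) :=
  P.K.ψ.open_target.inter (isOpen_lt continuous_const (continuous_const.mul P.K.cont))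

theorem abs_sg (P : End 𝔉) : |P.sg| = 1 := by rw [End.sg]; cases P.out <;> simp

variable {A : Type} [Fintype A] (P : A → End 𝔉) (δ : ℝ)

/-- the weight function -/
def wψ (x : M) : ℝ := δ * ∑ a, (P a).sg * (P a).K.τ x

theorem sm_wψ : Sm I (wψ P δ) :=
  contMDiff_const.mul (contMDiff_finsetSum fun a _ => contMDiff_const.mul (P a).K.sm_τ)

theorem D_wψ (i : Option κ) :
    𝔉.G0.F.D i (wψ P δ) = fun x => δ * ∑ a, (P a).sg * 𝔉.G0.F.D i (P a).K.τ x := funext fun x => by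
  have h1 : ∀ a, Sm I fun x => (P a).sg * (P a).K.τ x := fun a => contMDiff_const.mul (P a).K.sm_τ
  refine (congrFun (𝔉.G0.F.D_smul (contMDiff_finsetSum fun a _ => h1 a) δ i) x).trans
    (congrArg (δ * ·) ((Wz78.dv_sum' _ fun a => h1 a x).trans (Finset.sum_congr rfl fun a _ => ?_)))
  exact congrFun (𝔉.G0.F.D_smul (P a).K.sm_τ _ i) x

theorem cb_D_wψ (i : Option κ) : 𝔉.G0.F.Cb (𝔉.G0.F.D i (wψ P δ)) := by
  rw [D_wψ]
  exact Cb_smul (Cb_const δ) (Cb_sum _ fun a _ => Cb_smul (Cb_const _) ((P a).K.cd_τ.2 i))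

/-- the weighted family -/
abbrev wF : Mod61.Fam I M (Option κ) lam T := wtF 𝔉 (wψ P δ) (sm_wψ P δ)

/-- the ends of the weighted family -/
abbrev wE (a : A) : End (wF P δ) := ⟨(P a).Y, (P a).D, (P a).K, (P a).out⟩

variable {P δ} (h : ∀ a, St0 (P a))
  (hd : Pairwise fun a b => Disjoint (P a).K.ψ.target (P b).K.ψ.target)
include h

theorem wψ_nonneg (h0 : 0 ≤ δ) (x : M) : 0 ≤ wψ P δ x :=
  mul_nonneg h0 (Finset.sum_nonneg fun a _ => (h a).τ_nonneg x)

include hd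

theorem wψ_eq {a : A} {x : M} {R : ℝ} (hR : 1 ≤ R) (hx : x ∈ (P a).U R) :
    wψ P δ x = δ * ((P a).sg * (P a).K.tm x) := by
  rw [wψ, Finset.sum_eq_single a (fun b _ e => (h b).τ_zero fun k =>
    disjoint_left.1 (hd e) k hx.1) (by simp), (P a).K.τ_eq ((h a).mem_Dp.2 (hR.trans hx.2.le))]

omit h in
theorem wψ_sml (h0 : 0 ≤ δ) (h1 : δ ≤ dl0) (x : M) :
    ∑ i, 𝔉.G0.F.D i (wψ P δ) x ^ 2 ≤ 1 / 4 := by
  have h2 : ∀ a, x ∉ (P a).K.ψ.target → (P a).sg * deriv (tf (P a).K.p (P a).K.q) ((P a).K.tm x) = 0 :=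
    fun a hx => by rw [Nka63.dtf_zero (P a).K.len fun k => hx ((P a).K.dp_sub one_half_pos k), mul_zero]
  simp only [Fintype.sum_option, D_wψ, Nk.D_τ_some, Nk.D_τ_none, Pi.zero_apply, mul_zero,
    Finset.sum_const_zero, ne_eq, OfNat.ofNat_ne_zero, not_false_eq_true, zero_pow, add_zero]
  by_cases hx : ∃ a, x ∈ (P a).K.ψ.target
  · obtain ⟨a, ha⟩ := hx
    rw [Finset.sum_eq_single a (fun b _ e => h2 b fun k => disjoint_left.1 (hd e) k ha) (by simp),
      ← sq_abs, abs_mul, abs_mul, abs_sg, one_mul, abs_of_nonneg h0]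
    have := (mul_le_mul_of_nonneg_right h1 (abs_nonneg _)).trans
      (dl0_le (P a).K.p (P a).K.q ((P a).K.tm x))
    exact (pow_le_pow_left₀ (by positivity) this 2).trans (by norm_num)
  · rw [Finset.sum_eq_zero fun a _ => h2 a fun k => hx ⟨a, k⟩]; norm_num

end ends

variable {B : Base M (Option κ) lam} {G0 : Geo I M (Option κ) lam}
  {H : T → Geo I M (Option κ) lam} {Q : Set T} {Om Om' : Set M} {A : Type} [Fintype A]

/-- what has to be checked for the ends -/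
structure EndIn (P : A → End (fam B G0.F G0 H Q Om Om')) : Prop where
  ok : (fam B G0.F G0 H Q Om Om').OK
  st : ∀ a, St0 (P a)
  D : ∀ a, (P a).D.OK
  con : ∀ a, PreconnectedSpace (P a).Y.M
  dis : Pairwise fun a b => Disjoint (P a).K.ψ.target (P b).K.ψ.target
  cov : IsCompact (⋃ a, (P a).U 5)ᶜ
  agr : ∀ a, ∀ t ∈ Q, Agr G0 (H t) (P a).K.ψ.target

/-- **a family with ends** -/
def EndIn.ends {P : A → End (fam B G0.F G0 H Q Om Om')} (h : EndIn P) {δ : ℝ} (h0 : 0 < δ)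
    (h1 : δ ≤ dl0) : Ends (wF P δ) δ where
  A := A
  P := wE P δ
  ψ := wψ P δ
  R := 5
  ok := ok_wtF h.ok _ (wψ_nonneg h.st h0.le) (cb_D_wψ P δ)
  tame := h.ok.tame
  wt := wt_wt _ _
  ψ0 := wψ_nonneg h.st h0.le
  dψ := cb_D_wψ P δ
  sml := wψ_sml h.dis h0.le h1
  δ0 := h0
  R0 := by norm_num
  okP a :=
    { D := h.D a
      con := h.con a
      inf := fun _ hs => (h.st a).mem_Dp.2 hs
      S := fun t ht _ hx i k => h.ok.G0.P ▸ (h.agr a t ht).S hx.1 i k
      cf := fun t ht _ hx => ⟨(h.agr a t ht).cf hx.1, (h.agr a t ht).la h.ok.G0 hx.1⟩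
      a := fun t ht x hx => (h.agr a t ht).a x hx.1
      μ := fun t ht => ((h.agr a t ht).mono (isOpen_U _ _) fun _ hx => hx.1).μ h.ok.G0.vol
        (h.ok.G t ht).vol
      wt := fun _ hx => wψ_eq h.st h.dis (by norm_num) hx }
  dis _ _ e := (h.dis e).mono (fun _ hx => hx.1) fun _ hx => hx.1
  cov := h.cov

end Crest.Agent.X212.Cht98
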