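import Crest.Agent.X212.Cht98.Wld
import Crest.Agent.X212.Cht98.Fam
import Crest.Agent.X212.An.Job

/-! Row 212, layer M (helper98): the families of backgrounds of a world, the necks and the ends
of a job. -/

set_option autoImplicit false
set_option linter.unusedSectionVars false
noncomputable section
open Set Function Filter Topology
open scoped ContDiff Manifold

namespace Crest.Agent.X212.Cht98
open An M Prm93 Nd18 Nk89
open Met55 (fam FamIn fam_ok)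

variable {Wi : Type} {X : Mf 4} {A κ lam : Type} [Fintype A] [Fintype κ] [Fintype lam]
  [DecidableEq lam] {M : Mark X A κ} {W : World M} {L : ML M lam} (Λ : Lns W L) {m c : M.Cl}
  {p p' p₀ : Prm A} {a : A} {T : Type} [NormedAddCommGroup T] [NormedSpace ℝ T]

/-! ### families -/

/-- on a literal neck the background only depends on the length -/
theorem NkOK.agr (h : NkOK M m c p a) (h' : NkOK M m c p' a)
    (e : Mark.tv c.1 p'.2 a = Mark.tv c.1 p.2 a) :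
    Agr (Λ.G m c p) (Λ.G m c p') {z | |hZ W.toCaps c a z| < 1} := by
  have key : ∀ z, |hZ W.toCaps c a z| < 1 → ∃ b y s, s ∈ Hs (Mark.tv c.1 p.2 a) b ∧
      W.nj c a (y, s) = z := fun z hz =>
    let ⟨y, _, k⟩ := exists_of_hZ W.toCaps h.mem (hz.trans (by norm_num))
    let ⟨b, hb⟩ := exists_dom (h.off W.toCaps z)
    ⟨b, y, _, ⟨abs_lt.1 hz, hb⟩, k⟩
  refine ⟨isOpen_lt (sm_hZ _ h.mem).continuous.abs continuous_const, fun z hz i => ?_,
    fun z hz i => ?_⟩ <;> obtain ⟨b, y, s, hs, rfl⟩ := key z hz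
  · have hl := h.lit_of hs.2 (abs_lt.2 hs.1).le
    have h1 := W.lit' (q := (y, s)) h.cyl hl h.lt (dom_off hs.2) p.1 i
    have h2 := W.lit' (q := (y, s)) h.cyl hl h'.lt (e ▸ dom_off hs.2) p'.1 i
    rw [← (W.L m c).F_e (t := (p.1, p.2)) (Mark.mem_Ω _ h.O)] at h1
    rw [← (W.L m c).F_e (t := (p'.1, p'.2)) (Mark.mem_Ω _ h'.O), e] at h2
    exact h2.trans h1.symm
  · exact (h'.a_nj Λ (e ▸ hs) y i).trans (h.a_nj Λ hs y i).symm

theorem agr_end (ha : a ∈ cylW c) (h : p ∈ M.O c.1) (h' : p' ∈ M.O c.1) :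
    Agr (Λ.G m c p) (Λ.G m c p') {z | |hZ W.toCaps c a z| < 1} :=
  (NkOK.of_mem ha.2 ha.1 h).agr Λ (.of_mem ha.2 ha.1 h')
    ((Mark.tv_mem ha.1 _).trans (Mark.tv_mem ha.1 _).symm)

theorem Nw_eq (h : p₀ ∈ M.O c.1) : Nw M c p₀ = cylW c :=
  Set.ext fun a => or_iff_left fun k => (h a k.1).not_ge k.2

theorem agr_thk (h : p ∈ M.O c.1) (h' : p' ∈ M.O c.1) :
    Agr (Λ.G m c p) (Λ.G m c p') (thk W.toCaps c p 1)ᶜ := by
  have key : ∀ z ∉ thk W.toCaps c p 1, ∃ a ∈ cylW c, |hZ W.toCaps c a z| < 1 := fun z hz => by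
    simpa only [thk, Nw_eq h, mem_ofPred_eq, not_forall, not_le, exists_prop] using hz
  exact ⟨(isCompact_thk _ c p one_pos (by norm_num)).isClosed.isOpen_compl,
    fun z hz => let ⟨_, ha, k⟩ := key z hz; (agr_end Λ ha h h').e z k,
    fun z hz => let ⟨_, ha, k⟩ := key z hz; (agr_end Λ ha h h').a z k⟩

variable (m c p₀) in
/-- the family of backgrounds on `Z c` over the reference parameter `p₀` -/
abbrev wFam (Θ : T → Prm A) (Q : Set T) (Om Om' : Set (W.Z c).M) :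
    Mod61.Fam (W.Z c).I (W.Z c).M (Option κ) (lam ⊕ lam) T :=
  fam (Λ.B m c) (Λ.G m c p₀).F (Λ.G m c p₀) (fun t => Λ.G m c (Θ t)) Q Om Om'

variable {Θ : T → Prm A} {Q : Set T} {Om Om' : Set (W.Z c).M}

theorem jf_W (hQ : IsOpen Q) (hΘ : ContDiffOn ℝ ∞ Θ Q) (hm : MapsTo Θ Q (M.O c.1)) :
    JF Q fun t => (W.F m c (Θ t)).toPre := fun _ ht x i =>
  JAt.reparam (f := fun s => Sob92.dv _ ((W.F m c s).e i) (extChartAt (W.Z c).I x))
    (hΘ.contDiffAt (hQ.mem_nhds ht))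
    (JV.of_tangent ((W.L m c).vj_F (Mark.ev_Ω _ (hm ht)) i x))

theorem js_a (hQ : IsOpen Q) (hΘ : ContDiffOn ℝ ∞ Θ Q) (hm : MapsTo Θ Q (M.O c.1))
    (i : Option κ) : JS (W.Z c).I Q fun t => (Λ.G m c (Θ t)).a i := fun _ ht x =>
  ((jAt_A (Λ.Λ m c) (Mark.mem_Ω _ (hm ht) x) i).reparam (hΘ.contDiffAt (hQ.mem_nhds ht))).congr
    ((continuousAt_fst.eventually (hQ.mem_nhds ht)).mono fun z hz =>
      congrFun (G_a Λ (hm hz) i) z.2)

theorem famIn_W (h0 : p₀ ∈ M.O c.1) (hQ : IsOpen Q) (hΘ : ContDiffOn ℝ ∞ Θ Q)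
    (hm : MapsTo Θ Q (M.O c.1)) :
    FamIn (Λ.B m c) (Λ.G m c p₀).F (Λ.G m c p₀) (fun t => Λ.G m c (Θ t)) Q :=
  let ⟨C, hC⟩ := bd_W Λ m h0
  famIn_out (isCompact_thk W.toCaps c p₀ one_pos (by norm_num)) hQ (Λ.B_ok m c) (Λ.G_ok m h0)
    (fun _ ht => Λ.G_ok m (hm ht)) ⟨C, hC.tame⟩ (fun _ ht => tame_W W m (hm ht))
    (fun i k l n => ⟨C, hC.o i k l n⟩) ⟨C, hC.l⟩ (fun i => ⟨C, hC.a i⟩) (jf_W hQ hΘ hm)
    (js_a Λ hQ hΘ hm) fun _ ht => agr_thk Λ h0 (hm ht)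

/-- **FAM** -/
theorem wFam_ok (h0 : p₀ ∈ M.O c.1) (hQ : IsOpen Q) (hΘ : ContDiffOn ℝ ∞ Θ Q)
    (hm : MapsTo Θ Q (M.O c.1)) (h1 : IsClopen Om) (h2 : IsClopen Om') (h3 : Om' ⊆ Om) :
    (wFam Λ m c p₀ Θ Q Om Om').OK := fam_ok (famIn_W Λ h0 hQ hΘ hm) h1 h2 h3

theorem isOpen_pre (hΘ : Continuous Θ) : IsOpen (Θ ⁻¹' M.O c.1) := (Mark.isOpen_O _).preimage hΘ

/-! ### necks -/

section act
variable {b : Option Bool} (h : Act m c a b p)
include h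

theorem act_ok : NkOK M m c p a := by
  cases b with
  | none => exact .of_fr h.1 h.2.2.2.2.1 h.2.2.2.1 h.2.2.1 h.2.1.1 h.2.2.2.2.2
  | some b => exact .of_mem h.1 h.2.2.2 h.2.2.1

theorem act_tv : Mark.tv c.1 p.2 a = p.2 a := by
  cases b with
  | none => exact Mark.tv_fr h.2.2.2.2.1 _
  | some b => exact (Mark.tv_mem h.2.2.2 _).trans (h.2.1.2 h.2.2.2).symm

theorem act_le : p.2 a ≤ 1 := (h.2.1.1.1 a).2

theorem act_np : np (p.2 a) (b.getD false) = if b = some true then none else some 0 := by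
  rcases b with _ | _ | _
  exacts [rfl, rfl, (show p.2 a = 1 from h.2.1.2 h.2.2.2) ▸ np_one]

theorem act_nq : nq (p.2 a) (b.getD false) =
    b.elim (some (nl (p.2 a))) fun b => if b then some 0 else none := by
  rcases b with _ | _ | _
  exacts [nq_false (h.2.2.1 a h.2.2.2.2.1), (show p.2 a = 1 from h.2.1.2 h.2.2.2) ▸ nq_one, rfl]

theorem act_Hs {s : ℝ} : s ∈ Hs (p.2 a) (b.getD false) ↔
    (if b = some true then 0 else -1) < s ∧ s < if b = some false then 0 else 1 := by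
  rcases b with _ | _ | _
  · exact and_iff_left (.inl (h.2.2.1 a h.2.2.2.2.1))
  · rw [show p.2 a = 1 from h.2.1.2 h.2.2.2]
    simp only [Hs, dom, mem_inter_iff, mem_Ioo, mem_ofPred_eq]
    simp; grind
  · rw [show p.2 a = 1 from h.2.1.2 h.2.2.2]
    simp only [Hs, dom, mem_inter_iff, mem_Ioo, mem_ofPred_eq]
    simp; grind

variable {S : Xs Wi κ lam} {g : S.Y.M ≃ₘ^∞⟮S.Y.I, (M.bn a).Y.I⟯ (M.bn a).Y.M}

/-- **the necks of a job exist** -/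
theorem exists_isNk (hS : S.C.OK) (hg : Cy.Iso S.C (L.cy a) g) :
    ∃ K : Nk S.D (Λ.B m c) (Λ.G m c p), IsNk a b g K := by
  refine ⟨(act_ok h).nk g Λ hS.vol hg (b.getD false), ?_, ?_, fun y s h1 h2 => ?_⟩
  · rw [NkOK.nk_p, act_tv h, act_np h]
  · rw [NkOK.nk_q, act_tv h, act_nq h]
  · rw [NkOK.nk_ψ, act_tv h, li_len ((act_Hs h).2 ⟨h1, h2⟩)]

variable {Λ} {K : Nk S.D (Λ.B m c) (Λ.G m c p)} (hK : IsNk a b g K)
include hK

theorem isNk_p : K.p = np (p.2 a) (b.getD false) := hK.lo.trans (act_np h).symm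

theorem isNk_q : K.q = nq (p.2 a) (b.getD false) := hK.hi.trans (act_nq h).symm

theorem isNk_J : K.J = Jv (np (p.2 a) (b.getD false)) (nq (p.2 a) (b.getD false)) := by
  rw [Nk.J, isNk_p h hK, isNk_q h hK]

theorem isNk_len {s : ℝ} (hs : s ∈ Hs (p.2 a) (b.getD false)) (y : S.Y.M) :
    K.ψ (y, len (p.2 a) (b.getD false) s) = W.nj c a (g y, s) :=
  hK.ψ y s ((act_Hs h).1 hs).1 ((act_Hs h).1 hs).2

theorem isNk_ψ {q : S.Y.M × ℝ} (hq : q.2 ∈ K.J) :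
    K.ψ q = W.nj c a (g q.1, li (p.2 a) (b.getD false) q.2) := by
  rw [isNk_J h hK] at hq
  rw [← isNk_len h hK (li_mem (act_le h) hq), len_li (act_le h) hq]

theorem isNk_target : K.ψ.target = hZ W.toCaps c a ⁻¹' Hs (p.2 a) (b.getD false) := by
  have h1 := ((act_ok h).bijOn g W.toCaps (b.getD false)).image_eq
  rw [act_tv h, ← isNk_J h hK] at h1
  rw [← h1, ← K.ψ.image_source_eq_target, K.src]
  exact image_congr fun q hq => isNk_ψ h hK hq.2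

theorem isNk_tm_nj {s : ℝ} (hs : s ∈ Hs (p.2 a) (b.getD false)) (y : (M.bn a).Y.M) :
    K.tm (W.nj c a (y, s)) = len (p.2 a) (b.getD false) s := by
  rw [← g.apply_symm_apply y, ← isNk_len h hK hs]
  exact K.tm_ψ _ (K.mem_src.2 (isNk_J h hK ▸ (bijOn_len (act_le h) _).1 hs))

theorem isNk_tm {z : (W.Z c).M} (hz : z ∈ K.ψ.target) :
    K.tm z = len (p.2 a) (b.getD false) (hZ W.toCaps c a z) := by
  rw [isNk_target h hK] at hz
  obtain ⟨y, -, k⟩ := exists_of_hZ W.toCaps (act_ok h).mem ((abs_lt.2 hz.1).trans (by norm_num))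
  exact (congrArg K.tm k.symm).trans (isNk_tm_nj h hK hz y)

theorem isNk_sub : K.ψ.target ⊆ {z | |hZ W.toCaps c a z| < 1} :=
  isNk_target h hK ▸ fun _ hz => abs_lt.2 hz.1

end act

/-- the bands of two compatible walls are disjoint in `Z c` -/
theorem disjoint_hZ (C : Caps M) {a' : A} (ha : a ∈ c.1 ∧ ¬M.pin a ∨ a ∈ M.sys.fr c.1)
    (ha' : a' ∈ c.1 ∧ ¬M.pin a' ∨ a' ∈ M.sys.fr c.1) (h : M.sys.Cmp a a') :
    Disjoint {z | |hZ C c a z| < 3} {z | |hZ C c a' z| < 3} := disjoint_left.2 fun _ h1 h2 =>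
  let ⟨_, k1, k2⟩ := exists_of_hZ C ha h1
  let ⟨_, k3, k4⟩ := exists_of_hZ C ha' h2
  Mark.not_cmp ⟨_, rfl⟩ ⟨_, (C.inj k1 k3 (k2.trans k4.symm)).symm⟩ h

theorem exists_deep (R : ℝ) : ∃ ε ∈ Ioc (0 : ℝ) 1, ∀ b s, s ∈ dom 1 b → |s| < ε →
    R < -pm b * len 1 b s := by
  obtain ⟨u, h1, h2⟩ := mem_nhdsGT_iff_exists_Ioo_subset.1
    (tendsto_len_one_true.eventually (eventually_lt_atBot (-R)))
  refine ⟨min u 1, ⟨lt_min h1 one_pos, min_le_right _ _⟩, fun b s hs k => ?_⟩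
  have k' := abs_lt.1 (k.trans_le (min_le_left _ _))
  have hs' := hs.resolve_left (lt_irrefl _)
  cases b
  · have h3 : len 1 true (-s) < -R := h2 ⟨neg_pos.2 hs', by linarith⟩
    rw [show len 1 true (-s) = _ from len_neg 1 false s] at h3
    simp only [pm, Bool.false_eq_true, if_false]; linarith
  · have h3 : len 1 true s < -R := h2 ⟨hs', k'.2⟩
    simp only [pm, if_true]; linarith

/-! ### ends -/

instance (c : M.Cl) : Fintype (cylW c) := Fintype.ofFinite _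

section ends
variable {xs : A → Xs Wi κ lam}
  {g : ∀ a, (xs a).Y.M ≃ₘ^∞⟮(xs a).Y.I, (M.bn a).Y.I⟯ (M.bn a).Y.M}
  (K : ∀ i : cylW c × Bool, Nk (xs i.1).D (Λ.B m c) (Λ.G m c p₀))

variable (Θ Q Om Om') in
/-- the ends of `Z c` -/
abbrev wEnd (i : cylW c × Bool) : End (wFam Λ m c p₀ Θ Q Om Om') :=
  ⟨(xs i.1).Y, (xs i.1).D, K i, !i.2⟩

theorem wEnd_l (i : cylW c × Bool) :
    (wEnd Λ Θ Q Om Om' K i).l = bif i.2 then atBot else atTop := by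
  obtain ⟨_, _ | _⟩ := i <;> rfl

theorem wEnd_sg (i : cylW c × Bool) : (wEnd Λ Θ Q Om Om' K i).sg = -pm i.2 := by
  obtain ⟨_, _ | _⟩ := i <;> simp [End.sg, pm]

variable {K}

/-- **ENDS** -/
theorem endIn_W (hb : p₀ ∈ M.Br c.1) (h0 : p₀ ∈ M.O c.1) (hm : MapsTo Θ Q (M.O c.1))
    (ok : (wFam Λ m c p₀ Θ Q Om Om').OK) (hx : ∀ a, (xs a).C.OK)
    (hK : ∀ i : cylW c × Bool, IsNk i.1.1 (some i.2) (g i.1) (K i)) :
    EndIn (wEnd Λ Θ Q Om Om' K) := by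
  have ac : ∀ i : cylW c × Bool, Act m c i.1.1 (some i.2) p₀ := fun i => ⟨i.1.2.2, hb, h0, i.1.2.1⟩
  have h1 : ∀ i : cylW c × Bool, p₀.2 i.1 = 1 := fun i => hb.2 i.1.2.1
  refine ⟨ok, fun i => ⟨(hK i).lo.trans ?_, (hK i).hi.trans ?_⟩, fun i => (hx i.1).yd,
    fun i => ⟨?_⟩, fun i j e => ?_, ?_, fun i t ht => (agr_end Λ i.1.2 h0 (hm ht)).mono (K i).ψ.open_target
      (isNk_sub (ac i) (hK i))⟩
  · obtain ⟨_, _ | _⟩ := i <;> rfl
  · obtain ⟨_, _ | _⟩ := i <;> rfl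
  · exact (g i.1).symm.surjective.range_eq ▸ isPreconnected_range (g i.1).symm.continuous
  · by_cases e' : i.1 = j.1
    · obtain ⟨a, b⟩ := i
      obtain ⟨a', b'⟩ := j
      obtain rfl : a = a' := e'
      show Disjoint (K _).ψ.target (K _).ψ.target
      rw [isNk_target (ac _) (hK _), isNk_target (ac _) (hK _), h1 (a, b)]
      refine disjoint_left.2 fun z k1 k2 => ?_
      have k3 := k1.2.resolve_left (lt_irrefl _)
      have k4 := k2.2.resolve_left (lt_irrefl _)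
      cases b <;> cases b'
      exacts [e rfl, lt_asymm k3 k4, lt_asymm k3 k4, e rfl]
    · exact disjoint_left.2 fun _ k k' => disjoint_left.1 (disjoint_hZ W.toCaps (.inl i.1.2)
        (.inl j.1.2) (c.2 i.1.2.1 j.1.2.1 fun k => e' (Subtype.ext k)))
        (show _ < (3 : ℝ) from lt_trans (isNk_sub (ac i) (hK i) k) (by norm_num))
        (show _ < (3 : ℝ) from lt_trans (isNk_sub (ac j) (hK j) k') (by norm_num))
  · obtain ⟨ε, ⟨k0, k1⟩, k2⟩ := exists_deep 5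
    refine (isCompact_thk W.toCaps c p₀ k0 (k1.trans (by norm_num))).of_isClosed_subset
      (isOpen_iUnion fun i => isOpen_U _ _).isClosed_compl fun z hz a ha => not_lt.1 fun k => hz ?_
    rw [Nw_eq h0] at ha
    obtain ⟨b, hb⟩ := exists_dom (t := 1) (s := hZ W.toCaps c a z)
      (.inr (hZ_ne W.toCaps ha.1 ha.2 z))
    have k3 : z ∈ (K (⟨a, ha⟩, b)).ψ.target := by
      rw [isNk_target (ac _) (hK _), h1]; exact ⟨abs_lt.1 (k.trans_le k1), hb⟩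
    refine mem_iUnion.2 ⟨(⟨a, ha⟩, b), k3, ?_⟩
    rw [wEnd_sg]
    exact (k2 b _ hb k).trans_eq (congrArg _ ((isNk_tm (ac _) (hK _) k3).trans
      (by rw [h1]; rfl)).symm)

end ends

/-! ### jobs -/

variable {Λ} {A' h : Type} [Fintype A'] [DecidableEq A'] [Fintype h] {r n : ℕ}
  (J : Job Wi Λ A' h r n) (c) (s₀ : A' → ℝ) (θ : T → A' → ℝ)

/-- the family of a job on `Z c` along `θ`, over all parameters without further broken walls -/
abbrev jFam (Om Om' : Set (W.Z c).M) : Mod61.Fam (W.Z c).I (W.Z c).M (Option κ) (lam ⊕ lam) T :=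
  wFam Λ J.m c (J.Θ s₀) (fun t => J.Θ (θ t)) {t | J.Θ (θ t) ∈ M.O c.1} Om Om'

variable {J c s₀ θ}

theorem jFam_ok (hJ : J.OK) (h0 : J.Θ s₀ ∈ M.O c.1) (hθ : ContDiff ℝ ∞ θ) (h1 : IsClopen Om)
    (h2 : IsClopen Om') (h3 : Om' ⊆ Om) : (jFam c J s₀ θ Om Om').OK :=
  wFam_ok Λ h0 (isOpen_pre (hJ.sm.comp hθ).continuous) (hJ.sm.comp hθ).contDiffOn
    (fun _ ht => ht) h1 h2 h3

variable (θ Om Om') in
/-- the ends of a job -/
abbrev jEnd (hb : J.Θ s₀ ∈ M.Br c.1) (h0 : J.Θ s₀ ∈ M.O c.1) :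
    cylW c × Bool → End (jFam c J s₀ θ Om Om') :=
  wEnd Λ _ _ Om Om' fun i => J.K c i.1 (some i.2) _ ⟨i.1.2.2, hb, h0, i.1.2.1⟩

theorem endIn_J (hJ : J.OK) (hb : J.Θ s₀ ∈ M.Br c.1) (h0 : J.Θ s₀ ∈ M.O c.1)
    (hθ : ContDiff ℝ ∞ θ) (h1 : IsClopen Om) (h2 : IsClopen Om') (h3 : Om' ⊆ Om) :
    EndIn (jEnd Om Om' θ hb h0) :=
  endIn_W Λ hb h0 (fun _ ht => ht) (jFam_ok hJ h0 hθ h1 h2 h3) (fun a => (hJ.xs a).1)
    fun _ => hJ.nk _ _ _ _ _

/-- the weighted family of a job with its ends -/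
def jEnds (hJ : J.OK) (hb : J.Θ s₀ ∈ M.Br c.1) (h0 : J.Θ s₀ ∈ M.O c.1)
    (hθ : ContDiff ℝ ∞ θ) (h1 : IsClopen Om) (h2 : IsClopen Om') (h3 : Om' ⊆ Om) {δ : ℝ}
    (d0 : 0 < δ) (d1 : δ ≤ dl0) : Ends (wF (jEnd Om Om' θ hb h0) δ) δ :=
  (endIn_J hJ hb h0 hθ h1 h2 h3).ends d0 d1

end Crest.Agent.X212.Cht98
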