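import Crest.Agent.X212.M.Lit
import Crest.Agent.X212.Cyl58.Cps

/-! Row 212, layer M (helper98): the literal necks and ends of the layers of a world. -/

set_option autoImplicit false
set_option linter.unusedSectionVars false
noncomputable section
open Set Function Filter Topology Module
open scoped ContDiff Manifold

namespace Crest.Agent.X212.Cht98
open An M Cyl58 Cyf70
open Nd18 (Jv)
open Met55 (atx)
open Dr59 (mf)

/-- an open partial homeomorphism from a locally open bijection -/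
def oph {α β : Type} [TopologicalSpace α] [TopologicalSpace β] [Nonempty α] (f : α → β)
    {S : Set α} {T : Set β} (hS : IsOpen S) (hb : BijOn f S T) (hc : ContinuousOn f S)
    (ho : ∀ x ∈ S, 𝓝 (f x) ≤ map f (𝓝 x)) : OpenPartialHomeomorph α β :=
  OpenPartialHomeomorph.ofContinuousOpenRestrict (hb.toPartialEquiv f S T) hc
    (isOpenMap_iff_nhds_le.2 fun x : S => by
      have := ho x.1 x.2
      rwa [← hS.isOpenEmbedding_subtypeVal.map_nhds_eq, map_map] at this) hS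

/-! ### arc length -/

section len
variable {t : ℝ} {b : Bool} {s r : ℝ}

/-- the heights of the neck -/
def Hs (t : ℝ) (b : Bool) : Set ℝ := Ioo (-1) 1 ∩ dom t b

/-- the initial time -/
def np (t : ℝ) (b : Bool) : Option ℝ := if b then (if t < 1 then some (-nl t) else none) else some 0

/-- the final time -/
def nq (t : ℝ) (b : Bool) : Option ℝ := if b then some 0 else if t < 1 then some (nl t) else none

theorem np_false (t : ℝ) : np t false = some 0 := rfl
theorem nq_true (t : ℝ) : nq t true = some 0 := rfl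
theorem nq_false (h : t < 1) : nq t false = some (nl t) := if_pos h
theorem np_true (h : t < 1) : np t true = some (-nl t) := if_pos h
theorem nq_one : nq 1 false = none := if_neg (lt_irrefl _)
theorem np_one : np 1 true = none := if_neg (lt_irrefl _)

theorem isOpen_Hs (t : ℝ) (b : Bool) : IsOpen (Hs t b) := isOpen_Ioo.inter (isOpen_dom t b)

theorem zero_not_mem (t : ℝ) (b : Bool) : (0 : ℝ) ∉ Jv (np t b) (nq t b) := fun h => by
  cases b
  exacts [lt_irrefl _ (h.1 0 rfl), lt_irrefl _ (h.2 0 rfl)]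

theorem len_true_neg (h : t < 1) : len t true (-1) = -nl t := by
  have := len_false h (-1)
  rw [show len t false (-1) = 0 from len_pm t false] at this
  linarith

theorem len_mem_iff (hs : s ∈ dom t b) :
    len t b s ∈ Jv (np t b) (nq t b) ↔ s ∈ Ioo (-1 : ℝ) 1 := by
  have key : ∀ {r}, r ∈ dom t b → ((len t b r < len t b s ↔ r < s) ∧
      (len t b s < len t b r ↔ s < r)) := fun hr =>
    ⟨(strictMonoOn_len t b).lt_iff_lt hr hs, (strictMonoOn_len t b).lt_iff_lt hs hr⟩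
  have h0 := key (pm_mem t b)
  rw [len_pm] at h0
  by_cases ht : t < 1 <;> cases b
  · simp only [Jv, np_false, nq_false ht, Option.mem_def, Option.some.injEq, forall_eq',
      mem_ofPred_eq]
    exact and_congr h0.1 (key (.inl ht)).2
  · simp only [Jv, nq_true, np_true ht, Option.mem_def, Option.some.injEq, forall_eq',
      mem_ofPred_eq, ← len_true_neg ht]
    exact and_congr (key (.inl ht)).1 h0.2
  · have h1 : s < 0 := hs.resolve_left ht
    simp only [Jv, np_false, nq, ht, Option.mem_def, Option.some.injEq, forall_eq',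
      mem_ofPred_eq, h0.1]
    simp [pm, show s < 1 by linarith]
  · have h1 : 0 < s := hs.resolve_left ht
    simp only [Jv, nq_true, np, ht, Option.mem_def, Option.some.injEq, forall_eq',
      mem_ofPred_eq, h0.2]
    simp [pm, show -1 < s by linarith]

theorem exists_len_one (hr : r < 0) : ∃ s ∈ dom 1 true, len 1 true s = r := by
  obtain ⟨s, h1, h2⟩ := ((tendsto_len_one_true.eventually (eventually_le_atBot r)).and
    (Ioo_mem_nhdsGT one_pos)).exists
  have h3 : Icc s 1 ⊆ dom 1 true := fun x hx => .inr (h2.1.trans_le hx.1)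
  obtain ⟨x, h4, h5⟩ := intermediate_value_Icc h2.2.le
    ((contDiffOn_len 1 true).continuousOn.mono h3) ⟨h1, hr.le.trans_eq (len_pm 1 true).symm⟩
  exact ⟨x, h3 h4, h5⟩

theorem bijOn_len (ht : t ≤ 1) (b : Bool) : BijOn (len t b) (Hs t b) (Jv (np t b) (nq t b)) := by
  refine ⟨fun s hs => (len_mem_iff hs.2).2 hs.1,
    (strictMonoOn_len t b).injOn.mono inter_subset_right, fun r hr => ?_⟩
  suffices ∃ s ∈ dom t b, len t b s = r from
    let ⟨s, h1, h2⟩ := this; ⟨s, ⟨(len_mem_iff h1).1 (h2 ▸ hr), h1⟩, h2⟩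
  rcases ht.lt_or_eq with h | rfl
  · obtain ⟨x, -, h5⟩ := intermediate_value_Icc (show (-1 : ℝ) ≤ 1 by norm_num)
      ((contDiffOn_len t b).continuousOn.mono fun _ _ => .inl h)
      (show r ∈ Icc (len t b (-1)) (len t b 1) by
        cases b
        · exact ⟨(len_pm t false).trans_le (hr.1 0 rfl).le, (hr.2 _ (nq_false h)).le⟩
        · exact ⟨(len_true_neg h).trans_le (hr.1 _ (np_true h)).le,
            (hr.2 0 rfl).le.trans_eq (len_pm t true).symm⟩)
    exact ⟨x, .inl h, h5⟩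
  · cases b
    · obtain ⟨s, h1, h2⟩ := exists_len_one (neg_lt_zero.2 (hr.1 0 rfl))
      exact ⟨-s, .inr (neg_lt_zero.2 (h1.resolve_left (lt_irrefl _))),
        (len_neg 1 true s).trans (by rw [h2, neg_neg])⟩
    · exact exists_len_one (hr.2 0 rfl)

/-- the height at the time `r` -/
def li (t : ℝ) (b : Bool) : ℝ → ℝ := invFunOn (len t b) (Hs t b)

/-- arc length as a chart -/
def lenH (ht : t ≤ 1) (b : Bool) : OpenPartialHomeomorph ℝ ℝ :=
  oph (len t b) (isOpen_Hs t b) (bijOn_len ht b)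
    ((contDiffOn_len t b).continuousOn.mono inter_subset_right) fun s hs =>
      (((((contDiffOn_len t b).contDiffAt ((isOpen_dom t b).mem_nhds hs.2)).hasStrictDerivAt'
        (hasDerivAt_len hs.2) (by simp)).map_nhds_eq (inv_pos.2 (sig_pos (dom_off hs.2))).ne')).ge

theorem li_len (hs : s ∈ Hs t b) : li t b (len t b s) = s :=
  ((strictMonoOn_len t b).injOn.mono inter_subset_right).leftInvOn_invFunOn hs

variable (ht : t ≤ 1) (hr : r ∈ Jv (np t b) (nq t b))
include ht hr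

theorem li_mem : li t b r ∈ Hs t b := (lenH ht b).map_target hr

theorem len_li : len t b (li t b r) = r := (lenH ht b).right_inv hr

theorem hasDerivAt_li : HasDerivAt (li t b) (sig t (li t b r)) r := by
  have := (lenH ht b).hasDerivAt_symm hr (inv_pos.2 (sig_pos (dom_off (li_mem ht hr).2))).ne'
    (hasDerivAt_len (li_mem ht hr).2)
  rwa [inv_inv] at this

theorem ld_li : IsLocalDiffeomorphAt 𝓘(ℝ, ℝ) 𝓘(ℝ, ℝ) ∞ (li t b) r :=
  ld_of_inverse (lenH ht b).open_target (isOpen_Hs t b)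
    (fun _ hx => ((lenH ht b).contDiffAt_symm_deriv
      (inv_pos.2 (sig_pos (dom_off (li_mem ht hx).2))).ne' hx (hasDerivAt_len (li_mem ht hx).2)
      ((contDiffOn_len t b).contDiffAt ((isOpen_dom t b).mem_nhds
        (li_mem ht hx).2))).contMDiffAt.contMDiffWithinAt)
    ((contDiffOn_len t b).mono inter_subset_right).contMDiffOn (fun _ hx => li_mem ht hx)
    (bijOn_len ht b).1 (fun _ hx => len_li ht hx) (fun _ hx => li_len hx) hr

end len

theorem two_le_nl {t : ℝ} (h0 : 0 ≤ t) (h : t < 1) : 2 ≤ nl t := by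
  have := intervalIntegral.integral_mono_on (show (-1 : ℝ) ≤ 1 by norm_num)
    (intervalIntegrable_const (c := (1 : ℝ)) (μ := MeasureTheory.volume))
    (integrable_inv_sig (t := t) (b := false) (.inl h) (.inl h)) fun x _ =>
      (one_le_inv₀ (sig_pos (.inl h))).2 (sig_le_one h0 x)
  rw [intervalIntegral.integral_const, smul_eq_mul] at this
  exact le_trans (by norm_num) this

/-- the two normalisations of a finite neck -/
theorem li_false {t r : ℝ} (h : t < 1) (hr : r ∈ Jv (np t false) (nq t false)) :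
    li t false r = li t true (r - nl t) := by
  have h1 := li_mem h.le hr
  rw [← li_len (t := t) (b := true) ⟨h1.1, .inl h⟩, eq_sub_of_add_eq (len_false h _).symm,
    len_li h.le hr]

/-- off its middle part the finite neck is the end -/
theorem li_eq_li_one {t r : ℝ} {b : Bool} (ht : 1 / 2 ≤ t) (h : t < 1)
    (hr : r ∈ Jv (np 1 b) (nq 1 b)) (hs : (1 - t) / 2 ≤ pm b * li 1 b r) :
    r ∈ Jv (np t b) (nq t b) ∧ li t b r = li 1 b r := by
  have h1 : li 1 b r ∈ Hs t b := ⟨(li_mem le_rfl hr).1, .inl h⟩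
  have h2 := (len_eq_len_one ht hs).trans (len_li le_rfl hr)
  exact ⟨h2 ▸ (bijOn_len h.le b).1 h1, (congrArg _ h2.symm).trans (li_len h1)⟩

open Classical in
/-- time as a function of the height -/
def tmf (t : ℝ) (b : Bool) (s : ℝ) : ℝ :=
  if s ∈ dom t b then len t b (max (-1) (min s 1)) else 0

theorem clamp_mem {t s : ℝ} {b : Bool} (h : s ∈ dom t b) : max (-1) (min s 1) ∈ dom t b := by
  refine h.imp_right fun h => ?_
  cases b
  · exact max_lt (by norm_num) ((min_le_left _ _).trans_lt h)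
  · exact lt_max_of_lt_right (lt_min h one_pos)

theorem tmf_eq {t s : ℝ} {b : Bool} (h : s ∈ dom t b) (h1 : |s| ≤ 1) : tmf t b s = len t b s := by
  rw [tmf, if_pos h, min_eq_left (abs_le.1 h1).2, max_eq_right (abs_le.1 h1).1]

theorem tmf_mem {t s : ℝ} {b : Bool} : tmf t b s ∈ Jv (np t b) (nq t b) ↔ s ∈ Hs t b := by
  by_cases h : s ∈ dom t b
  · rw [tmf, if_pos h, len_mem_iff (clamp_mem h)]
    simp [Hs, h]
  · rw [tmf, if_neg h]
    exact iff_of_false (zero_not_mem t b) fun k => h k.2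

theorem continuousAt_tmf {t s : ℝ} (b : Bool) (h : (t, s) ∈ Off) : ContinuousAt (tmf t b) s := by
  by_cases hs : s ∈ dom t b
  · refine ContinuousAt.congr (f := fun x => len t b (max (-1) (min x 1)))
      (ContinuousAt.comp (f := fun x : ℝ => max (-1) (min x 1))
        ((contDiffOn_len t b).continuousOn.continuousAt
        ((isOpen_dom t b).mem_nhds (clamp_mem hs))) (by fun_prop)) ?_
    filter_upwards [(isOpen_dom t b).mem_nhds hs] with x hx using (if_pos hx).symm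
  · have h1 : ¬t < 1 := fun k => hs (.inl k)
    have h2 : s ≠ 0 := h.resolve_left h1
    refine continuousAt_const.congr (f := fun _ => (0 : ℝ)) ?_
    cases b
    · filter_upwards [Ioi_mem_nhds (h2.lt_or_gt.resolve_left fun k => hs (.inr k))] with x hx
      exact (if_neg fun k => k.elim h1 fun k => lt_asymm hx k).symm
    · filter_upwards [Iio_mem_nhds (h2.lt_or_gt.resolve_right fun k => hs (.inr k))] with x hx
      exact (if_neg fun k => k.elim h1 fun k => lt_asymm hx k).symm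

/-! ### the height on `Z c` -/

variable {X : Mf 4} {A κ : Type} [Fintype A] [Fintype κ] {M : Mark X A κ}

section height
variable (C : Caps M) (c : M.Cl) (a : A)

/-- the height function of the wall `a` on `Z c` -/
def hZ : (C.Z c).M → ℝ := (capsD C c).lift (M.bn a).s fun p _ =>
  (M.bn a).s ((M.bn p.1.1).j (Classical.arbitrary _, 0))

variable {c a} (ha : a ∈ c.1 ∧ ¬M.pin a ∨ a ∈ M.sys.fr c.1)
include ha

theorem cmp_pb (p : PB M c) : M.sys.Cmp a p.1.1 :=
  ha.elim (fun h => c.2 h.1 p.2.1 fun e => h.2 (e ▸ p.2.2)) fun h => h.2 _ p.2.1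

theorem s_pb (p : PB M c) (q) : (M.bn a).s ((M.bn p.1.1).j q) =
    if 0 < (M.bn a).ht ((M.bn p.1.1).j q) then 4 else -4 :=
  (M.bn a).s_off fun h => Mark.not_cmp ((M.bn a).slab_subset _ h) ⟨q, rfl⟩ (cmp_pb ha p)

theorem cpt_hZ : Capd.Cpt (mkCap M c) (M.bn a).s fun p _ =>
    (M.bn a).s ((M.bn p.1.1).j (Classical.arbitrary _, 0)) := fun p y r _ => by
  obtain ⟨b, hb⟩ := Wall.exists_side (cmp_pb ha p)
  have key : ∀ q, (0 < (M.bn a).ht ((M.bn p.1.1).j q)) ↔ b = true := fun q => by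
    have : 0 < pm b * (M.bn a).ht ((M.bn p.1.1).j q) := hb ⟨q, rfl⟩
    cases b
    · simp only [pm, Bool.false_eq_true, if_false, iff_false] at this ⊢; linarith
    · simpa [pm] using this
  exact (s_pb ha p _).trans ((if_congr ((key _).trans (key _).symm) rfl rfl).trans
    (s_pb ha p _).symm)

theorem hZ_φ {x : X.M} (hx : x ∉ M.sys.cores c.1) : hZ C c a (C.φ c x) = (M.bn a).s x :=
  (capsD C c).lift_φ (cpt_hZ ha) hx

theorem hZ_nj {q : (M.bn a).Y.M × ℝ} (hq : (M.bn a).j q ∉ M.sys.cores c.1) (h : |q.2| ≤ 3) :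
    hZ C c a (C.nj c a q) = q.2 := (hZ_φ C ha hq).trans ((M.bn a).s_j_of_le h)

theorem sm_hZ : ContMDiff (C.Z c).I 𝓘(ℝ, ℝ) ∞ (hZ C c a) :=
  (capsD C c).contMDiff_lift (cpt_hZ ha) (fun x _ => (M.bn a).contMDiff_s x)
    fun _ _ _ => contMDiffAt_const

theorem exists_of_hZ {z : (C.Z c).M} (h : |hZ C c a z| < 3) :
    ∃ y, (M.bn a).j (y, hZ C c a z) ∉ M.sys.cores c.1 ∧ C.nj c a (y, hZ C c a z) = z := by
  rcases caps_surj C z with ⟨x, hx, rfl⟩ | ⟨a', h1, h2, b, rfl⟩
  · rw [hZ_φ C ha hx] at h ⊢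
    obtain ⟨y, hy⟩ := (M.bn a).exists_of_abs_s_lt h
    exact ⟨y, hy.symm ▸ hx, congrArg (C.φ c) hy⟩
  · have h3 : hZ C c a (C.β c a' b 0) = _ :=
      ((capsD C c).lift_cap _ _ ⟨(a', b), h1, h2⟩ (0 : V4)).trans (s_pb ha ⟨(a', b), h1, h2⟩ _)
    rw [h3] at h
    split_ifs at h <;> norm_num at h

omit ha in
theorem hZ_ne (h : a ∈ c.1) (hp : ¬M.pin a) (z : (C.Z c).M) : hZ C c a z ≠ 0 := fun e => by
  obtain ⟨y, h1, -⟩ := exists_of_hZ C (.inl ⟨h, hp⟩) (z := z) (by rw [e]; norm_num)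
  exact h1 ((j_mem_cores h).2 e)

end height

/-! ### necks -/

variable (M) in
/-- the cylindrical wall `a` is a literal neck of the layer `(m, c)` at the parameter `p` -/
structure NkOK (m c : M.Cl) (p : Prm A) (a : A) : Prop where
  cyl : ¬M.pin a
  lt : M.Lt c.1 p.2 a
  O : p ∈ M.O c.1
  lit : a ∈ c.1 ∨ a ∈ m.1

namespace NkOK
variable {m c : M.Cl} {p : Prm A} {a : A}

theorem of_mem (hp : ¬M.pin a) (ha : a ∈ c.1) (h : p ∈ M.O c.1) : NkOK M m c p a :=
  ⟨hp, .inl ha, h, .inl ha⟩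

theorem of_fr (hp : ¬M.pin a) (ha : a ∈ M.sys.fr c.1) (hm : a ∈ m.1) (h : p ∈ M.O c.1)
    (h' : p.2 ∈ M.sys.Par) (ht : 1 / 2 ≤ p.2 a) : NkOK M m c p a :=
  ⟨hp, Mark.lt_of_br h' ha ht, h, .inr hm⟩

variable (h : NkOK M m c p a)
include h

theorem mem : a ∈ c.1 ∧ ¬M.pin a ∨ a ∈ M.sys.fr c.1 := h.lt.imp (⟨·, h.cyl⟩) And.left

theorem tv_mem : Mark.tv c.1 p.2 a ∈ Icc (1 / 2 : ℝ) 1 := by
  rcases h.lt with k | k
  · rw [Mark.tv_mem k]; norm_num
  · rw [Mark.tv_fr k.1]; exact k.2.1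

theorem lit_of {b : Bool} {s : ℝ} (hs : s ∈ dom (Mark.tv c.1 p.2 a) b) (h1 : |s| ≤ 1) :
    M.Lit m.1 c.1 a s := by
  refine ⟨h1, h.lt.imp (fun k => ⟨k, ?_⟩) fun k => ⟨h.lit.resolve_left k.1.1, k.1⟩⟩
  rw [Mark.tv_mem k] at hs
  exact (dom_off hs).resolve_left (lt_irrefl _)

theorem off (C : Caps M) (z : (C.Z c).M) : (Mark.tv c.1 p.2 a, hZ C c a z) ∈ Off :=
  h.lt.symm.imp (fun k => by rw [Mark.tv_fr k.1]; exact h.O a k.1) fun k => hZ_ne C k h.cyl z

variable {Y : Mf 3} [CompactSpace Y.M] (g : Y.M ≃ₘ^∞⟮Y.I, (M.bn a).Y.I⟯ (M.bn a).Y.M) (b : Bool)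

omit h in
/-- the neck coordinates in the band -/
def nb (t : ℝ) (q : Y.M × ℝ) : (M.bn a).Y.M × ℝ := (g q.1, li t b q.2)

variable {b} {q : Y.M × ℝ}
  (hq : q.2 ∈ Jv (np (Mark.tv c.1 p.2 a) b) (nq (Mark.tv c.1 p.2 a) b))
include hq

theorem lit_nb : M.Lit m.1 c.1 a (nb g b (Mark.tv c.1 p.2 a) q).2 :=
  h.lit_of (li_mem h.tv_mem.2 hq).2 (abs_lt.2 (li_mem h.tv_mem.2 hq).1).le

theorem ld_nb : IsLocalDiffeomorphAt (IC Y.I) (IC (M.bn a).Y.I) ∞ (nb g b (Mark.tv c.1 p.2 a)) q :=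
  ld_prodMap (g.isLocalDiffeomorph q.1) (ld_li h.tv_mem.2 hq)

theorem ld_ψ (C : Caps M) : IsLocalDiffeomorphAt (IC Y.I) (C.Z c).I ∞
    (C.nj c a ∘ nb g b (Mark.tv c.1 p.2 a)) q :=
  ld_comp (C.ld_nj (h.lit_nb g hq).not_mem) (h.ld_nb g hq)

theorem hZ_ψ (C : Caps M) : hZ C c a (C.nj c a (nb g b (Mark.tv c.1 p.2 a) q)) =
    li (Mark.tv c.1 p.2 a) b q.2 :=
  hZ_nj C h.mem (h.lit_nb g hq).not_mem ((h.lit_nb g hq).1.trans (by norm_num))

theorem mf_nb {F : Fr Y.I Y.M κ}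
    (he : ∀ k y, mf Y.I (M.bn a).Y.I g y (atx F.e y k) = atx (M.gY a).e (g y) k) (i : Option κ) :
    mf (IC Y.I) (IC (M.bn a).Y.I) (nb g b (Mark.tv c.1 p.2 a)) q (ce F.e i q) =
      M.nf a (Mark.tv c.1 p.2 a) (nb g b (Mark.tv c.1 p.2 a) q) i := by
  have h1 := hasDerivAt_li h.tv_mem.2 hq
  have h2 := ((g.mdifferentiable (by simp) q.1).hasMFDerivAt.comp q (hasMFDerivAt_fst q)).prodMk
    (h1.hasFDerivAt.hasMFDerivAt.comp q (hasMFDerivAt_snd (I := Y.I) q))
  refine (DFunLike.congr_fun (Dr59.mf_of_has h2) _).trans ?_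
  cases i with
  | none =>
    rw [Mark.nf, Mark.wt_none h.cyl]
    exact Prod.ext ((map_zero (mf Y.I (M.bn a).Y.I g q.1)).trans
      (smul_zero (A := (M.bn a).Y.E) (sig _ _)).symm)
      ((one_smul ℝ (sig _ _)).trans (mul_one (sig _ _)).symm)
  | some k =>
    rw [Mark.nf, Mark.wt_some h.cyl, one_smul]
    exact Prod.ext (he k q.1) (zero_smul ℝ (sig _ _))

omit hq in
theorem bijOn (C : Caps M) (b : Bool) : BijOn (C.nj c a ∘ nb g b (Mark.tv c.1 p.2 a))
    (univ ×ˢ Jv (np (Mark.tv c.1 p.2 a) b) (nq (Mark.tv c.1 p.2 a) b))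
    (hZ C c a ⁻¹' Hs (Mark.tv c.1 p.2 a) b) := by
  refine ⟨fun q hq => ?_, fun q hq q' hq' e => ?_, fun z hz => ?_⟩
  · rw [mem_preimage, comp_apply, h.hZ_ψ g hq.2]
    exact li_mem h.tv_mem.2 hq.2
  · have h1 := (M.bn a).oe.inj (C.inj (h.lit_nb g hq.2).not_mem (h.lit_nb g hq'.2).not_mem e)
    refine Prod.ext (g.injective (congrArg Prod.fst h1)) ?_
    rw [← len_li h.tv_mem.2 hq.2, ← len_li h.tv_mem.2 hq'.2]
    exact congrArg _ (congrArg Prod.snd h1)
  · obtain ⟨y, -, h2⟩ := exists_of_hZ C h.mem ((abs_lt.2 hz.1).trans (by norm_num))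
    refine ⟨(g.symm y, len _ b (hZ C c a z)), ⟨trivial, (bijOn_len h.tv_mem.2 b).1 hz⟩, ?_⟩
    rw [comp_apply, nb, g.apply_symm_apply, li_len hz, h2]

omit hq in
/-- the chart of the neck -/
def ψ (C : Caps M) (b : Bool) : OpenPartialHomeomorph (Y.M × ℝ) (C.Z c).M :=
  haveI : Nonempty Y.M := ⟨g.symm (Classical.arbitrary _)⟩
  oph _ (isOpen_univ.prod (lenH h.tv_mem.2 b).open_target) (h.bijOn g C b)
    (fun _ hq => (h.ld_ψ g hq.2 C).contMDiffAt.continuousAt.continuousWithinAt) fun q hq => by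
      obtain ⟨Φ, h1, h2⟩ := h.ld_ψ g hq.2 C
      rw [h2 h1, map_congr (eventually_of_mem (Φ.open_source.mem_nhds h1) h2)]
      exact (Φ.toOpenPartialHomeomorph.map_nhds_eq h1).ge

omit hq in
theorem iso (W : World M) {F : Fr Y.I Y.M κ} (hF : F.IsVol)
    (he : ∀ k y, mf Y.I (M.bn a).Y.I g y (atx F.e y k) = atx (M.gY a).e (g y) k) (b : Bool) :
    An.Iso (cylP F.toPre) (W.F m c p).toPre (h.ψ g W.toCaps b) := by
  refine Met55.iso_vol (Int54.isVol_cyl hF) ((W.L m c).F_vol p)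
    (fun q hq => (h.ld_ψ g hq.2 W.toCaps).contMDiffAt.contMDiffWithinAt) (fun z hz => ?_)
    fun i q hq => ?_
  · obtain ⟨q, hq, rfl⟩ := (h.ψ g W.toCaps b).surjOn hz
    exact (contMDiffAt_of_comp (h.ld_ψ g hq.2 W.toCaps) (contMDiffAt_id.congr_of_eventuallyEq
      ((h.ψ g W.toCaps b).eventually_left_inverse hq))).contMDiffWithinAt
  · have h1 := h.lit_nb g hq.2
    refine (DFunLike.congr_fun (Dr59.mf_comp ((W.ld_nj h1.not_mem).mdifferentiableAt (by simp))
      ((h.ld_nb g hq.2).mdifferentiableAt (by simp))) _).trans ?_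
    rw [(W.L m c).F_e (Mark.mem_Ω _ h.O)]
    exact (congrArg _ (h.mf_nb g hq.2 he i)).trans
      (W.lit' h.cyl h1 h.lt (dom_off (li_mem h.tv_mem.2 hq.2).2) p.1 i).symm

variable {lam : Type} [Fintype lam] [DecidableEq lam] {W : World M} {N : ML M lam}

omit hq in
/-- **the literal neck of the wall `a`**; `b = false`: times `(0, nl t)` or `(0, ∞)` (left
piece), `b = true`: times `(-nl t, 0)` or `(-∞, 0)` (right piece) -/
def nk (Λ : Lns W N) {C : Cy Y κ lam} (hC : C.F.IsVol) (hg : C.Iso (N.cy a) g) (b : Bool) :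
    Nd18.Nk C.yd (Λ.B m c) (Λ.G m c p) where
  p := np (Mark.tv c.1 p.2 a) b
  q := nq (Mark.tv c.1 p.2 a) b
  ψ := h.ψ g W.toCaps b
  tm z := tmf (Mark.tv c.1 p.2 a) b (hZ W.toCaps c a z)
  len x hx y hy := by
    have h0 : 0 ≤ Mark.tv c.1 p.2 a := le_trans (by norm_num) h.tv_mem.1
    by_cases ht : Mark.tv c.1 p.2 a < 1 <;> cases b <;>
      simp only [np, nq, ht, if_true, if_false, Bool.false_eq_true, Option.mem_def,
        Option.some.injEq, reduceCtorEq] at hx hy <;>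
      linarith [two_le_nl h0 ht]
  src := rfl
  tgt := Set.ext fun _ => tmf_mem.symm
  cont := continuous_iff_continuousAt.2 fun z => (continuousAt_tmf b (h.off _ z)).comp
    (sm_hZ _ h.mem).continuous.continuousAt
  tm_ψ q hq := by
    have h1 := li_mem h.tv_mem.2 hq.2
    exact (congrArg _ (h.hZ_ψ g hq.2 W.toCaps)).trans
      ((tmf_eq h1.2 (abs_lt.2 h1.1).le).trans (len_li h.tv_mem.2 hq.2))
  iso := h.iso g W hC hg.e b
  P i k q hq := (congrFun (congrFun (congrFun ((W.L m c).F_P (Mark.mem_Ω _ h.O)) i) k) _).symm.trans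
    (Met55.iso_P (F := Cyf70.cyl C.F) (h.iso g W hC hg.e b) hq i k).symm
  o i k l n q hq := (W.ov_lit h.cyl (h.lit_nb g hq.2) i k l n).trans (hg.o i k l n q.1)
  l q hq := congrArg Line51.rl ((Λ.p_lit (h.lit_nb g hq.2)).trans
    (congrFun (congrArg Line51.Ln.p hg.L) q.1))
  il := rfl
  a i q hq := by
    have h1 := h.lit_nb g hq.2
    have h2 := li_mem h.tv_mem.2 hq.2
    have h3 := W.lit' h.cyl h1 h.lt (dom_off h2.2) p.1 i
    rw [← (W.L m c).F_e (t := (p.1, p.2)) (Mark.mem_Ω _ h.O)] at h3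
    refine (congrArg (fun v => Line51.rl (((Λ.Λ m c).ln p).cm _ _ v)) h3).trans ?_
    refine (congrArg Line51.rl ((Λ.cm_lit h1 (abs_lt.2 h2.1) h.lt p.1 _).trans
      ((Line51.cm_pull ((N.okY a).sm _ trivial) mdifferentiableAt_fst _).trans
        (congrArg _ (DFunLike.congr_fun mfderiv_fst _))))).trans ?_
    cases i with
    | none =>
      rw [Mark.nf, Mark.wt_none h.cyl]
      exact (congrArg (fun v => Line51.rl ((N.LY a).cm _ _ v)) (smul_zero _)).trans
        ((congrArg Line51.rl (map_zero _)).trans (map_zero _))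
    | some k =>
      rw [Mark.nf, Mark.wt_some h.cyl, one_smul]
      refine (congrArg (fun v => Line51.rl ((N.LY a).cm _ _ v)) (hg.e k q.1).symm).trans ?_
      exact (congrArg Line51.rl (Line51.cm_pull ((N.okY a).sm _ trivial)
        (g.mdifferentiable (by simp) q.1) _).symm).trans
        (congrArg (fun L : Line51.Ln _ _ _ => Line51.rl (L.cm _ q.1 _)) hg.L)

omit hq
variable (Λ : Lns W N) {C : Cy Y κ lam} (hC : C.F.IsVol) (hg : C.Iso (N.cy a) g) (b : Bool)

theorem nk_p : (h.nk g Λ hC hg b).p = np (Mark.tv c.1 p.2 a) b := rfl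

theorem nk_q : (h.nk g Λ hC hg b).q = nq (Mark.tv c.1 p.2 a) b := rfl

theorem nk_ψ (q : Y.M × ℝ) :
    (h.nk g Λ hC hg b).ψ q = W.nj c a (g q.1, li (Mark.tv c.1 p.2 a) b q.2) := rfl

theorem nk_tm (z : (W.Z c).M) :
    (h.nk g Λ hC hg b).tm z = tmf (Mark.tv c.1 p.2 a) b (hZ W.toCaps c a z) := rfl

theorem nk_target : (h.nk g Λ hC hg b).ψ.target = hZ W.toCaps c a ⁻¹' Hs (Mark.tv c.1 p.2 a) b := rfl

theorem nk_tm_nj {q : (M.bn a).Y.M × ℝ} (hq : q.2 ∈ dom (Mark.tv c.1 p.2 a) b) (h1 : |q.2| ≤ 1) :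
    (h.nk g Λ hC hg b).tm (W.nj c a q) = len (Mark.tv c.1 p.2 a) b q.2 := by
  rw [nk_tm, hZ_nj _ h.mem (h.lit_of hq h1).not_mem (h1.trans (by norm_num)), tmf_eq hq h1]

end NkOK

/-- the identity of the cylinder of a wall -/
theorem cy_iso_refl {Y : Mf 3} {lam : Type} (C : Cy Y κ lam) :
    C.Iso C (Diffeomorph.refl Y.I Y.M ∞) :=
  ⟨fun _ y => DFunLike.congr_fun (Dr59.mf_id (I := Y.I) y) _, fun _ _ _ _ _ => rfl,
    congrArg (Line51.Ln.mk _) (Dr59.pm_id _)⟩

end Crest.Agent.X212.Cht98
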