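import Crest.Agent.X212.Cht98.Nek
import Crest.Agent.X212.Nd18.Defs

/-! Row 212, layer AN (helper98): uniform tameness of manifolds with product necks and ends. -/

set_option autoImplicit false
set_option linter.unusedSectionVars false

open scoped Manifold ContDiff Topology NNReal
open Set Filter Function MeasureTheory Module

noncomputable section
namespace Crest.Agent.X212.Cht98
open Crest.Agent.X212.Sob92 Crest.Agent.X212.An Crest.Agent.X212.Cyf70
open Crest.Agent.X212.Nd18 (Jv)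

variable {E : Type} [NormedAddCommGroup E] [NormedSpace ℝ E] [FiniteDimensional ℝ E]
  [MeasurableSpace E] [BorelSpace E]
  {HM : Type} [TopologicalSpace HM] {I : ModelWithCorners ℝ E HM} [I.Boundaryless]
  {M : Type} [TopologicalSpace M] [ChartedSpace HM M] [IsManifold I ∞ M]
  [MeasurableSpace M] [BorelSpace M] [T2Space M] [SecondCountableTopology M]
  {ι : Type} [Fintype ι] {N : Type} [NormedAddCommGroup N] [NormedSpace ℝ N]

theorem CB_mul {F : Pre I M ι} {k : ℕ} {f g : M → ℝ} {A B : ℝ} (hf : Sm I f) (hg : Sm I g)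
    (h : F.CB k f A) (h' : F.CB k g B) : F.CB k (fun x => f x * g x) (2 ^ (k + 1) * |A| * |B|) :=
  CB_mono (CB_bil (ContinuousLinearMap.mul ℝ ℝ) hf hg h h') (by
    have := ContinuousLinearMap.opNorm_mul_le ℝ ℝ
    calc _ ≤ 2 ^ (k + 1) * 1 * |A| * |B| := by gcongr
      _ = _ := by ring)

theorem CB_prod {F : Pre I M ι} {k : ℕ} {J : Type} {f : J → M → ℝ} {A : ℝ} (hf : ∀ j, Sm I (f j))
    (h : ∀ j, F.CB k (f j) A) (s : Finset J) : Sm I (fun x => ∏ j ∈ s, f j x) ∧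
      F.CB k (fun x => ∏ j ∈ s, f j x) ((2 ^ (k + 1) * |A|) ^ s.card) := by
  classical
  induction s using Finset.induction_on with
  | empty => exact ⟨contMDiff_const, by simpa using CB_const (F := F) k (1 : ℝ)⟩
  | insert a s ha ih =>
    simp only [Finset.prod_insert ha, Finset.card_insert_of_notMem ha]
    refine ⟨(hf a).mul ih.1, CB_mono (CB_mul (hf a) ih.1 (h a) ih.2) (le_of_eq ?_)⟩
    rw [abs_of_nonneg (a := _ ^ s.card) (by positivity)]; ring

theorem CBs_one_sub {F : Pre I M ι} {f : M → ℝ} {C : ℕ → ℝ} (h : F.CBs f C) :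
    F.CBs (fun x => 1 - f x) fun k => 1 + |C k| :=
  ⟨contMDiff_const.sub h.1, fun k => by
    simp only [sub_eq_add_neg]
    exact CB_mono (CB_add contMDiff_const h.1.neg (CB_const k (1 : ℝ)) (CB_neg h.1 (h.2 k)))
      (by simp)⟩

/-- `U` is the deep part of a region of bounded geometry -/
structure Deep (F : Fr I M ι) (U : Set M) (C : ℕ → ℝ) : Prop where
  cut : ∃ χ χ' : M → ℝ, F.CBs χ C ∧ F.CBs χ' C ∧ TOn F (tsupport χ) C ∧ (∀ x ∈ U, χ' x = 1) ∧
    ∀ x, χ' x ≠ 0 → χ x = 1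
  exh : ∀ K, IsCompact K → ∃ η : M → ℝ, F.CBs η C ∧ (∀ x, 0 ≤ η x ∧ η x ≤ 1) ∧
    (∀ x ∈ K, η x = 1) ∧ ∃ L, IsCompact L ∧ ∀ x ∈ U, η x ≠ 0 → x ∈ L

theorem Deep.mono {F : Fr I M ι} {U U' : Set M} {C C' : ℕ → ℝ} (h : Deep F U C) (hU : U' ⊆ U)
    (hC : ∀ k, C k ≤ C' k) : Deep F U' C' where
  cut := let ⟨χ, χ', h1, h2, h3, h4, h5⟩ := h.cut
    ⟨χ, χ', CBs_mono h1 hC, CBs_mono h2 hC, h3.mono Subset.rfl hC, fun x hx => h4 x (hU hx), h5⟩
  exh K hK := let ⟨η, h1, h2, h3, L, h4, h5⟩ := h.exh K hK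
    ⟨η, CBs_mono h1 hC, h2, h3, L, h4, fun x hx => h5 x (hU hx)⟩

/-- the bound of the cut-off functions -/
def cA (n : ℕ) (C : ℕ → ℝ) (k : ℕ) : ℝ := (2 ^ (k + 1) * (1 + |C k|)) ^ (n + 1)

/-- the constants of `tame_of_deep` -/
def cD (ι : Type) [Fintype ι] (n : ℕ) (C : ℕ → ℝ) (k : ℕ) : ℝ :=
  cA n C k + |C 0| * ((cK ι 1 * cA n C 1) ^ 2 * (n + 1 : ℕ) + (cK ι 3 * cA n C 3) ^ 2)

theorem one_le_cB (C : ℕ → ℝ) (k : ℕ) : 1 + |C k| ≤ 2 ^ (k + 1) * (1 + |C k|) :=
  le_mul_of_one_le_left (by positivity) (one_le_pow₀ one_le_two)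

theorem le_cA (n : ℕ) (C : ℕ → ℝ) (k : ℕ) : C k ≤ cA n C k := by
  have h := one_le_cB C k
  have h1 := abs_nonneg (C k)
  exact (by linarith [le_abs_self (C k)] : C k ≤ _).trans (le_self_pow₀ (by linarith) n.succ_ne_zero)

theorem pow_le_cA (n : ℕ) (C : ℕ → ℝ) (k : ℕ) {A : ℝ} (hA : |A| ≤ 1 + |C k|) :
    (2 ^ (k + 1) * |A|) ^ n ≤ cA n C k := by
  have h := one_le_cB C k
  have h1 := abs_nonneg (C k)
  exact (pow_le_pow_left₀ (by positivity) (by gcongr) n).trans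
    (pow_le_pow_right₀ (by linarith) n.le_succ)

theorem cA_le (n : ℕ) (C : ℕ → ℝ) (k : ℕ) : cA n C k ≤ cD ι n C k :=
  le_add_of_nonneg_right (by positivity)

/-- **a compact core and finitely many deep regions**; the constant depends on `C` only -/
theorem tame_of_deep {F : Fr I M ι} {J : Type} [Fintype J] {U : J → Set M} {K : Set M}
    {C : ℕ → ℝ} (hK : IsCompact K) (hc : ∀ x, x ∉ K → ∃ i, x ∈ U i) (h0 : TOn F K C)
    (h : ∀ i, Deep F (U i) C) : F.Tame (cD ι (Fintype.card J) C) := by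
  classical
  choose χ χ' h1 h2 h3 h4 h5 using fun i => (h i).cut
  set n := Fintype.card J
  have hp := fun k => CB_prod (F := F.toPre) (k := k) (fun i => (CBs_one_sub (h2 i)).1)
    (fun i => (CBs_one_sub (h2 i)).2 k) Finset.univ
  let c : Option J → M → ℝ := fun j => j.elim (fun x => ∏ i, (1 - χ' i x)) χ
  have c1 : ∀ j, F.CBs (c j) (cA n C) := by
    rintro (_ | i)
    · exact ⟨(hp 0).1, fun k => CB_mono (hp k).2
        (pow_le_cA n C k (abs_of_nonneg (by positivity)).le)⟩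
    · exact CBs_mono (h1 i) (le_cA n C)
  have c2 : ∀ j, TOn F (tsupport (c j)) C := by
    rintro (_ | i)
    · refine h0.mono (closure_minimal (fun x hx => by_contra fun hx' => hx ?_) hK.isClosed)
        fun _ => le_rfl
      obtain ⟨i, hi⟩ := hc x hx'
      exact Finset.prod_eq_zero (Finset.mem_univ i) (by rw [h4 i x hi, sub_self])
    · exact h3 i
  have c3 : ∀ x ∈ (univ : Set M), ∃ j, c j x = 1 := fun x _ => by
    by_cases hx : ∃ i, χ' i x ≠ 0
    · obtain ⟨i, hi⟩ := hx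
      exact ⟨some i, h5 i x hi⟩
    · push Not at hx
      exact ⟨none, Finset.prod_eq_one fun i _ => by rw [hx i, sub_zero]⟩
  have c4 : ∀ {f : M → ℝ}, Sm I f → (∀ j, BOn F.toPre (tsupport (c j)) f C) →
      F.CBs f (cD ι n C) := fun hf hb => CBs_of_BOn hf fun x =>
    let ⟨j, hj⟩ := c3 x trivial
    ⟨_, subset_tsupport _ (by simp [hj]), (hb j).mono Subset.rfl fun k =>
      (le_cA n C k).trans (cA_le n C k)⟩
  have k1 := l4_of_cover F.toPre (N := n + 1) (fun j => (c1 j).1) (fun j => (c1 j).2 1) c3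
    (fun _ _ => toFinite _) (fun _ t _ => by simpa using Finset.card_le_univ t) fun j => (c2 j).l4
  have k2 := sup_of_cover F.toPre (fun j => (c1 j).1) (fun j => (c1 j).2 3) c3 fun j => (c2 j).sup
  have k3 : 0 ≤ cA n C 0 := by rw [cA]; positivity
  refine ⟨fun a b => c4 (F.P_sm a b) fun j => (c2 j).P a b,
    fun a b l => c4 (F.c_sm a b l) fun j => (c2 j).c a b l,
    fun a => c4 (F.dv_sm a) fun j => (c2 j).dv a, fun f hf hs => ?_, fun f hf hs x => ?_,
    fun K' hK' => ?_⟩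
  · refine (k1 f hf hs (subset_univ _)).trans (mul_le_mul_of_nonneg_right ?_ (F.ip_nonneg 1 f))
    rw [cD, mul_add]
    have : 0 ≤ |C 0| * (cK ι 3 * cA n C 3) ^ 2 := by positivity
    linarith
  · refine (k2 f hf hs (subset_univ _) x).trans (mul_le_mul ?_ (ip_mono _ (by norm_num) f)
      (F.ip_nonneg 3 f) (k3.trans (cA_le n C 0)))
    rw [cD, mul_add]
    have : 0 ≤ |C 0| * ((cK ι 1 * cA n C 1) ^ 2 * (n + 1 : ℕ)) := by positivity
    linarith
  · choose η e1 e2 e3 L e4 e5 using fun i => (h i).exh K' hK'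
    have hq := fun k => CB_prod (F := F.toPre) (k := k) (fun i => (e1 i).1)
      (fun i => (e1 i).2 k) Finset.univ
    refine ⟨fun x => ∏ i, η i x, ⟨(hq 0).1, fun k => CB_mono (hq k).2
      ((pow_le_cA n C k (by linarith)).trans (cA_le n C k))⟩,
      HasCompactSupport.intro (hK.union (isCompact_iUnion e4)) fun x hx => ?_, fun x =>
      ⟨Finset.prod_nonneg fun i _ => (e2 i x).1,
        Finset.prod_le_one (fun i _ => (e2 i x).1) fun i _ => (e2 i x).2⟩,
      fun x hx => Finset.prod_eq_one fun i _ => e3 i x hx⟩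
    obtain ⟨i, hi⟩ := hc x fun h => hx (.inl h)
    exact Finset.prod_eq_zero (Finset.mem_univ i)
      (by_contra fun h => hx (.inr (mem_iUnion.2 ⟨i, e5 i x hi h⟩)))

/-! ### necks -/

/-- the times of depth `≥ d` -/
def Jc (p q : Option ℝ) (d : ℝ) : Set ℝ := {s | (∀ a ∈ p, a + d ≤ s) ∧ ∀ b ∈ q, s ≤ b - d}

theorem isClosed_Jc (p q : Option ℝ) (d : ℝ) : IsClosed (Jc p q d) := by
  simp only [Jc, ofPred_and, ofPred_forall]
  exact (isClosed_iInter fun _ => isClosed_iInter fun _ => isClosed_Ici).inter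
    (isClosed_iInter fun _ => isClosed_iInter fun _ => isClosed_Iic)

theorem Jc_subset {p q : Option ℝ} {d : ℝ} (hd : 0 < d) : Jc p q d ⊆ Jv p q := fun _ h =>
  ⟨fun a ha => by linarith [h.1 a ha], fun b hb => by linarith [h.2 b hb]⟩

theorem Jc_mono {p q : Option ℝ} {d d' : ℝ} (hd : d ≤ d') : Jc p q d' ⊆ Jc p q d := fun _ h =>
  ⟨fun a ha => by linarith [h.1 a ha], fun b hb => by linarith [h.2 b hb]⟩

/-- `0` at depth `≤ ε`, `1` at depth `≥ 2 ε` -/
def cu (p q : Option ℝ) (ε s : ℝ) : ℝ :=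
  (p.elim 1 fun a => Real.smoothTransition (ε⁻¹ * (s + -a) + -1)) *
    q.elim 1 fun b => Real.smoothTransition (-ε⁻¹ * (s + -b) + -1)

theorem cu_mem (p q : Option ℝ) (ε s : ℝ) : 0 ≤ cu p q ε s ∧ cu p q ε s ≤ 1 := by
  have h0 := Real.smoothTransition.nonneg
  have h1 := Real.smoothTransition.le_one
  cases p <;> cases q <;> simp [cu, h0, h1, mul_nonneg, mul_le_one₀]

theorem cu_one {p q : Option ℝ} {ε s : ℝ} (hε : 0 < ε) (h : s ∈ Jc p q (2 * ε)) :
    cu p q ε s = 1 := by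
  have key : ∀ x, 2 * ε ≤ x → Real.smoothTransition (ε⁻¹ * x + -1) = 1 := fun x hx =>
    Real.smoothTransition.one_of_one_le (by
      have := mul_le_mul_of_nonneg_left hx (inv_pos.2 hε).le
      rw [mul_left_comm, inv_mul_cancel₀ hε.ne'] at this
      linarith)
  have h1 : (p.elim 1 fun a => Real.smoothTransition (ε⁻¹ * (s + -a) + -1)) = 1 := by
    cases p with
    | none => rfl
    | some a => exact key _ (by linarith [h.1 a rfl])
  have h2 : (q.elim 1 fun b => Real.smoothTransition (-ε⁻¹ * (s + -b) + -1)) = 1 := by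
    cases q with
    | none => rfl
    | some b =>
      rw [Option.elim, neg_mul, ← mul_neg]
      exact key _ (by linarith [h.2 b rfl])
  rw [cu, h1, h2, one_mul]

theorem cu_zero {p q : Option ℝ} {ε s : ℝ} (hε : 0 < ε) (h : s ∉ Jc p q ε) : cu p q ε s = 0 := by
  have key : ∀ x, x < ε → Real.smoothTransition (ε⁻¹ * x + -1) = 0 := fun x hx =>
    Real.smoothTransition.zero_of_nonpos (by
      have := mul_le_mul_of_nonneg_left hx.le (inv_pos.2 hε).le
      rw [inv_mul_cancel₀ hε.ne'] at this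
      linarith)
  rcases not_and_or.1 h with h | h <;> push Not at h <;> obtain ⟨a, ha, h⟩ := h <;>
    obtain rfl : _ = some a := ha
  · rw [cu, Option.elim, key _ (by linarith), zero_mul]
  · rw [cu, show (some a).elim 1 (fun b => Real.smoothTransition (-ε⁻¹ * (s + -b) + -1)) = 0 from
      by rw [Option.elim, neg_mul, ← mul_neg]; exact key _ (by linarith), mul_zero]

theorem hcs_deriv_aff {c : ℝ} (hc : c ≠ 0) (d : ℝ) :
    HasCompactSupport (deriv fun x => Real.smoothTransition (c * x + d)) := by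
  have h1 : (deriv fun x => Real.smoothTransition (c * x + d)) =
      fun x => c * deriv Real.smoothTransition (c * x + d) := funext fun x => by
    rw [deriv_comp_mul_left c (fun y => Real.smoothTransition (y + d)), deriv_comp_add_const,
      smul_eq_mul]
  rw [h1]
  exact (hcs_deriv_st.comp_homeomorph
    ((Homeomorph.mulLeft₀ c hc).trans (Homeomorph.addRight d))).mul_left

section neck
variable {E3 : Type} [NormedAddCommGroup E3] [NormedSpace ℝ E3] [FiniteDimensional ℝ E3]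
  [MeasurableSpace E3] [BorelSpace E3]
  {H3 : Type} [TopologicalSpace H3] {I3 : ModelWithCorners ℝ E3 H3} [I3.Boundaryless]
  {Y : Type} [TopologicalSpace Y] [ChartedSpace H3 Y] [IsManifold I3 ∞ Y] [T2Space Y]
  [MeasurableSpace Y] [BorelSpace Y] [SecondCountableTopology Y] [CompactSpace Y]
  {κ : Type} [Fintype κ]

theorem CBs_cu (FY : Pre I3 Y κ) {ε : ℝ} (hε : 0 < ε) :
    ∃ C, ∀ p q, (cylP FY).CBs (fun x => cu p q ε x.2) C := by
  have key : ∀ c : ℝ, c ≠ 0 → ∃ C, ∀ p : Option ℝ, (cylP FY).CBs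
      (fun x => p.elim 1 fun a => Real.smoothTransition (c * (x.2 + -a) + -1)) C := fun c hc => by
    obtain ⟨C, hC⟩ := CBs_shift FY (h := fun x => Real.smoothTransition (c * x + -1))
      (Real.smoothTransition.contDiff.comp ((contDiff_const.mul contDiff_id).add contDiff_const))
      (hcs_deriv_aff hc _) (B := 1) fun t => by
        rw [Real.norm_eq_abs, abs_of_nonneg (Real.smoothTransition.nonneg _)]
        exact Real.smoothTransition.le_one _
    refine ⟨fun k => max 1 (C k), ?_⟩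
    rintro (_ | a)
    · exact ⟨contMDiff_const, fun k => CB_mono (CB_const k (1 : ℝ)) (by simp)⟩
    · exact CBs_mono (hC (-a)) fun _ => le_max_right _ _
  obtain ⟨C1, h1⟩ := key ε⁻¹ (inv_pos.2 hε).ne'
  obtain ⟨C2, h2⟩ := key (-ε⁻¹) (neg_ne_zero.2 (inv_pos.2 hε).ne')
  exact ⟨_, fun p q => ⟨(h1 p).1.mul (h2 q).1, fun k =>
    CB_mul (h1 p).1 (h2 q).1 ((h1 p).2 k) ((h2 q).2 k)⟩⟩

theorem tOn_cyl (FY : Fr I3 Y κ) (hn : finrank ℝ E3 ≤ 3) : ∃ C, TOn (cyl FY) univ C := by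
  obtain ⟨C, hC⟩ := tame_cyl FY hn
  obtain ⟨S, h1, h2⟩ := sob_cyl FY.toPre hn
  obtain ⟨C', h⟩ := tOn_of (F := fun _ : Unit => cyl FY) (K := univ)
    (fun _ a b => BOn.of_CBs (hC.P a b) _) (fun _ a b l => BOn.of_CBs (hC.c a b l) _)
    (fun _ a => BOn.of_CBs (hC.dv a) _) (fun _ => h1) fun _ => h2
  exact ⟨C', h ()⟩

/-- the metric part of `Nd18.Nk` -/
structure Nck (FY : Pre I3 Y κ) (F : Pre I M (Option κ)) (p q : Option ℝ)
    (ψ : OpenPartialHomeomorph (Y × ℝ) M) (tm : M → ℝ) : Prop where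
  src : ψ.source = univ ×ˢ Jv p q
  tgt : ψ.target = tm ⁻¹' Jv p q
  cont : Continuous tm
  tm_ψ : ∀ x ∈ ψ.source, tm (ψ x) = x.2
  iso : Iso (cylP FY) F ψ

theorem nck {lam : Type} [Fintype lam] {D : Nd18.YD I3 Y κ lam} {B : Base M (Option κ) lam}
    {G : Geo I M (Option κ) lam} (K : Nd18.Nk D B G) : Nck D.F.toPre G.F.toPre K.p K.q K.ψ K.tm :=
  ⟨K.src, K.tgt, K.cont, K.tm_ψ, K.iso⟩

namespace Nck
variable {FY : Pre I3 Y κ} {F : Pre I M (Option κ)} {p q : Option ℝ}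
  {ψ : OpenPartialHomeomorph (Y × ℝ) M} {tm : M → ℝ} (h : Nck FY F p q ψ tm)
include h

theorem snd_symm {x : M} (hx : x ∈ ψ.target) : (ψ.symm x).2 = tm x := by
  rw [← h.tm_ψ _ (ψ.map_target hx), ψ.right_inv hx]

theorem adm {S : Set ℝ} (hS : IsClosed S) (hJ : S ⊆ Jv p q) : Adm ψ.symm (univ ×ˢ S) := by
  refine ⟨by rw [ψ.symm_target, h.src]; exact prod_mono subset_rfl hJ, ?_⟩
  convert hS.preimage h.cont using 1
  ext x
  refine ⟨fun hx => ?_, fun hx => ?_⟩
  · have := hx.2.2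
    rwa [h.snd_symm hx.1] at this
  · have h1 : x ∈ ψ.target := h.tgt ▸ hJ hx
    exact ⟨h1, trivial, by rwa [h.snd_symm h1]⟩

/-- transport of functions supported in a closed set of times -/
theorem CBs_pull {S : Set ℝ} (hS : IsClosed S) (hJ : S ⊆ Jv p q) {g : Y × ℝ → N}
    (hg : ∀ x : Y × ℝ, x.2 ∉ S → g x = 0) {C : ℕ → ℝ} (hC : (cylP FY).CBs g C) :
    F.CBs (pull ψ.symm g) fun k => |C k| :=
  have ha : Adm ψ.symm (tsupport g) := (h.adm hS hJ).mono (isClosed_tsupport _) (closure_minimal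
    (fun x hx => ⟨trivial, by_contra fun h0 => hx (hg x h0)⟩) (isClosed_univ.prod hS))
  ⟨sm_pull (iso_symm h.iso) hC.1 ha, fun k => CB_pull (iso_symm h.iso) k hC.1 ha (hC.2 k)⟩

theorem CBs_tm {S : Set ℝ} (hS : IsClosed S) (hJ : S ⊆ Jv p q) {g : ℝ → N}
    (hg : ∀ s ∉ S, g s = 0) {C : ℕ → ℝ} (hC : (cylP FY).CBs (fun x => g x.2) C) :
    F.CBs (fun x => g (tm x)) fun k => |C k| := by
  convert h.CBs_pull hS hJ (fun x hx => hg _ hx) hC using 2 with x
  by_cases hx : x ∈ ψ.target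
  · rw [pull_of_mem (φ := ψ.symm) hx, h.snd_symm hx]
  · rw [pull_of_notMem (φ := ψ.symm) hx, hg _ fun h0 => hx (h.tgt ▸ hJ h0)]

/-- bounds of functions which are literal on the neck -/
theorem bOn {f : M → N} {g : Y × ℝ → N} (he : ∀ x ∈ ψ.source, f (ψ x) = g x) {C : ℕ → ℝ}
    (hC : (cylP FY).CBs g C) : BOn F ψ.target f C :=
  (BOn.of_CBs hC univ).iso (iso_symm h.iso) subset_rfl (mapsTo_univ _ _) hC.1 fun x hx => by
    rw [← he _ (ψ.map_target hx), ψ.right_inv hx]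

theorem isCompact {S : Set ℝ} (hS : IsCompact S) (hJ : S ⊆ Jv p q) : IsCompact (tm ⁻¹' S) := by
  have h1 : (univ : Set Y) ×ˢ S ⊆ ψ.source := h.src ▸ prod_mono subset_rfl hJ
  refine ((isCompact_univ.prod hS).image_of_continuousOn
    (ψ.continuousOn.mono h1)).of_isClosed_subset (hS.isClosed.preimage h.cont) fun x hx => ?_
  have h2 : x ∈ ψ.target := h.tgt ▸ hJ hx
  exact ⟨ψ.symm x, ⟨trivial, by rwa [h.snd_symm h2]⟩, ψ.right_inv h2⟩

end Nck

end neck

end Crest.Agent.X212.Cht98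

namespace Crest.Agent.X212.Cht98
open Crest.Agent.X212.Sob92 Crest.Agent.X212.An Crest.Agent.X212.Cyf70

variable {E3 : Type} [NormedAddCommGroup E3] [NormedSpace ℝ E3] [FiniteDimensional ℝ E3]
  [MeasurableSpace E3] [BorelSpace E3]
  {H3 : Type} [TopologicalSpace H3] {I3 : ModelWithCorners ℝ E3 H3} [I3.Boundaryless]
  {Y : Type} [TopologicalSpace Y] [ChartedSpace H3 Y] [IsManifold I3 ∞ Y] [T2Space Y]
  [MeasurableSpace Y] [BorelSpace Y] [SecondCountableTopology Y] [CompactSpace Y]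
  {κ : Type} [Fintype κ]

/-- **the part of depth `≥ δ` of a neck is deep; the constant depends on `FY` and `δ` only** -/
theorem deep_nck (FY : Fr I3 Y κ) (hn : finrank ℝ E3 ≤ 3) {δ : ℝ} (hδ : 0 < δ) : ∃ C : ℕ → ℝ,
    ∀ {E : Type} [NormedAddCommGroup E] [NormedSpace ℝ E] [FiniteDimensional ℝ E]
      [MeasurableSpace E] [BorelSpace E]
      {HM : Type} [TopologicalSpace HM] {I : ModelWithCorners ℝ E HM} [I.Boundaryless]
      {M : Type} [TopologicalSpace M] [ChartedSpace HM M] [IsManifold I ∞ M]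
      [MeasurableSpace M] [BorelSpace M] [T2Space M] [SecondCountableTopology M]
      {F : Fr I M (Option κ)} {p q : Option ℝ} {ψ : OpenPartialHomeomorph (Y × ℝ) M} {tm : M → ℝ},
      Nck FY.toPre F.toPre p q ψ tm → Deep F (tm ⁻¹' Jc p q δ) C := by
  have h4 : 0 < δ / 4 := by linarith
  have h2 : 0 < δ / 2 := by linarith
  obtain ⟨C1, k1⟩ := CBs_cu FY.toPre h4
  obtain ⟨C2, k2⟩ := CBs_cu FY.toPre h2
  obtain ⟨C3, k3⟩ := tOn_cyl FY hn
  obtain ⟨C4, k4⟩ := CBs_cut FY.toPre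
  refine ⟨fun k => max (max |C1 k| |C2 k|)
    (max |C3 k| (1 + abs (abs (2 ^ (k + 1) * |C1 k| * abs (1 + |C4 k|))))), ?_⟩
  intro E _ _ _ _ _ HM _ I _ M _ _ _ _ _ _ _ F p q ψ tm h
  refine ⟨⟨fun x => cu p q (δ / 4) (tm x), fun x => cu p q (δ / 2) (tm x),
    CBs_mono (h.CBs_tm (isClosed_Jc p q _) (Jc_subset h4) (fun _ => cu_zero h4) (k1 p q))
      fun _ => by simp,
    CBs_mono (h.CBs_tm (isClosed_Jc p q _) (Jc_subset h2) (fun _ => cu_zero h2) (k2 p q))
      fun _ => by simp, ?_, fun x hx => cu_one h2 (Jc_mono (by linarith) hx),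
    fun x hx => cu_one h4 (Jc_mono (by linarith) (by_contra fun h0 => hx (cu_zero h2 h0)))⟩,
    fun K hK => ?_⟩
  · refine (TOn.iso (iso_symm h.iso) ?_ (mapsTo_univ _ _) k3).mono subset_rfl fun _ => by simp
    rw [ψ.symm_source, h.tgt]
    refine (closure_minimal ?_ ((isClosed_Jc p q _).preimage h.cont)).trans
      (preimage_mono (Jc_subset h4))
    exact fun x hx => by_contra fun h0 => hx (cu_zero h4 h0)
  · obtain ⟨R, hR⟩ := (hK.image h.cont).isBounded.exists_norm_le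
    have k5 := CBs_one_sub (k4 (-R) R)
    refine ⟨fun x => 1 - cu p q (δ / 4) (tm x) * (1 - cut (-R) R (tm x)),
      CBs_mono (CBs_one_sub (h.CBs_tm (isClosed_Jc p q _) (Jc_subset h4)
        (g := fun s => cu p q (δ / 4) s * (1 - cut (-R) R s))
        (fun s hs => by rw [cu_zero h4 hs, zero_mul]) ⟨(k1 p q).1.mul k5.1, fun k =>
          CB_mul (k1 p q).1 k5.1 ((k1 p q).2 k) (k5.2 k)⟩)) fun _ => by simp, fun x => ?_,
      fun x hx => ?_, tm ⁻¹' (Jc p q δ ∩ Icc (-R - 1) (R + 1)),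
      h.isCompact (isCompact_Icc.inter_left (isClosed_Jc p q δ))
        (inter_subset_left.trans (Jc_subset hδ)), fun x hx h0 => ⟨hx, by_contra fun h1 => h0 ?_⟩⟩
    · obtain ⟨a1, a2⟩ := cu_mem p q (δ / 4) (tm x)
      obtain ⟨a3, a4⟩ := cut_mem (-R) R (tm x)
      constructor <;> nlinarith
    · obtain ⟨a1, a2⟩ := abs_le.1 (hR _ ⟨x, hx, rfl⟩)
      simp only [cut_one a1 a2, sub_self, mul_zero, sub_zero]
    · simp only [cu_one h4 (Jc_mono (d' := δ) (by linarith) hx), cut_zero h1]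
      norm_num

end Crest.Agent.X212.Cht98
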