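import Crest.Agent.X212.Cht98.Nk
import Crest.Agent.X212.Cht98.Dp

/-! Row 212, layer M (helper98): the layers of a world are tame, locally uniformly in the
parameter, also across the breaking of literal cylindrical walls. -/

set_option autoImplicit false
set_option linter.unusedSectionVars false
noncomputable section
open Set Function Filter Topology Module
open scoped ContDiff Manifold

namespace Crest.Agent.X212.Cht98
open An M Cyl58 Cyf70 Prm93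
open Nd18 (Jv)
open Met55 (atx)
open Dr59 (mf)

theorem sub_le_len {t r s : ℝ} {b : Bool} (ht : 0 ≤ t) (hr : r ∈ dom t b) (hs : s ∈ dom t b)
    (h : r ≤ s) : s - r ≤ len t b s - len t b r := by
  have := intervalIntegral.integral_mono_on h
    (intervalIntegrable_const (c := (1 : ℝ)) (μ := MeasureTheory.volume))
    (integrable_inv_sig hr hs) fun x hx => (one_le_inv₀ (sig_pos (dom_off
      ((ordConnected_dom t b).out hr hs hx)))).2 (sig_le_one ht x)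
  rwa [intervalIntegral.integral_const, smul_eq_mul, mul_one, ← len_sub hr hs] at this

theorem mem_np {t x : ℝ} {b : Bool} (h : x ∈ np t b) : -1 ∈ dom t b ∧ x = len t b (-1) := by
  cases b
  · exact ⟨pm_mem t false, (Option.some.inj h).symm.trans (len_pm t false).symm⟩
  · by_cases ht : t < 1
    · exact ⟨.inl ht, (Option.some.inj ((np_true ht).symm.trans h)).symm.trans
        (len_true_neg ht).symm⟩
    · simp [np, ht] at h

theorem mem_nq {t x : ℝ} {b : Bool} (h : x ∈ nq t b) : 1 ∈ dom t b ∧ x = len t b 1 := by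
  cases b
  · by_cases ht : t < 1
    · exact ⟨.inl ht, (Option.some.inj ((nq_false ht).symm.trans h)).symm⟩
    · simp [nq, ht] at h
  · exact ⟨pm_mem t true, (Option.some.inj h).symm.trans (len_pm t true).symm⟩

/-- small heights are deep -/
theorem len_mem_Jc {t s d : ℝ} {b : Bool} (ht : 0 ≤ t) (hs : s ∈ dom t b) (hd : 0 ≤ d)
    (h : |s| ≤ 1 - d) : len t b s ∈ Jc (np t b) (nq t b) d := by
  obtain ⟨h1, h2⟩ := abs_le.1 h
  refine ⟨fun x hx => ?_, fun x hx => ?_⟩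
  · obtain ⟨k, rfl⟩ := mem_np hx
    linarith [sub_le_len ht k hs (by linarith)]
  · obtain ⟨k, rfl⟩ := mem_nq hx
    linarith [sub_le_len ht hs k (by linarith)]

theorem exists_dom {t s : ℝ} (h : (t, s) ∈ Off) : ∃ b, s ∈ dom t b :=
  h.elim (fun h => ⟨true, .inl h⟩) fun h =>
    (show s ≠ 0 from h).lt_or_gt.elim (fun k => ⟨false, .inr k⟩) fun k => ⟨true, .inr k⟩

variable {X : Mf 4} {A κ : Type} [Fintype A] [Fintype κ] {M : Mark X A κ} {m c : M.Cl}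
  {p p₀ : Prm A} {a : A} {N : Type} [NormedAddCommGroup N] [NormedSpace ℝ N]

/-- the metric part of `NkOK.nk` -/
theorem NkOK.nck (h : NkOK M m c p a) {Y : Mf 3} [CompactSpace Y.M]
    (g : Y.M ≃ₘ^∞⟮Y.I, (M.bn a).Y.I⟯ (M.bn a).Y.M) (W : World M) {F : Fr Y.I Y.M κ} (hF : F.IsVol)
    (he : ∀ k y, mf Y.I (M.bn a).Y.I g y (atx F.e y k) = atx (M.gY a).e (g y) k) (b : Bool) :
    Nck F.toPre (W.F m c p).toPre (np (Mark.tv c.1 p.2 a) b) (nq (Mark.tv c.1 p.2 a) b)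
      (h.ψ g W.toCaps b) fun z => tmf (Mark.tv c.1 p.2 a) b (hZ W.toCaps c a z) where
  src := rfl
  tgt := Set.ext fun _ => tmf_mem.symm
  cont := continuous_iff_continuousAt.2 fun z => (continuousAt_tmf b (h.off _ z)).comp
    (sm_hZ _ h.mem).continuous.continuousAt
  tm_ψ q hq := by
    have h1 := li_mem h.tv_mem.2 hq.2
    exact (congrArg _ (h.hZ_ψ g hq.2 W.toCaps)).trans
      ((tmf_eq h1.2 (abs_lt.2 h1.1).le).trans (len_li h.tv_mem.2 hq.2))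
  iso := h.iso g W hF he b

theorem NkOK.nck₀ (h : NkOK M m c p a) (W : World M) (b : Bool) :
    Nck (M.gY a).toPre (W.F m c p).toPre (np (Mark.tv c.1 p.2 a) b) (nq (Mark.tv c.1 p.2 a) b)
      (h.ψ (Diffeomorph.refl _ _ ∞) W.toCaps b)
      fun z => tmf (Mark.tv c.1 p.2 a) b (hZ W.toCaps c a z) :=
  h.nck _ W (M.gvol a) (fun _ y => DFunLike.congr_fun (Dr59.mf_id (I := (M.bn a).Y.I) y) _) b

variable (M) in
/-- the cylindrical walls that are broken in `c` or break at `p₀` -/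
def Nw (c : M.Cl) (p₀ : Prm A) : Set A :=
  {a | a ∈ c.1 ∧ ¬M.pin a ∨ a ∈ M.sys.fr c.1 ∧ 1 ≤ p₀.2 a}

variable (M) in
/-- only literal cylindrical walls break at `p₀` -/
def CylAt (m c : M.Cl) (p₀ : Prm A) : Prop :=
  ∀ a ∈ M.sys.fr c.1, 1 ≤ p₀.2 a → ¬M.pin a ∧ a ∈ m.1

variable (M) in
/-- unbroken parameters at which the walls breaking at `p₀` are model necks -/
def Gd (c : M.Cl) (p₀ p : Prm A) : Prop :=
  p ∈ M.O c.1 ∧ ∀ a ∈ M.sys.fr c.1, 1 ≤ p₀.2 a → M.Lt c.1 p.2 a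

theorem Nw.mem (h : a ∈ Nw M c p₀) : a ∈ c.1 ∧ ¬M.pin a ∨ a ∈ M.sys.fr c.1 := h.imp_right And.left

theorem cylAt_of_O (h : p₀ ∈ M.O c.1) : CylAt M m c p₀ := fun a ha k => ((h a ha).not_ge k).elim

theorem gd_of_O (h : p₀ ∈ M.O c.1) (h' : p ∈ M.O c.1) : Gd M c p₀ p :=
  ⟨h', fun a ha k => ((h a ha).not_ge k).elim⟩

theorem ev_gd (c : M.Cl) (p₀ : Prm A) :
    ∀ᶠ p in 𝓝 p₀, p ∈ M.O c.1 → p.2 ∈ M.sys.Par → Gd M c p₀ p := by
  have : ∀ᶠ p : Prm A in 𝓝 p₀, ∀ a, 1 ≤ p₀.2 a → 1 / 2 ≤ p.2 a := eventually_all.2 fun a => by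
    by_cases h : 1 ≤ p₀.2 a
    · exact ((((continuous_apply a).comp continuous_snd).tendsto p₀).eventually
        (Ici_mem_nhds (show 1 / 2 < p₀.2 a by linarith))).mono fun _ k _ => k
    · exact .of_forall fun _ k => (h k).elim
  exact this.mono fun p hp h1 h2 => ⟨h1, fun a ha k => Mark.lt_of_br h2 ha (hp a k)⟩

theorem Gd.ok (h : Gd M c p₀ p) (h0 : CylAt M m c p₀) (ha : a ∈ Nw M c p₀) : NkOK M m c p a :=
  ha.elim (fun k => .of_mem k.2 k.1 h.1) fun k =>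
    ⟨(h0 a k.1 k.2).1, h.2 a k.1 k.2, h.1, .inr (h0 a k.1 k.2).2⟩

/-- the thick part -/
def thk (C : Caps M) (c : M.Cl) (p₀ : Prm A) (ε : ℝ) : Set (C.Z c).M :=
  {z | ∀ a ∈ Nw M c p₀, ε ≤ |hZ C c a z|}

theorem isCompact_thk (C : Caps M) (c : M.Cl) (p₀ : Prm A) {ε : ℝ} (h0 : 0 < ε) (h1 : ε ≤ 3) :
    IsCompact (thk C c p₀ ε) := by
  refine (isCompact_thick C (c := c) h0).of_isClosed_subset ?_ ?_
  · simp only [thk, ofPred_forall]
    exact isClosed_iInter fun a => isClosed_iInter fun ha =>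
      isClosed_le continuous_const (sm_hZ C (Nw.mem ha)).continuous.abs
  · rintro _ hz ⟨x, hx, rfl⟩
    obtain ⟨a, ha, q, hq, rfl⟩ := mem_iUnion₂.1 hx
    have := hz a (.inl ha)
    rw [show hZ C c a (C.φ c ((M.bn a).j q)) = q.2 from hZ_nj C (.inl ha)
      (Mark.j_not_mem c (.inl ⟨ha.1, hq.2.1⟩)) (hq.2.2.le.trans h1)] at this
    exact this.not_gt hq.2.2

theorem thk_Ω (C : Caps M) {ε : ℝ} (h0 : 0 < ε) {z : (C.Z c).M} (hz : z ∈ thk C c p₀ ε) :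
    (p₀, z) ∈ M.Ω c.1 (C.φ c) := fun a ha => (lt_or_ge _ _).imp_right fun k ⟨x, hx, e⟩ => by
  have := hz a (.inr ⟨ha, k⟩)
  rw [← show C.φ c x = z from e, hZ_φ C (.inr ha) (Mark.fr_not_mem ha ((M.sys.w a).core_subset hx)),
    (M.bn a).s_eq_zero.2 hx, abs_zero] at this
  exact this.not_gt h0

theorem exists_Q (C : Caps M) (c : M.Cl) (p₀ : Prm A) {ε : ℝ} (h0 : 0 < ε) (h1 : ε ≤ 3) :
    ∃ Q ∈ 𝓝 p₀, IsCompact Q ∧ Q ×ˢ thk C c p₀ ε ⊆ M.Ω c.1 (C.φ c) := by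
  obtain ⟨U, V, hU, -, k1, k2, k3⟩ := generalized_tube_lemma isCompact_singleton
    (isCompact_thk C c p₀ h0 h1) C.isOpen_Ω (by
      rintro ⟨_, z⟩ ⟨rfl, hz⟩; exact thk_Ω C h0 hz)
  obtain ⟨Q, k4, k5, k6⟩ := local_compact_nhds (hU.mem_nhds (k1 rfl))
  exact ⟨Q, k4, k6, (prod_mono k5 k2).trans k3⟩

/-- off the thick part one is deep in a neck -/
theorem Gd.deep (h : Gd M c p₀ p) (h0 : CylAt M m c p₀) (C : Caps M) {ε : ℝ} (h1 : ε ≤ 1)
    {z : (C.Z c).M} (hz : z ∉ thk C c p₀ ε) : ∃ a ∈ Nw M c p₀, ∃ b,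
      tmf (Mark.tv c.1 p.2 a) b (hZ C c a z) ∈
        Jc (np (Mark.tv c.1 p.2 a) b) (nq (Mark.tv c.1 p.2 a) b) (1 - ε) := by
  simp only [thk, mem_ofPred_eq, not_forall, not_le] at hz
  obtain ⟨a, ha, hz⟩ := hz
  have k := h.ok h0 ha
  obtain ⟨b, hb⟩ := exists_dom (k.off C z)
  refine ⟨a, ha, b, ?_⟩
  rw [tmf_eq hb (hz.le.trans h1)]
  exact len_mem_Jc (le_trans (by norm_num) k.tv_mem.1) hb (by linarith) (by linarith)

variable (W : World M)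

/-- **locally uniform tameness** -/
theorem tame_loc (h0 : CylAt M m c p₀) :
    ∃ C, ∀ᶠ p in 𝓝 p₀, Gd M c p₀ p → (W.F m c p).Tame C := by
  classical
  obtain ⟨Q, h1, h2, h3⟩ := exists_Q W.toCaps c p₀ one_half_pos (by norm_num)
  have hK := isCompact_thk W.toCaps c p₀ one_half_pos (by norm_num)
  obtain ⟨C0, k0⟩ := tOn_fam (W.Z c).dim.le (W.L m c).F0.toPre (W.L m c).vol W.isOpen_Ω
    (W.L m c).sm (W.L m c).sp h2 hK h3
  choose C1 k1 using fun a => deep_nck (M.gY a) (M.bn a).Y.dim.le (δ := 1 - 1 / 2) (by norm_num)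
  have k2 : ∀ a k, C1 a k ≤ |C0 k| + ∑ a, |C1 a k| := fun a k => (le_abs_self _).trans
    ((Finset.single_le_sum (f := fun a => |C1 a k|) (fun _ _ => abs_nonneg _)
      (Finset.mem_univ a)).trans (le_add_of_nonneg_left (abs_nonneg _)))
  refine ⟨cD (Option κ) (Fintype.card (Nw M c p₀ × Bool)) fun k => |C0 k| + ∑ a, |C1 a k|,
    eventually_of_mem h1 fun p hp h => tame_of_deep hK (fun z hz => ?_)
      ((k0 p hp _ ((W.L m c).F_vol p) ((W.L m c).F_e (Mark.mem_Ω _ h.1))).mono subset_rfl fun k =>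
        (le_abs_self _).trans (le_add_of_nonneg_right (by positivity)))
      fun i => (k1 i.1.1 ((h.ok h0 i.1.2).nck₀ W i.2)).mono subset_rfl (k2 _)⟩
  obtain ⟨a, ha, b, hb⟩ := h.deep h0 W.toCaps (by norm_num) hz
  exact ⟨(⟨a, ha⟩, b), hb⟩

/-- **every layer is tame** -/
theorem tame_W (m : M.Cl) (h : p ∈ M.O c.1) : ∃ C, (W.F m c p).Tame C :=
  let ⟨C, hC⟩ := tame_loc W (cylAt_of_O (m := m) h); ⟨C, hC.self_of_nhds (gd_of_O h h)⟩

/-- from locally uniform to uniform constants -/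
theorem unif_of_loc {T : Type} [TopologicalSpace T] {U : Set T} (hU : IsCompact U)
    {P : T → (ℕ → ℝ) → Prop} (hm : ∀ t C C', P t C → (∀ k, C k ≤ C' k) → P t C')
    (h : ∀ t ∈ U, ∃ C, ∀ᶠ s in 𝓝 t, P s C) : ∃ C, ∀ t ∈ U, P t C :=
  hU.induction_on ⟨0, fun _ k => k.elim⟩ (fun _ _ k ⟨C, hC⟩ => ⟨C, fun t ht => hC t (k ht)⟩)
    (fun _ _ ⟨C, hC⟩ ⟨C', hC'⟩ => ⟨fun k => max (C k) (C' k), fun t ht => ht.elim
      (fun k => hm _ _ _ (hC t k) fun _ => le_max_left _ _)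
      fun k => hm _ _ _ (hC' t k) fun _ => le_max_right _ _⟩)
    fun t ht => let ⟨C, hC⟩ := h t ht; ⟨_, mem_nhdsWithin_of_mem_nhds hC, C, fun _ k => k⟩

theorem tame_ev (h0 : CylAt M m c p₀) :
    ∃ C, ∀ᶠ p in 𝓝 p₀, p ∈ M.O c.1 → p.2 ∈ M.sys.Par → (W.F m c p).Tame C :=
  let ⟨C, hC⟩ := tame_loc W h0
  ⟨C, (hC.and (ev_gd c p₀)).mono fun _ h h1 h2 => h.1 (h.2 h1 h2)⟩

theorem tame_unif {U : Set (Prm A)} (hU : IsCompact U) (h0 : ∀ p₀ ∈ U, CylAt M m c p₀) :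
    ∃ C, ∀ p ∈ U, p ∈ M.O c.1 → p.2 ∈ M.sys.Par → (W.F m c p).Tame C :=
  unif_of_loc hU (fun _ _ _ h k h1 h2 => Tame_mono (h h1 h2) k) fun p hp => tame_ev W (h0 p hp)

/-- **locally uniform bounds** of jointly smooth functions which are literal on the necks -/
theorem cbs_loc (h0 : CylAt M m c p₀) {J : Type} [Finite J] {f : J → Prm A → (W.Z c).M → N}
    (hf : ∀ j p z, (p, z) ∈ M.Ω c.1 (W.φ c) → JAt (W.Z c).I (f j) p z)
    {g : J → ∀ a, (M.bn a).Y.M → N} (hg : ∀ j, ∀ a ∈ Nw M c p₀, Sm (M.bn a).Y.I (g j a))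
    (he : ∀ j p a, NkOK M m c p a → ∀ b y, ∀ s ∈ Hs (Mark.tv c.1 p.2 a) b,
      f j p (W.nj c a (y, s)) = g j a y) :
    ∃ C, ∀ᶠ p in 𝓝 p₀, Gd M c p₀ p → ∀ j, (W.F m c p).CBs (f j p) C := by
  obtain ⟨Q, h1, h2, h3⟩ := exists_Q W.toCaps c p₀ one_half_pos (by norm_num)
  have hK := isCompact_thk W.toCaps c p₀ one_half_pos (by norm_num)
  obtain ⟨C0, k0⟩ := bOn_fam h2 hK (fun p hp z hz => (W.L m c).sm p z (h3 ⟨hp, hz⟩))
    fun j p hp z hz => hf j p z (h3 ⟨hp, hz⟩)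
  choose C1 k1 using fun i : J × Nw M c p₀ =>
    Cb_fst (M.gY i.2.1).toPre (Sob92.Cb_of_compact (hg i.1 _ i.2.2))
  choose C2 k2 using fun k => (finite_range fun i => C1 i k).bddAbove
  refine ⟨fun k => max (C0 k) (C2 k), eventually_of_mem h1 fun p hp h j => CBs_of_BOn
    (fun z => (hf j p z (Mark.mem_Ω _ h.1 z)).right) fun z => ?_⟩
  by_cases hz : z ∈ thk W.toCaps c p₀ (1 / 2)
  · exact ⟨_, hz, (k0 p hp _ ((W.L m c).F_e (Mark.mem_Ω _ h.1)) j).mono subset_rfl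
      fun _ => le_max_left _ _⟩
  · obtain ⟨a, ha, b, hb⟩ := h.deep h0 W.toCaps (by norm_num) hz
    have k := h.ok h0 ha
    exact ⟨_, (k.nck₀ W b).tgt ▸ Jc_subset (by norm_num) hb, ((k.nck₀ W b).bOn
      (fun q hq => he j p a k b q.1 _ (li_mem k.tv_mem.2 hq.2)) (k1 (j, ⟨a, ha⟩))).mono subset_rfl
        fun n => (k2 n ⟨_, rfl⟩).trans (le_max_right _ _)⟩

variable {W} {lam : Type} [Fintype lam] [DecidableEq lam] {L : ML M lam} (Λ : Lns W L)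

/-- the connection matrices of a layer are jointly smooth -/
theorem jAt_A {Z : Mf 4} {o : Z.M → R208.F.Ext Z.E} {T ι : Type} [NormedAddCommGroup T]
    [NormedSpace ℝ T] [Fintype ι] {Ω : Set (T × Z.M)} {L : Lay Z o T ι Ω} (Λ : LLay L lam) {t : T}
    {x : Z.M} (h : (t, x) ∈ Ω) (i : ι) : JAt Z.I (fun s => (Λ.ln s).A Z.I (L.e s) i) t x := by
  have h0 : Line51.Ln.On Z.I ⟨Λ.p, 0⟩ univ :=
    ⟨(Λ.ok 0).sm, (Λ.ok 0).prj, (Λ.ok 0).tr, Dr59.Sm.zero, Dr59.Dg.zero⟩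
  refine (ContMDiffAt.add (Pj41.FSm.sum' (s := Finset.univ) fun b _ =>
    (L.jAt_S h i b).smul (JAt.of_fixed (h0.sm_A isOpen_univ trivial (L.F0.sm b x))))
    ((Λ.jAt_a (L.sm t x h i)).smul (JAt.of_fixed (u := fun y => Line51.iL lam * (Λ.ln 0).l y)
      (Wz78.SA.mul contMDiffAt_const
        (Line51.fsm_rl ((Λ.ok 0).sm x trivial)))))).congr_of_eventuallyEq (.of_forall fun z => ?_)
  have h1 := Line51.A_shift (I := Z.I) (L := ⟨Λ.p, 0⟩) (x := z.2) (e := L.e z.1) (Λ.a z.1) i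
  rw [Line51.Ln.shift, zero_add] at h1
  exact h1.trans (congrArg (· + _) ((congrArg (fun v => Line51.rl (Line51.Ln.cm Z.I _ z.2 v))
    (L.sum_S z.1 z.2 i).symm).trans (Line51.A_comb _).symm))

/-- the neck of a wall in its own cross-section -/
abbrev NkOK.nk₀ (h : NkOK M m c p a) (b : Bool) :
    Nd18.Nk (L.cy a).yd (Λ.B m c) (Λ.G m c p) := h.nk _ Λ (M.gvol a) (cy_iso_refl _) b

theorem NkOK.a_nj (h : NkOK M m c p a) {b : Bool} {s : ℝ} (hs : s ∈ Hs (Mark.tv c.1 p.2 a) b)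
    (y : (M.bn a).Y.M) (i : Option κ) :
    (Λ.G m c p).a i (W.nj c a (y, s)) = (L.cy a).yd.G.a i (y, 0) := by
  have := (h.nk₀ Λ b).a i (y, len _ b s) ⟨trivial, (bijOn_len h.tv_mem.2 b).1 hs⟩
  refine (congrArg (fun r => (Λ.G m c p).a i (W.nj c a (y, r))) (li_len hs).symm).trans ?_
  cases i <;> exact this

theorem G_a (h : p ∈ M.O c.1) (i : Option κ) :
    (Λ.G m c p).a i = ((Λ.Λ m c).ln p).A (W.Z c).I ((W.L m c).e p) i :=
  congrArg (fun e => ((Λ.Λ m c).ln p).A (W.Z c).I e i) ((W.L m c).F_e (Mark.mem_Ω _ h))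

/-- the bounds of the background of a layer -/
structure Bd (m c : M.Cl) (p : Prm A) (C : ℕ → ℝ) : Prop where
  tame : (W.F m c p).Tame C
  o : ∀ i k l n, (W.F m c p).CBs ((Λ.B m c).o i k l n) C
  l : (W.F m c p).CBs (Λ.B m c).l C
  a : ∀ i, (W.F m c p).CBs ((Λ.G m c p).a i) C

theorem Bd.mono {Λ : Lns W L} {C C' : ℕ → ℝ} (h : Bd Λ m c p C) (e : ∀ k, C k ≤ C' k) :
    Bd Λ m c p C' :=
  ⟨Tame_mono h.tame e, fun i k l n => CBs_mono (h.o i k l n) e, CBs_mono h.l e,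
    fun i => CBs_mono (h.a i) e⟩

theorem bd_loc (h0 : CylAt M m c p₀) : ∃ C, ∀ᶠ p in 𝓝 p₀, Gd M c p₀ p → Bd Λ m c p C := by
  obtain ⟨C0, k0⟩ := tame_loc W h0
  obtain ⟨C1, k1⟩ := cbs_loc W h0 (J := Option κ × Option κ × Option κ × Option κ)
    (f := fun j _ => (Λ.B m c).o j.1 j.2.1 j.2.2.1 j.2.2.2)
    (fun j p z _ => .of_fixed ((Λ.B_ok m c).so _ _ _ _ z))
    (g := fun j a => M.oY a j.1 j.2.1 j.2.2.1 j.2.2.2)
    (fun j a _ => sm_slice_fst ((L.cy_ok a).B.so _ _ _ _) 0)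
    fun j p a h b y s hs => W.ov_lit (q := (y, s)) h.cyl (h.lit_of hs.2 (abs_lt.2 hs.1).le) _ _ _ _
  obtain ⟨C2, k2⟩ := cbs_loc W h0 (J := Unit) (f := fun _ _ => (Λ.B m c).l)
    (fun j p z _ => .of_fixed ((Λ.B_ok m c).sl z)) (g := fun _ a => (L.LY a).l)
    (fun j a _ => sm_slice_fst (L.cy_ok a).B.sl 0)
    fun j p a h b y s hs => congrArg Line51.rl
      (Λ.p_lit (q := (y, s)) (h.lit_of hs.2 (abs_lt.2 hs.1).le))
  obtain ⟨C3, k3⟩ := cbs_loc W h0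
    (f := fun i p => ((Λ.Λ m c).ln p).A (W.Z c).I ((W.L m c).e p) i)
    (fun j p z hz => jAt_A (Λ.Λ m c) hz j) (g := fun i a y => (L.cy a).yd.G.a i (y, 0))
    (fun j a _ => sm_slice_fst ((L.cy_ok a).yd.G.con.sm j) 0)
    fun j p a h b y s hs => G_a Λ h.O j ▸ h.a_nj Λ hs y j
  refine ⟨fun k => max (max (C0 k) (C1 k)) (max (C2 k) (C3 k)), ?_⟩
  filter_upwards [k0, k1, k2, k3] with p k0 k1 k2 k3 h
  exact ⟨Tame_mono (k0 h) fun _ => by simp, fun i k l n => CBs_mono (k1 h (i, k, l, n))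
    fun _ => by simp, CBs_mono (k2 h ()) fun _ => by simp,
    fun i => G_a Λ h.1 i ▸ CBs_mono (k3 h i) fun _ => by simp⟩

/-- **bounded geometry of a layer** -/
theorem bd_W (m : M.Cl) (h : p ∈ M.O c.1) : ∃ C, Bd Λ m c p C :=
  let ⟨C, hC⟩ := bd_loc Λ (cylAt_of_O (m := m) h); ⟨C, hC.self_of_nhds (gd_of_O h h)⟩

theorem bd_ev (h0 : CylAt M m c p₀) :
    ∃ C, ∀ᶠ p in 𝓝 p₀, p ∈ M.O c.1 → p.2 ∈ M.sys.Par → Bd Λ m c p C :=
  let ⟨C, hC⟩ := bd_loc Λ h0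
  ⟨C, (hC.and (ev_gd c p₀)).mono fun _ h h1 h2 => h.1 (h.2 h1 h2)⟩

theorem bd_unif {U : Set (Prm A)} (hU : IsCompact U) (h0 : ∀ p₀ ∈ U, CylAt M m c p₀) :
    ∃ C, ∀ p ∈ U, p ∈ M.O c.1 → p.2 ∈ M.sys.Par → Bd Λ m c p C :=
  unif_of_loc hU (fun _ _ _ h k h1 h2 => (h h1 h2).mono k) fun p hp => bd_ev Λ (h0 p hp)

end Crest.Agent.X212.Cht98
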