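import Crest.Agent.X212.Cht98.Sob
import Crest.Agent.X212.Sob92.Bas

/-! Row 212, layer AN (helper98): the charts of an `An.Pre`; the Sobolev constants on compact
sets; every `Fr` on a closed manifold of dimension `≤ 4` is tame. -/

set_option autoImplicit false
set_option linter.unusedSectionVars false

open scoped Manifold ContDiff Topology ENNReal NNReal
open Set Filter Function MeasureTheory

noncomputable section
namespace Crest.Agent.X212.Cht98
open Crest.Agent.X212.Sob92 Crest.Agent.X212.An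

variable {E : Type} [NormedAddCommGroup E] [NormedSpace ℝ E] [FiniteDimensional ℝ E]
  [MeasurableSpace E] [BorelSpace E]
  {HM : Type} [TopologicalSpace HM] {I : ModelWithCorners ℝ E HM} [I.Boundaryless]
  {M : Type} [TopologicalSpace M] [ChartedSpace HM M] [IsManifold I ∞ M]
  [MeasurableSpace M] [BorelSpace M] {ι : Type} [Fintype ι]

variable (E) in
/-- the Euclidean model -/
abbrev Eu : Type := EuclideanSpace ℝ (Fin (Module.finrank ℝ E))

variable (E) in
/-- the linear coordinates of the model space -/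
def toEu : E ≃L[ℝ] Eu E :=
  ((Module.finBasis ℝ E).equiv (EuclideanSpace.basisFun (Fin (Module.finrank ℝ E)) ℝ).toBasis
    (Equiv.refl _)).toContinuousLinearEquiv

theorem map_leb : (leb E).map (toEu E) = volume := by
  rw [leb, Module.Basis.map_addHaar,
    ← (EuclideanSpace.basisFun (Fin (Module.finrank ℝ E)) ℝ).addHaar_eq_volume]
  congr 1
  ext i
  simp [toEu]

theorem finrank_Eu : Module.finrank ℝ (Eu E) = Module.finrank ℝ E := by simp

/-- the chart at `x₀`, restricted to `O`, in Euclidean coordinates -/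
def chO (I : ModelWithCorners ℝ E HM) [I.Boundaryless] (x₀ : M) {O : Set M} (hO : IsOpen O) :
    OpenPartialHomeomorph M (Eu E) :=
  ((chartAt HM x₀).restrOpen O hO).transHomeomorph
    (I.toHomeomorph.trans (toEu E).toHomeomorph)

theorem atl (F : Pre I M ι) : Atl I F.μ (Eu E) := by
  intro x₀
  obtain ⟨O, ρ, ⟨hO, hx, hOs, hμ⟩, hρ, hp⟩ := F.dens x₀
  set φ := chO I x₀ hO with hφ
  have hOs' : O ⊆ (chartAt HM x₀).source := by simpa using hOs
  have h1 : ∀ x, φ x = toEu E (extChartAt I x₀ x) := fun x => rfl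
  have h2 : ∀ y, φ.symm y = (extChartAt I x₀).symm ((toEu E).symm y) := fun y => rfl
  have hs : φ.source = O := by
    rw [hφ, chO]
    exact inter_eq_right.2 hOs'
  have ht : φ.target = toEu E '' (extChartAt I x₀ '' O) := by
    rw [← φ.image_source_eq_target, hs, image_image]
    rfl
  have hto : ∀ y ∈ φ.target, (toEu E).symm y ∈ extChartAt I x₀ '' O := by
    intro y hy
    rw [ht] at hy
    obtain ⟨z, hz, rfl⟩ := hy
    rwa [ContinuousLinearEquiv.symm_apply_apply]
  have hT : IsOpen (extChartAt I x₀ '' O) := by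
    have h3 := (toEu E).toHomeomorph.isOpen_image (s := extChartAt I x₀ '' O)
    exact h3.1 (ht ▸ φ.open_target)
  have hTt : extChartAt I x₀ '' O ⊆ (extChartAt I x₀).target := by
    rintro _ ⟨z, hz, rfl⟩
    exact (extChartAt I x₀).map_source (hOs hz)
  refine ⟨⟨φ, ?_, ?_, fun y => ρ ((toEu E).symm y), ?_, fun y hy => hp _ (hto y hy), ?_⟩,
    by show x₀ ∈ φ.source; rwa [hs]⟩
  · rw [hs]
    exact (toEu E).contDiff.contMDiff.comp_contMDiffOn ((contMDiffOn_extChartAt (x := x₀)).mono hOs')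
  · exact (contMDiffOn_extChartAt_symm x₀).comp (toEu E).symm.contDiff.contMDiff.contMDiffOn
      fun y hy => hTt (hto y hy)
  · exact hρ.comp (toEu E).symm.contDiff.contDiffOn hto
  · intro g hg
    have ha : AEMeasurable (extChartAt I x₀) (F.μ.restrict O) :=
      ((continuousOn_extChartAt x₀).mono hOs).aemeasurable hO.measurableSet
    have hb : AEMeasurable (extChartAt I x₀).symm ((leb E).restrict (extChartAt I x₀ '' O)) :=
      ((continuousOn_extChartAt_symm x₀).mono hTt).aemeasurable hT.measurableSet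
    have hρm : AEMeasurable (fun y => ENNReal.ofReal (ρ y))
        ((leb E).restrict (extChartAt I x₀ '' O)) :=
      (hρ.continuousOn.aemeasurable hT.measurableSet).ennreal_ofReal
    have hgb : AEMeasurable (fun y => g ((extChartAt I x₀).symm y))
        ((leb E).restrict (extChartAt I x₀ '' O)) := hg.comp_aemeasurable' hb
    have hme : MeasurableEmbedding (toEu E) := (toEu E).toHomeomorph.measurableEmbedding
    calc ∫⁻ x in φ.source, g x ∂F.μ
        = ∫⁻ x in O, g ((extChartAt I x₀).symm (extChartAt I x₀ x)) ∂F.μ := by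
          rw [hs]
          exact setLIntegral_congr_fun hO.measurableSet fun x hx => by
            rw [(extChartAt I x₀).left_inv (hOs hx)]
      _ = ∫⁻ y, g ((extChartAt I x₀).symm y) ∂((F.μ.restrict O).map (extChartAt I x₀)) := by
          refine (lintegral_map' (f := fun y => g ((extChartAt I x₀).symm y)) ?_ ha).symm
          rw [hμ]
          exact hgb.mono_ac (withDensity_absolutelyContinuous _ _)
      _ = ∫⁻ y in extChartAt I x₀ '' O, ENNReal.ofReal (ρ y) * g ((extChartAt I x₀).symm y)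
            ∂(leb E) := by
          rw [hμ, lintegral_withDensity_eq_lintegral_mul₀ hρm hgb]
          rfl
      _ = _ := by
          rw [← map_leb, hme.restrict_map, hme.lintegral_map, ht,
            preimage_image_eq _ (toEu E).injective]
          simp only [h2, ContinuousLinearEquiv.symm_apply_apply]

theorem openPos (F : Pre I M ι) : F.μ.IsOpenPosMeasure := (atl F).openPos

/-- a continuous function is bounded by its essential supremum -/
theorem enorm_le_top {μ : Measure M} [μ.IsOpenPosMeasure] {f : M → ℝ} (hf : Continuous f) (x : M) :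
    ‖f x‖ₑ ≤ eLpNorm f ⊤ μ := by
  by_contra h
  have hU : IsOpen {y | eLpNormEssSup f μ < ‖f y‖ₑ} := isOpen_lt continuous_const hf.enorm
  exact hU.measure_ne_zero μ ⟨x, by simpa [eLpNorm_exponent_top] using h⟩ meas_eLpNormEssSup_lt

variable [T2Space M]

theorem eLp_two (F : Pre I M ι) {f : M → ℝ} (hf : Sm I f) (hc : HasCompactSupport f) :
    eLpNorm f 2 F.μ = ENNReal.ofReal (F.nrm 0 f) := by
  rw [(hf.continuous.memLp_of_hasCompactSupport hc).eLpNorm_eq_integral_rpow_norm (by norm_num)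
    (by norm_num), nrm_eq, Real.sqrt_eq_rpow]
  simp [N2, n2]

theorem eLp_four (F : Pre I M ι) {f : M → ℝ} (hf : Sm I f) (hc : HasCompactSupport f) :
    eLpNorm f 4 F.μ = ENNReal.ofReal (√(√(∫ x, f x ^ 4 ∂F.μ))) := by
  rw [(hf.continuous.memLp_of_hasCompactSupport hc).eLpNorm_eq_integral_rpow_norm (by norm_num)
    (by norm_num), Real.sqrt_eq_rpow, Real.sqrt_eq_rpow,
    ← Real.rpow_mul (integral_nonneg fun x => by positivity)]
  have h : ∀ x, ‖f x‖ ^ (4 : ℝ≥0∞).toReal = f x ^ 4 := fun x => by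
    rw [show (4 : ℝ≥0∞).toReal = ((4 : ℕ) : ℝ) by simp, Real.rpow_natCast, Real.norm_eq_abs,
      Even.pow_abs (by decide)]
  simp only [h]
  norm_num

/-- one step of the Sobolev chain -/
theorem step (F : Pre I M ι) {q p : ℝ≥0∞} (hq : 1 ≤ q) (hp : 1 ≤ p) (hE : ES (Eu E) q p)
    {K : Set M} (hK : IsCompact K) {k : ℕ} {C : ℝ≥0}
    (h : ∀ f : M → ℝ, Sm I f → tsupport f ⊆ K →
      eLpNorm f p F.μ ≤ C * ENNReal.ofReal (F.nrm k f)) :
    ∃ C' : ℝ≥0, ∀ f : M → ℝ, Sm I f → tsupport f ⊆ K →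
      eLpNorm f q F.μ ≤ C' * ENNReal.ofReal (F.nrm (k + 1) f) := by
  obtain ⟨A, hA⟩ := (atl F).sob F.sm F.span hq hp hE isOpen_univ hK (subset_univ K)
  refine ⟨A * (C * (1 + Fintype.card ι)), fun f hf hs => ?_⟩
  have h1 := hA f hf
  rw [eLpNorm_restrict_eq_of_support_subset ((subset_tsupport f).trans hs),
    Measure.restrict_univ] at h1
  have h2 : eLpNorm f p F.μ ≤ C * ENNReal.ofReal (F.nrm (k + 1) f) :=
    (h f hf hs).trans (by gcongr; exact nrm_mono (Nat.le_succ k) f)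
  have h3 : ∀ a, eLpNorm (dv I (F.e a) f) p F.μ ≤ C * ENNReal.ofReal (F.nrm (k + 1) f) :=
    fun a => (h _ (F.sm_D hf a) ((F.tsupport_D f a).trans hs)).trans
      (by gcongr; exact nrm_D_le k f a)
  calc _ ≤ (A : ℝ≥0∞) * (C * ENNReal.ofReal (F.nrm (k + 1) f) +
        ∑ _a : ι, C * ENNReal.ofReal (F.nrm (k + 1) f)) := h1.trans (by gcongr with a; exact h3 a)
    _ = _ := by
      rw [Finset.sum_const, Finset.card_univ, nsmul_eq_mul]
      push_cast
      ring

theorem eLp_four_le (F : Pre I M ι) (hn : Module.finrank ℝ E ≤ 4) {K : Set M} (hK : IsCompact K) :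
    ∃ C : ℝ≥0, ∀ f : M → ℝ, Sm I f → tsupport f ⊆ K →
      eLpNorm f 4 F.μ ≤ C * ENNReal.ofReal (F.nrm 1 f) :=
  step F (by norm_num) (by norm_num) (ES_four_two (finrank_Eu.trans_le hn)) hK (C := 1)
    fun f hf hs => by
      rw [eLp_two F hf (hK.of_isClosed_subset (isClosed_tsupport f) hs)]
      simp

theorem eLp_top_le (F : Pre I M ι) (hn : Module.finrank ℝ E ≤ 4) {K : Set M} (hK : IsCompact K) :
    ∃ C : ℝ≥0, ∀ f : M → ℝ, Sm I f → tsupport f ⊆ K →
      eLpNorm f ⊤ F.μ ≤ C * ENNReal.ofReal (F.nrm 3 f) := by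
  obtain ⟨C1, h1⟩ := eLp_four_le F hn hK
  obtain ⟨C2, h2⟩ := step F (by norm_num) (by norm_num) (ES_five_four (finrank_Eu.trans_le hn)) hK h1
  exact step F le_top (by norm_num) (ES_top_five (finrank_Eu.trans_le hn)) hK h2

/-- the `L⁴` inequality for functions supported in `K` -/
def L4On (F : Pre I M ι) (K : Set M) (S : ℝ) : Prop := ∀ f : M → ℝ, Sm I f →
  HasCompactSupport f → tsupport f ⊆ K → √(∫ x, f x ^ 4 ∂F.μ) ≤ S * F.ip 1 f f

/-- the sup inequality for functions supported in `K` -/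
def SupOn (F : Pre I M ι) (K : Set M) (S : ℝ) : Prop := ∀ f : M → ℝ, Sm I f →
  HasCompactSupport f → tsupport f ⊆ K → ∀ x, f x ^ 2 ≤ S * F.ip 3 f f

theorem L4On.mono {F : Pre I M ι} {K K' : Set M} {S S' : ℝ} (h : L4On F K S) (hK : K' ⊆ K)
    (hS : S ≤ S') : L4On F K' S' := fun f hf hc hs =>
  (h f hf hc (hs.trans hK)).trans (mul_le_mul_of_nonneg_right hS (F.ip_nonneg 1 f))

theorem SupOn.mono {F : Pre I M ι} {K K' : Set M} {S S' : ℝ} (h : SupOn F K S) (hK : K' ⊆ K)
    (hS : S ≤ S') : SupOn F K' S' := fun f hf hc hs x =>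
  (h f hf hc (hs.trans hK) x).trans (mul_le_mul_of_nonneg_right hS (F.ip_nonneg 3 f))

theorem l4On (F : Pre I M ι) (hn : Module.finrank ℝ E ≤ 4) {K : Set M} (hK : IsCompact K) :
    ∃ S, 0 ≤ S ∧ L4On F K S := by
  obtain ⟨C, hC⟩ := eLp_four_le F hn hK
  refine ⟨C ^ 2, by positivity, fun f hf hc hs => ?_⟩
  have h1 := hC f hf hs
  rw [eLp_four F hf hc, ← ENNReal.ofReal_coe_nnreal, ← ENNReal.ofReal_mul C.coe_nonneg,
    ENNReal.ofReal_le_ofReal_iff (mul_nonneg C.coe_nonneg (nrm_nonneg 1 f))] at h1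
  have h2 := pow_le_pow_left₀ (Real.sqrt_nonneg _) h1 2
  rwa [Real.sq_sqrt (Real.sqrt_nonneg _), mul_pow, nrm_sq, ← ip_eq] at h2

theorem supOn (F : Pre I M ι) (hn : Module.finrank ℝ E ≤ 4) {K : Set M} (hK : IsCompact K) :
    ∃ S, 0 ≤ S ∧ SupOn F K S := by
  obtain ⟨C, hC⟩ := eLp_top_le F hn hK
  have := openPos F
  refine ⟨C ^ 2, by positivity, fun f hf hc hs x => ?_⟩
  have h1 := (enorm_le_top hf.continuous x).trans (hC f hf hs)
  rw [← ofReal_norm, ← ENNReal.ofReal_coe_nnreal, ← ENNReal.ofReal_mul C.coe_nonneg,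
    ENNReal.ofReal_le_ofReal_iff (mul_nonneg C.coe_nonneg (nrm_nonneg 3 f))] at h1
  have h2 := pow_le_pow_left₀ (norm_nonneg _) h1 2
  rwa [Real.norm_eq_abs, sq_abs, mul_pow, nrm_sq, ← ip_eq] at h2

theorem ip_mono (F : Pre I M ι) {i j : ℕ} (hij : i ≤ j) (f : M → ℝ) : F.ip i f f ≤ F.ip j f f := by
  rw [ip_eq, ip_eq]
  exact n2_mono hij f

theorem CBs_mono {F : Pre I M ι} {N : Type} [NormedAddCommGroup N] [NormedSpace ℝ N] {f : M → N}
    {C C' : ℕ → ℝ} (h : F.CBs f C) (hC : ∀ k, C k ≤ C' k) : F.CBs f C' :=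
  ⟨h.1, fun k => CB_mono (h.2 k) (hC k)⟩

/-- finitely many bounded functions have common bounds -/
theorem Cb_common {F : Pre I M ι} {κ : Type} [Finite κ] {f : κ → M → ℝ} (h : ∀ j, F.Cb (f j)) :
    ∃ C : ℕ → ℝ, ∀ j, F.CBs (f j) C := by
  choose C hC using h
  choose D hD using fun k => (Set.finite_range fun j => C j k).bddAbove
  exact ⟨D, fun j => CBs_mono (hC j) fun k => hD k ⟨j, rfl⟩⟩

theorem Tame_mono {F : Fr I M ι} {C C' : ℕ → ℝ} (h : F.Tame C) (hC : ∀ k, C k ≤ C' k) :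
    F.Tame C' where
  P a b := CBs_mono (h.P a b) hC
  c a b l := CBs_mono (h.c a b l) hC
  dv a := CBs_mono (h.dv a) hC
  l4 f hf hc := (h.l4 f hf hc).trans (mul_le_mul_of_nonneg_right (hC 0) (F.ip_nonneg 1 f))
  sup f hf hc x := (h.sup f hf hc x).trans (mul_le_mul_of_nonneg_right (hC 0) (F.ip_nonneg 4 f))
  exh K hK := let ⟨χ, h1, h2⟩ := h.exh K hK; ⟨χ, CBs_mono h1 hC, h2⟩

/-- tameness from its parts, each with its own constants -/
theorem tame_of {F : Fr I M ι} (hP : ∀ a b, F.Cb (F.P a b)) (hc : ∀ a b l, F.Cb (F.c a b l))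
    (hd : ∀ a, F.Cb (F.dv a)) {S S' : ℝ} (h4 : L4On F.toPre univ S) (hs : SupOn F.toPre univ S')
    {C : ℕ → ℝ} (hex : ∀ K : Set M, IsCompact K → ∃ χ : M → ℝ, F.CBs χ C ∧ HasCompactSupport χ ∧
      (∀ x, 0 ≤ χ x ∧ χ x ≤ 1) ∧ ∀ x ∈ K, χ x = 1) : ∃ C, F.Tame C := by
  obtain ⟨C1, h1⟩ := Cb_common (f := fun p : ι × ι => F.P p.1 p.2) fun p => hP _ _
  obtain ⟨C2, h2⟩ := Cb_common (f := fun p : ι × ι × ι => F.c p.1 p.2.1 p.2.2) fun p => hc _ _ _
  obtain ⟨C3, h3⟩ := Cb_common hd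
  refine ⟨fun k => max (max (max (C1 k) (C2 k)) (max (C3 k) (C k))) (max S |S'|),
    fun a b => CBs_mono (h1 (a, b)) fun k => by simp,
    fun a b l => CBs_mono (h2 (a, b, l)) fun k => by simp,
    fun a => CBs_mono (h3 a) fun k => by simp, fun f hf hc => ?_, fun f hf hc x => ?_,
    fun K hK => ?_⟩
  · exact (h4 f hf hc (subset_univ _)).trans
      (mul_le_mul_of_nonneg_right (by simp) (F.ip_nonneg 1 f))
  · refine (hs f hf hc (subset_univ _) x).trans ?_
    exact mul_le_mul ((le_abs_self _).trans (by simp)) (ip_mono _ (by norm_num) f)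
      (F.ip_nonneg 3 f) ((abs_nonneg S').trans (by simp))
  · obtain ⟨χ, k1, k2⟩ := hex K hK
    exact ⟨χ, CBs_mono k1 fun k => by simp, k2⟩

/-- **every frame on a closed manifold of dimension `≤ 4` is tame** -/
theorem exists_tame [CompactSpace M] (F : Fr I M ι) (hn : Module.finrank ℝ E ≤ 4) :
    ∃ C, F.Tame C := by
  obtain ⟨S, -, h4⟩ := l4On F.toPre hn isCompact_univ
  obtain ⟨S', -, hs⟩ := supOn F.toPre hn isCompact_univ
  refine tame_of (fun a b => Cb_of_compact (F.P_sm a b)) (fun a b l => Cb_of_compact (F.c_sm a b l))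
    (fun a => Cb_of_compact (F.dv_sm a)) h4 hs (C := fun _ => ‖(1 : ℝ)‖) fun K _ => ?_
  exact ⟨fun _ => 1, ⟨contMDiff_const, fun k => CB_const k 1⟩, HasCompactSupport.of_compactSpace _,
    fun _ => ⟨zero_le_one, le_rfl⟩, fun _ _ => rfl⟩

end Crest.Agent.X212.Cht98
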