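import Crest.Agent.X212.Cht98.TrB

/-! Row 212, IX-TRN (helper98): the gauge row, naturality at the level of functions. -/

set_option autoImplicit false
set_option linter.unusedSectionVars false
noncomputable section
open scoped Manifold ContDiff Topology InnerProductSpace
open Set Function Filter

namespace Crest.Agent.X212.Cht98
open An An.Pre Sob92 Prm93 Map77 Mod61
open Ell97 (inner_tr D_app)
open Eqv71 hiding idx_apply
open Wz78 (SA adc_skw inner_rk1 nab)

variable {E : Type} [NormedAddCommGroup E] [NormedSpace ℝ E] [FiniteDimensional ℝ E]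
  [MeasurableSpace E] [BorelSpace E]
  {HM : Type} [TopologicalSpace HM] {I : ModelWithCorners ℝ E HM} [I.Boundaryless]
  {M : Type} [TopologicalSpace M] [ChartedSpace HM M] [IsManifold I ∞ M]
  [MeasurableSpace M] [T2Space M] [BorelSpace M] [SecondCountableTopology M]
  {E' : Type} [NormedAddCommGroup E'] [NormedSpace ℝ E'] [FiniteDimensional ℝ E']
  [MeasurableSpace E'] [BorelSpace E']
  {HM' : Type} [TopologicalSpace HM'] {I' : ModelWithCorners ℝ E' HM'} [I'.Boundaryless]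
  {M' : Type} [TopologicalSpace M'] [ChartedSpace HM' M'] [IsManifold I' ∞ M']
  [MeasurableSpace M'] [T2Space M'] [BorelSpace M'] [SecondCountableTopology M']
  {ι ι' κ κ' lam lam' : Type} [Fintype ι] [Fintype ι'] [Fintype κ] [DecidableEq κ] [Fintype κ']
  [DecidableEq κ'] [Fintype lam] [Fintype lam'] {x : M} {x' : M'}

section sm
variable {X X' Y Y' : Type} [NormedAddCommGroup X] [InnerProductSpace ℝ X] [NormedAddCommGroup X']
  [InnerProductSpace ℝ X'] [NormedAddCommGroup Y] [InnerProductSpace ℝ Y] [NormedAddCommGroup Y']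
  [InnerProductSpace ℝ Y']

theorem sa_sm2 {A : M → X →L[ℝ] X'} {B : M → Y →L[ℝ] Y'} (hA : SA I A x) (hB : SA I B x) :
    SA I (fun y => sm2 (A y) (B y)) x :=
  (sa_comp contMDiffAt_const (sa_comp hA contMDiffAt_const)).add
    (sa_comp contMDiffAt_const (sa_comp hB contMDiffAt_const))

theorem sa_ridx {U : M → ι' → ι → ℝ} {A : M → X →L[ℝ] X'} (hU : ∀ b a, SA I (fun y => U y b a) x)
    (hA : SA I A x) : SA I (fun y => ridx (U y) (A y)) x := by
  have : ∀ y, ridx (U y) (A y) = ∑ b, (ij X' b).comp (∑ a, U y b a • A y ∘L pj X a) :=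
    fun y => tp_eq _
  simp only [this]
  exact SA.sum _ fun b _ => sa_comp contMDiffAt_const
    (SA.sum _ fun a _ => SA.smul (hU b a) (sa_comp hA contMDiffAt_const))

variable {U : M → ι' → ι → ℝ} {w : M → CL (An.Eu κ) (An.Eu κ')}
  (hU : ∀ b a, SA I (fun y => U y b a) x) (hw : SA I w x)
include hU hw

theorem sa_ΛC : SA I (fun y => ΛC (U y) (w y)) x := sa_sm2 (sa_ridx hU (sa_cj hw)) hw

theorem sa_ΛF : SA I (fun y => ΛF (U y) (w y)) x :=
  sa_sm2 (sa_cj hw) (sa_sm2 hw (sa_ridx (fun b a => SA.mul (hU b.1 a.1) (hU b.2 a.2)) (sa_cj hw)))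

end sm

section pr
variable {T T' : Type} [NormedAddCommGroup T] [NormedSpace ℝ T] [NormedAddCommGroup T']
  [NormedSpace ℝ T'] {𝔉 : Fam I M ι lam T} {𝔉' : Fam I' M' ι' lam' T'} {o : Ref 𝔉} {o' : Ref 𝔉'}
  {U : ι' → ι → ℝ} {v : CL (An.Eu lam) (An.Eu lam')} {w : CL o.m.V o'.m.V}

theorem pr_of (h : 𝔉.B.OK I) (h' : 𝔉'.B.OK I') (g : BE 𝔉.B x 𝔉'.B x' U v)
    (e : ME o.m x o'.m x' U v w) (hx : x ∈ 𝔉.Om) (hx' : x' ∈ 𝔉'.Om)
    (hs : x' ∈ 𝔉'.Om' ↔ x ∈ 𝔉.Om') : PR U w (bd o) (bd o') x x' := by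
  have e1 : o.Pg x = o.m.pg x := indicator_of_mem hx _
  have e2 : o'.Pg x' = o'.m.pg x' := indicator_of_mem hx' _
  have e3 : ∀ a, trn w (w a) = o.m.p x a := fun a => DFunLike.congr_fun e.uu a
  refine ⟨fun ξ => ?_, fun α => ?_, fun α => ?_, fun a => ?_, fun a => ?_,
    fun a u => (DFunLike.congr_fun (e.ρ' g o.ok a) u ▸ ?_), g.PU h', g.UP h, g.UU,
    fun ξ => ?_, fun a => ?_, fun a => ?_⟩
  · simp only [e1, e2, e.pg g h h' o.ok o'.ok]
  · simp only [Ref.P1, e1, e2]; exact e.p1 g h h' o.ok o'.ok α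
  · simp only [Ref.P2, e1, e2]; exact e.p2 g h h' o.ok o'.ok α
  · by_cases k : x ∈ 𝔉.Om' <;> simp [Ref.Pp, k, hs, e.pp g h h' o.ok]
  · by_cases k : x ∈ 𝔉.Om' <;> simp [Ref.Pm, k, hs, e.pm g h h' o.ok]
  · simp
  · simp only [e1, e.uu]; exact ME.cj_p (Wz78.pg_mem x ξ)
  · by_cases k : x ∈ 𝔉.Om' <;> simp [Ref.Pp, k, e3, p_pp o.ok]
  · by_cases k : x ∈ 𝔉.Om' <;> simp [Ref.Pm, k, e3, p_pm o.ok]

end pr

/-- **the gauge row** -/
theorem row_eq {d : Bd M ι κ} (H : d.OK) (G : Fr I M ι) (hg : Sm I d.g) (h1 : Sm I d.p1)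
    {W : ι → M → En κ} {Φ : M → An.Eu κ} (hW : ∀ a, Skw (W a x)) (v : Sec I d.pC) :
    G.op ((d.d0 G (base W Φ)).adj G).σ ((d.d0 G (base W Φ)).adj G).B v x =
      d.g x (∑ a, (nab I G.e (fun a y => adc (W a y)) a (fun y => fa (v.1 y) a) x +
        G.dv a x • fa (v.1 x) a) + hsL (rk1 (fp (v.1 x)) (Φ x))) := by
  have p1 : ∀ y, d.p1 y (fa (v.1 y)) = fa (v.1 y) := fun y => maps_f2 y _ (v.2.2.2 y)
  have t : ∀ a y, Op.tr ((d.d0 G (base W Φ)).σ a y) = -(pj _ a ∘L d.p1 y ∘L fa) := fun a y =>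
    neg_eq_iff_eq_neg.1 (ContinuousLinearMap.ext (H.row_σ (F := G) _ a y))
  have s : ∀ a, Sm I fun y => -(pj (HS κ) a ∘L d.p1 y ∘L (fa : CL (Cf ι κ) _)) := fun a y =>
    (sa_comp contMDiffAt_const (sa_comp (h1 y) contMDiffAt_const)).neg
  have e1 : ∀ a, G.D a (fun y => -(pj (HS κ) a ∘L d.p1 y ∘L fa)) x (v.1 x) =
      d.p1 x (fa (G.D a v.1 x)) a - G.D a (fun y => fa (v.1 y) a) x := fun a => by
    have := D_app G.toPre a (s a) v.2.1 x
    simp only [_root_.neg_apply, ContinuousLinearMap.comp_apply, p1, pj_apply] at this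
    have h2 : G.D a (fun y => -fa (v.1 y) a) x = -G.D a (fun y => fa (v.1 y) a) x := dv_neg _ x
    rw [sub_eq_add_neg, ← h2, this]; abel
  have e2 : ∀ a η, d.g x (G.D a d.g x (d.g x η)) = 0 := fun a η => by
    have h2 := D_app G.toPre a hg (hg.clm_apply (contMDiff_const (c := d.g x η))) x
    have h3 := D_app G.toPre a hg (contMDiff_const (c := d.g x η)) x
    have h4 : G.D a (fun _ => d.g x η) x = 0 := congrFun (dv_const _) x
    simp only [H.g.idem, h3, h4, map_zero, add_zero] at h2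
    exact left_eq_add.1 h2
  have e3 : d.g x (Op.tr ((d.d0 G (base W Φ)).B x) (v.1 x)) =
      d.g x (∑ a, adc (W a x) (fa (v.1 x) a) + hsL (rk1 (fp (v.1 x)) (Φ x))) :=
    ext_inner_left ℝ fun η => by
      have e4 : ∀ a, ⟪σ0 (d.Px x) a (G.D a d.g x (d.g x η)), v.1 x⟫_ℝ = 0 := fun a => by
        have := H.inner_ea x a (G.D a d.g x (d.g x η)) (fa (v.1 x))
        rw [e2, map_zero, inner_zero_left, p1] at this
        simp only [σ0, _root_.neg_apply, ContinuousLinearMap.comp_apply, inner_neg_left, inner2,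
          f2_i1, s2_i1, inner_zero_left, add_zero, neg_eq_zero, inner_fm (X := HS κ), ea_apply,
          real_inner_smul_left, ← real_inner_smul_right, ← inner_sum]
        rw [this, ← p1, ← H.P_p1]
        simp only [H.Ps a]
      rw [← H.g.symm, ← H.g.symm, inner_tr]
      simp only [Bd.d0, cut, ContinuousLinearMap.comp_apply, H.prjC.symm, v.2.2.2 x,
        _root_.add_apply, _root_.sum_apply, inner_add_left, sum_inner, e4, Finset.sum_const_zero,
        add_zero, inner_add_right, inner_sum, inner_rk1]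
      rw [inner2, inner_fm (X := HS κ), fp_l0, fp_base]
      simp only [fa_l0, oa_base, inner_neg_left, adc_skw (hW _) _ _, neg_neg]
  have e5 : ((d.d0 G (base W Φ)).adj G).B x (v.1 x) = d.g x (Op.tr ((d.d0 G (base W Φ)).B x) (v.1 x)
      - ∑ a, (G.D a (fun y => Op.tr ((d.d0 G (base W Φ)).σ a y)) x (v.1 x) +
        G.dv a x • Op.tr ((d.d0 G (base W Φ)).σ a x) (v.1 x))) := by
    simp [Op.adj, Bd.d0, cut]
  rw [Pre.op, e5, map_sub, e3]
  simp only [H.row_σ, t, e1, _root_.neg_apply, ContinuousLinearMap.comp_apply, p1, pj_apply, nab,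
    map_add, map_sum, map_sub, H.g_p1, smul_neg, map_neg, Finset.sum_add_distrib,
    Finset.sum_sub_distrib, Finset.sum_neg_distrib]
  simp only [D_def]
  abel

section nat
variable {B : Base M ι lam} {G : Geo I M ι lam} {B' : Base M' ι' lam'} {G' : Geo I' M' ι' lam'}
  {O : Set M} {φ : M → M'} {U : M → ι' → ι → ℝ} {v : M → CL (An.Eu lam) (An.Eu lam')}
  {m : Md M ι lam} {m' : Md M' ι' lam'} {W : m.Cn} {W' : m'.Cn} {w : M → CL m.V m'.V}

theorem cj_comp_u {U : ι' → ι → ℝ} {v : CL (An.Eu lam) (An.Eu lam')} {u : CL m.V m'.V}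
    (e : ME m x m' x' U v u) (h : m.OK I B) {ξ : m.A} (hξ : ξ ∈ m.gS x) :
    opL (cj u ξ) ∘L u = u ∘L opL ξ := by
  rw [opL_cj, ContinuousLinearMap.comp_assoc, ContinuousLinearMap.comp_assoc, e.uu]
  exact congrArg (u ∘L ·) (Wz78.g_p' h hξ)

/-- variations of equivalent configurations -/
theorem ceq_vr {r : ℕ} {c : Cfg M ι lam r} {c' : Cfg M' ι' lam' r} {u : M → CL c.m.V c'.m.V}
    {ζ : Circle} (g : LG B G B' G' O φ U v) (h : c.m.OK I B) (h' : c'.m.OK I' B')
    (e : CEq G.F c c' O φ U v u ζ) {a : M → Cf ι (Fin c.m.N)} {a' : M' → Cf ι' (Fin c'.m.N)}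
    (h1 : ∀ x b, fa (a x) b ∈ c.m.gS x) (h2 : ∀ x b, ∑ k, B.P b k x • fa (a x) k = fa (a x) b)
    (ha : ∀ x ∈ O, a' (φ x) = ΛC (U x) (csL c'.m.J ζ ∘L u x) (a x)) :
    CEq G.F ⟨c.m, c.m.addC c.W fun x => fa (a x), fun x => c.Φ x + fp (a x), c.z⟩
      ⟨c'.m, c'.m.addC c'.W fun x => fa (a' x), fun x => c'.Φ x + fp (a' x), c'.z⟩ O φ U v u ζ := by
  refine ⟨e.m, fun x hx b => ?_, fun x hx => ?_, e.z⟩
  · have k := me_of_meq e.m hx
    have e1 : ∑ i, U x i b • fa (a' (φ x)) i = cj (u x) (fa (a x) b) := by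
      simp only [ha x hx, ΛC, f2_sm2, ridx_apply, cj_phase k h h' ζ (h1 x _), Finset.smul_sum,
        smul_smul]
      rw [Finset.sum_comm, ← h2 x b]
      simp only [← Finset.sum_smul, (g.be x hx).UU, map_sum, map_smul]
    have e2 := cj_comp_u k h (h1 x b)
    rw [← e1, map_sum] at e2
    simp only [Md.addC, smul_add, Finset.sum_add_distrib, ContinuousLinearMap.add_comp,
      ContinuousLinearMap.comp_add, ← map_smul, e2]
    rw [← e.W x hx b]
    abel
  · simp only [ha x hx, e.Φ x hx, ΛC, s2_sm2, map_add, ← csL_apply,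
      ContinuousLinearMap.comp_apply]

/-- the divergence is natural -/
theorem div_nat {B' : Base M' ι lam'} {G' : Geo I' M' ι lam'} {m' : Md M' ι lam'} {W' : m'.Cn}
    {w : M → CL m.V m'.V} (h : LM B G B' G' O φ (fun x b a => B.P b a x) v W W' w) (hx : x ∈ O)
    {α : M → Fm ι m.A} {α' : M' → Fm ι m'.A} (hα : SA I α x) (hα' : SA I' α' (φ x))
    (e : ∀ y ∈ O, ∀ b, α' (φ y) b = cj (w y) (α y b)) (b : ι) :
    nab I' G'.F.e (m'.adW W') b (fun y => α' y b) (φ x) =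
      cj (w x) (nab I G.F.e (m.adW W) b (fun y => α y b) x) := by
  rw [h.nab (s := fun y => α y b) (s' := fun y => α' y b) hx (con_adW h.cn') (sa_cj (h.su x hx))
    (h.itw_ad hx) (SA.clm (pj _ b) hα) (SA.clm (pj _ b) hα')
    ((h.rot.ev hx).mono fun y hy => e y hy b)]
  have := congrArg (cj (w x))
    (pj_nab (geo_frm h.hG) (fun a => (con_adW h.cn).proj a x) (fun y => α y b) b)
  simpa only [map_sum, map_smul] using this

end nat

end Crest.Agent.X212.Cht98
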