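import Crest.Agent.X212.Cht98.TrJ
import Crest.Agent.X212.Cht98.TrC

/-! Row 212, IX-TRN (helper98): the transport, patched from the interior and the ends. -/

set_option autoImplicit false
set_option linter.unusedSectionVars false
noncomputable section
open scoped Manifold ContDiff Topology InnerProductSpace
open MeasureTheory Set Function Filter

namespace Crest.Agent.X212.Cht98
open An An.Pre Sob92 M Nd18 Nk89 Map77 Mod61 Cyf70 Fred93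
open Eqv71 (lg_of_geq inv_of_geq' geo_frm map_inv me_of_meq sa_comp)

variable {κ lam : Type} [Fintype κ] [Fintype lam] {Z Z' : Mf 4}

theorem int_bd {n n' : Type} [Fintype n] [DecidableEq n] [Fintype n'] [DecidableEq n']
    {d : Bd Z.M (Option κ) n} {d' : Bd Z'.M (Option κ) n'} {F G : Fr Z.I Z.M (Option κ)}
    {F' G' : Fr Z'.I Z'.M (Option κ)} (H : d.Hy F G) (H' : d'.Hy F' G') {u : Z.M → Cf (Option κ) n}
    {u' : Z'.M → Cf (Option κ) n'} (hu : F.Cb u) (hu' : F'.Cb u')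
    {φ : OpenPartialHomeomorph Z.M Z'.M} {U : Z.M → Option κ → Option κ → ℝ}
    {w : Z.M → CL (An.Eu n) (An.Eu n')} {k : ℕ} (t : TDf φ F F') (hk : 4 ≤ k)
    (r : PD φ.symm G'.toPre G.toPre fun i j x => U x i j)
    (pr : ∀ x ∈ φ.source, PR (U x) (w x) d d' x (φ x))
    (b : BM Z.I φ d.pC d'.pC fun x => ΛC (U x) (w x))
    (b' : BM Z.I φ (ps d.g d.pE) (ps d'.g d'.pE) fun x => ΛF (U x) (w x))
    {T : F.H (k + 1) d.pC →L[ℝ] F.H k (ps d.g d.pE)}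
    {T' : F'.H (k + 1) d'.pC →L[ℝ] F'.H k (ps d'.g d'.pE)}
    (hT : ∀ χ, Sm Z.I χ → HasCompactSupport χ →
      Cq (smulH _ k _ χ ∘L T) (smulH _ k _ χ ∘L d.FF F.toPre G k u))
    (hT' : ∀ χ, Sm Z'.I χ → HasCompactSupport χ →
      Cq (smulH _ k _ χ ∘L T') (smulH _ k _ χ ∘L d'.FF F'.toPre G' k u')) {g θ : Z'.M → ℝ}
    (h1 : Sm Z'.I g) (h3 : tsupport g ⊆ φ.target) {a : F.H (k + 1) d.pC →L[ℝ] F'.H (k + 1) d'.pC}
    {a' : F.H k (ps d.g d.pE) →L[ℝ] F'.H k (ps d'.g d'.pE)} (ha : VF φ g (fun x => ΛC (U x) (w x)) a)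
    (ha' : VF φ g (fun x => ΛF (U x) (w x)) a') (s1 : Sm Z'.I θ) (s2 : HasCompactSupport θ) :
    Cq (smulH _ k _ θ ∘L T' ∘L a) (smulH _ k _ θ ∘L a' ∘L T) :=
  int_cq (A := d.full G u) (A' := d'.full G' u') t H.sup H'.sup hk r H.toTw H'.toTw (H.nc_full hu)
    (H'.nc_full hu') b b' (fun x hx => (pr x hx).σ H.toOK H'.toOK G G' u u') hT hT' h1 h3 ha ha' s1 s2

section ends
variable {T : Type} [NormedAddCommGroup T] [NormedSpace ℝ T] {𝔉 : Fam Z'.I Z'.M (Option κ) lam T}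
  {δ s S : ℝ} {X : Ends 𝔉 δ} {ι : Type} [Fintype ι] {F : Fr Z.I Z.M ι} {k : ℕ}
  {V V' : Type} [NormedAddCommGroup V] [InnerProductSpace ℝ V] [FiniteDimensional ℝ V]
  [NormedAddCommGroup V'] [InnerProductSpace ℝ V'] [FiniteDimensional ℝ V']
  {φ : OpenPartialHomeomorph Z.M Z'.M} {p : Z.M → V →L[ℝ] V} {p' : Z'.M → V' →L[ℝ] V'}
  {g : Z'.M → ℝ} {Λ : Z.M → V →L[ℝ] V'}

/-- the transport from its restrictions to the ends -/
theorem end_vf {O : ∀ a : {a // X.Act a}, Set ((X.P a).Y.M × ℝ)}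
    {q : ∀ a : {a // X.Act a}, (X.P a).Y.M × ℝ → V' →L[ℝ] V'} (hs : X.R ≤ s)
    (mb : ∀ a : {a // X.Act a}, X.Mb a s p' (q a)) {c : {a // X.Act a} → ℝ}
    (hc : ∀ a : {a // X.Act a}, ∀ y ∈ (X.P a).U s, g y = c a)
    {cc : ∀ a : {a // X.Act a}, F.H k p →L[ℝ] (X.FZ a (O a)).H k (q a)}
    (hcc : ∀ (a : {a // X.Act a}) u z, (X.FZ a (O a)).val k _ (cc a u) z = (X.P a).θZ (s + 1) z •
      c a • Λ (φ.symm ((X.P a).K.ψ z)) (F.val k _ u (φ.symm ((X.P a).K.ψ z))))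
    (d : TDf φ F 𝔉.F0) (b : BM Z.I φ p p' Λ) (h1 : Sm Z'.I g) (h3 : tsupport g ⊆ φ.target)
    (h4 : φ.target ⊆ 𝔉.Om) (hS : Sup F.toPre S) (hk : 4 ≤ k) :
    ∃ a : F.H k p →L[ℝ] 𝔉.F0.H k p', VF φ g Λ a ∧
      ∀ i : {a // X.Act a}, X.rs i (O i) s k p' (q i) ∘L a = cc i := by
  classical
  have := Fintype.ofFinite {a // X.Act a}
  have hs1 : X.R ≤ s + 1 := by linarith
  have u1 : ∀ (a : X.A) y, (X.P a).θ (s + 1) y ≠ 0 → y ∈ (X.P a).U s := fun a y e =>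
    let ⟨z, hz, e⟩ := (X.okP a).of_θ hs1 e
    e ▸ (X.okP a).ψ_mem hs ((lt_add_one s).trans hz)
  let m (y : Z'.M) : ℝ := g y - ∑ a : {a // X.Act a}, c a * (X.P a).θ (s + 1) y ^ 2
  have m0 : support m ⊆ support g := fun y hy e => hy (by
    simp only [m, e, zero_sub, neg_eq_zero]
    refine Finset.sum_eq_zero fun a _ => ?_
    by_cases h : (X.P a).θ (s + 1) y = 0
    · simp [h]
    · rw [← hc a y (u1 a y h), e, zero_mul])
  have m1 : Sm Z'.I m := h1.sub (contMDiff_finsetSum fun a _ =>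
    contMDiff_const.mul ((X.cb_θ a hs1).choose_spec.1.pow 2))
  have m2 : HasCompactSupport m := X.hcs (s + 1 + 1) fun a y hy => by
    have hy' := (X.P a).U_mono (by linarith : s ≤ s + 1 + 1) hy
    by_cases ha : X.Act a
    · simp only [m]
      rw [Finset.sum_eq_single ⟨a, ha⟩ (fun a' _ e => by
        rw [X.θ_off (a := a) (fun h => e (Subtype.ext h.symm)) hs1 ((X.P a).U_mono hs hy'),
          zero_pow two_ne_zero, mul_zero]) (by simp), hc ⟨a, ha⟩ y hy',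
        show (X.P a).θ (s + 1) y = 1 from hc_one hy.2.le, one_pow, mul_one, sub_self]
    · exact by_contra fun e => Ends.off_U ha hs hy' (h4 (h3 (subset_tsupport g (m0 e))))
  have v0 := vf_tG d b m1 m2 ((closure_mono m0).trans h3) hS X.ok.sup hk
  have v1 : ∀ a : {a // X.Act a}, VF φ (fun y => c a * (X.P a).θ (s + 1) y ^ 2) Λ
      (X.ex a (O a) s k p' (q a) ∘L cc a) := fun a u y => by
    rw [ContinuousLinearMap.comp_apply, (mb a).val_ex hk, hcc]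
    by_cases e : (X.P a).θ (s + 1) y = 0
    · simp [e]
    obtain ⟨z, hz, rfl⟩ := (X.okP a).of_θ hs1 e
    have hz' : X.R ≤ (X.P a).sg * z.2 := hs1.trans hz.le
    rw [(X.P a).K.ψ.left_inv ((X.okP a).src hz'), ← (X.okP a).θ_ψ hz', smul_smul, smul_smul]
    congr 1; ring
  have v2 : VF φ g Λ (_ + ∑ a : {a // X.Act a}, X.ex a (O a) s k p' (q a) ∘L cc a) := fun u y => by
    rw [_root_.add_apply, val_add, Pi.add_apply, v0, _root_.sum_apply, val_sum]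
    simp only [v1 _ u y, ← Finset.sum_smul, ← add_smul, m, sub_add_cancel]
  refine ⟨_, v2, fun i => ContinuousLinearMap.ext fun u =>
    val_injective (X.supZ i (O i)).choose_spec hk (funext fun z => ?_)⟩
  rw [ContinuousLinearMap.comp_apply, (mb i).val_rs hk, v2, hcc]
  rcases le_or_gt ((X.P i).sg * z.2) (s + 1) with e | e
  · rw [show (X.P i).θZ (s + 1) z = 0 from hc_zero e, zero_smul, zero_smul]
  · rw [hc i _ ((X.okP i).ψ_mem hs ((lt_add_one s).trans e))]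

end ends

variable {b : BG κ lam Z} {b' : BG κ lam Z'} {O : Set Z.M} {O' : Set Z'.M} {k : ℕ} {δ : ℝ}
  {h : IC b O k δ} {h' : IC b' O' k δ} (A : Lnk b b' O O' h.c0 h'.c0)

theorem sa_csL {n n' : ℕ} (J : En (Fin n')) (c : ℂ) {u : Z.M → CL (An.Eu (Fin n)) (An.Eu (Fin n'))}
    {x : Z.M} (h : Wz78.SA Z.I u x) : Wz78.SA Z.I (fun y => Eqv71.csL J c ∘L u y) x :=
  sa_comp contMDiffAt_const h

theorem cq_end {X Y X' Y' X'' Y'' : Type} [NormedAddCommGroup X] [NormedSpace ℝ X]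
    [NormedAddCommGroup Y] [NormedSpace ℝ Y] [NormedAddCommGroup X'] [NormedSpace ℝ X']
    [NormedAddCommGroup Y'] [NormedSpace ℝ Y'] [NormedAddCommGroup X''] [NormedSpace ℝ X'']
    [NormedAddCommGroup Y''] [NormedSpace ℝ Y''] {T : X →L[ℝ] Y} {T' : X' →L[ℝ] Y'}
    {T'' : X'' →L[ℝ] Y''} {a : X →L[ℝ] X'} {a' : Y →L[ℝ] Y'} {r : X' →L[ℝ] X''} {r' : Y' →L[ℝ] Y''}
    {c : X →L[ℝ] X''} {c' : Y →L[ℝ] Y''} (h1 : Cq (r' ∘L T') (T'' ∘L r)) (h2 : Cq (T'' ∘L c) (c' ∘L T))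
    (e : r ∘L a = c) (e' : r' ∘L a' = c') : Cq (r' ∘L T' ∘L a) (r' ∘L a' ∘L T) := by
  subst e e'; exact (h1.right a).trans h2

theorem zz {V : Type} [NormedAddCommGroup V] [InnerProductSpace ℝ V] (c : ℝ) (v : V) :
    0 = c • (0 : ℝ) • v := by simp

namespace Lnk

theorem geq : GEq h.g.𝔉.B (h.g.𝔉.G h.g.t) h'.g.𝔉.B (h'.g.𝔉.G h'.g.t) A.p.φ A.p.U A.p.v := by
  rw [h.g.hB, h.g.hG, h'.g.hB, h'.g.hG]; exact A.p.g

theorem lg : Eqv71.LG h.g.𝔉.B (h.g.𝔉.G h.g.t) h'.g.𝔉.B (h'.g.𝔉.G h'.g.t) A.p.φ.source A.p.φ A.p.U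
    A.p.v := lg_of_geq A.geq h.g.X.ok.B (h.g.X.ok.G _ h.g.ht) h'.g.X.ok.B (h'.g.X.ok.G _ h'.g.ht)
  A.p.φ.open_source subset_rfl

theorem pr {x : Z.M} (hx : x ∈ A.p.φ.source) :
    PR (A.p.U x) (A.w x) (bd h.o) (bd h'.o) x (A.p.φ x) :=
  pr_of h.g.X.ok.B h'.g.X.ok.B ((A.lg.be x hx).phase h'.g.X.ok.B (A.ζ * A.ζ))
    ((me_of_meq A.ce.m hx).phase h'.o.ok A.ζ) (h.g.hO ▸ A.p.sub hx)
    (h'.g.hO ▸ A.p.sub' (A.p.φ.map_source hx)) (by rw [h.g.hO', h'.g.hO']; exact A.sp x hx)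

theorem sw {x : Z.M} (hx : x ∈ A.p.φ.source) : Wz78.SA Z.I A.w x :=
  sa_csL _ _ (A.ce.m.su.contMDiffAt (A.p.φ.open_source.mem_nhds hx))

theorem bmC : BM Z.I A.p.φ (bd h.o).pC (bd h'.o).pC A.LC :=
  ⟨fun x hx => (sa_ΛC (fun b a => A.lg.rot.sU b a x hx) (A.sw hx)).contMDiffWithinAt,
    fun _ hx v hv => ((A.pr hx).pC v).trans (congrArg _ hv)⟩

theorem bmF : BM Z.I A.p.φ (ps h.o.Pg (bd h.o).pE) (ps h'.o.Pg (bd h'.o).pE) A.LF :=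
  ⟨fun x hx => (sa_ΛF (fun b a => A.lg.rot.sU b a x hx) (A.sw hx)).contMDiffWithinAt,
    fun _ hx v hv => ((A.pr hx).pF v).trans (congrArg _ hv)⟩

theorem pd : PD A.p.φ.symm (Fs h'.g.𝔉 h'.g.t).toPre (Fs h.g.𝔉 h.g.t).toPre
    fun i j x => A.p.U x i j :=
  ⟨A.geq.sm', A.geq.sm, A.geq.sU, fun i _ hy =>
    (A.lg.symm (inv_of_geq' A.geq)).rot.fr' (geo_frm A.lg.hG') hy i⟩

theorem td : TDf A.p.φ h.g.𝔉.F0 h'.g.𝔉.F0 :=
  ⟨A.geq.sm, fun _ hK hs => A.pd.ld (h'.g.𝔉.G h'.g.t).F.toPre (h.g.𝔉.G h.g.t).F.toPre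
    (map_inv A.p.φ.open_source A.p.φ.open_target (fun _ hx => A.p.φ.continuousAt hx)
      (fun _ hy => A.p.φ.continuousAt_symm hy) (fun _ hx => A.p.φ.left_inv hx) A.geq.μ) hK hs _ _⟩

theorem int (hk : 7 ≤ k) {a : h.V →L[ℝ] h'.V} {a' : h.W →L[ℝ] h'.W} (ha : VF A.p.φ A.f' A.LC a)
    (ha' : VF A.p.φ A.f' A.LF a') {θ : Z'.M → ℝ} (s1 : Sm Z'.I θ) (s2 : HasCompactSupport θ) :
    Cq (smulH _ k _ θ ∘L h'.T ∘L a) (smulH _ k _ θ ∘L a' ∘L h.T) := by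
  have c := int_bd (k := k) ((adj_rem h.g.X.ok).hy h.o h.g.ht) ((adj_rem h'.g.X.ok).hy h'.o h'.g.ht)
    ((sb_u0 _ h.g.X.ok).cb _ h.g.ht) ((sb_u0 _ h'.g.X.ok).cb _ h'.g.ht) A.td (by omega) A.pd
    (fun _ => A.pr) A.bmC A.bmF (T := h.T) (T' := h'.T) (g := A.f') (θ := θ) (a := a) (a' := a')
    (fun _ => bridge_0 h.g.X.ok hk h.ch.aff h.hf _)
    (fun _ => bridge_0 h'.g.X.ok hk h'.ch.aff h'.hf _) A.sm' A.s' ha ha' s1 s2
  exact c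

theorem Ec.unif {P : End h'.g.𝔉} {s : ℝ} (e : A.Ec P s) :
    ∃ (ha : P.D.Adm (P.sl h'.o (h'.R + 1) h'.g.t)) (h0 : _) (eZ : _)
      (fZ : (refZ T0 δ ha h0).C 0 k → (refZ T0 δ ha h0).Y 0 0 k) (c : ℝ)
      (cC : h.V →L[ℝ] (famZ T0 P.D δ (P.O' h'.R)).F0.H (k + 1) (bd (refZ T0 δ ha h0)).pC)
      (cF : h.W →L[ℝ] (famZ T0 P.D δ (P.O' h'.R)).F0.H k
        (ps (refZ T0 δ ha h0).Pg (bd (refZ T0 δ ha h0)).pE)), CylOK (δ := δ) ha h0 k eZ ∧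
      P.Loc h'.o k δ h'.R h'.e h'.g.t ha h0 eZ ∧ RepF (fun _ => eZ) fZ ∧
      (∀ y ∈ P.U s, A.f' y = c) ∧
      (∀ u z, (famZ T0 P.D δ (P.O' h'.R)).F0.val (k + 1) _ (cC u) z = P.θZ (s + 1) z • c •
        A.LC (A.p.φ.symm (P.K.ψ z)) (h.g.𝔉.F0.val (k + 1) _ u (A.p.φ.symm (P.K.ψ z)))) ∧
      (∀ u z, (famZ T0 P.D δ (P.O' h'.R)).F0.val k _ (cF u) z = P.θZ (s + 1) z • c •
        A.LF (A.p.φ.symm (P.K.ψ z)) (h.g.𝔉.F0.val k _ u (A.p.φ.symm (P.K.ψ z)))) ∧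
      Cq (TT k fZ (yZ δ ha h0) ∘L cC) (cF ∘L h.T) := by
  obtain ⟨ha, h0, eZ, fZ, c1, c2, c3, e | ⟨e, cC, cF, v1, v2, q⟩⟩ := e
  · exact ⟨ha, h0, eZ, fZ, 0, 0, 0, c1, c2, c3, e,
      fun _ _ => (congrFun val_zero _).trans (zz _ _), fun _ _ => (congrFun val_zero _).trans (zz _ _),
      .of_eq ((ContinuousLinearMap.comp_zero _).trans (ContinuousLinearMap.zero_comp _).symm)⟩
  · exact ⟨ha, h0, eZ, fZ, 1, cC, cF, c1, c2, c3, e, fun u z => by rw [v1, one_smul],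
      fun u z => by rw [v2, one_smul], q⟩

end Lnk

/-- **IX-TRN** from the ends -/
theorem trn_of (hk : 7 ≤ k) (hE : EcStmt κ lam k) : TrnStmt κ lam k := by
  intro Z Z' b b' O O' δ h h' A hb hb'
  classical
  obtain ⟨s, ⟨e1, e2⟩, e3⟩ := (((eventually_all.2 (hE _ _ _ _ _ _ _ h h' A hb hb')).and
    (eventually_ge_atTop h'.R)).and (eventually_ge_atTop 1)).exists
  have hl := h'.ch.lit
  have e4 := hl.le.trans e2
  have E : ∀ a : {a // h'.g.X.Act a}, A.Ec (h'.g.X.P a) s := fun a =>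
    h'.g.f.apply_symm_apply a ▸ e1 (h'.g.f.symm a)
  choose ha h0 eZ fZ c cC cF c1 c2 c3 d1 d2 d3 d4 using fun a => (E a).unif
  have t : A.p.φ.target ⊆ h'.g.𝔉.Om := h'.g.hO ▸ A.p.sub'
  have mC := fun a : {a // h'.g.X.Act a} =>
    Ends.mbC (h := ha a) (h0 := h0 a) hl a.2 e2 e3 h'.g.ht
  have mF := fun a : {a // h'.g.X.Act a} =>
    Ends.mbF (h := ha a) (h0 := h0 a) hl a.2 e2 e3 h'.g.ht
  obtain ⟨aC, v1, r1⟩ := end_vf (cc := cC) e4 mC d1 d2 A.td A.bmC A.sm' A.s' t h.g.X.ok.sup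
    (by omega)
  obtain ⟨aF, v2, r2⟩ := end_vf (cc := cF) e4 mF d1 d3 A.td A.bmF A.sm' A.s' t h.g.X.ok.sup
    (by omega)
  refine ⟨aC, aF, v1, v2, cq_patch (r' := fun a => Ends.rF s k (ha a) (h0 a))
    (e' := fun a => Ends.xF s k (ha a) (h0 a)) (s' := smulH _ k _ (h'.g.X.θ0 s)) (fun a => ?_)
    (A.int hk v1 v2 (Ends.sm_θ0 e4) (Ends.hcs_θ0 e4)) (Ends.part (by omega) e4 mF
      fun a ha x hx => off_pF h'.g.X.ok.sub (Ends.off_U ha e4 hx))⟩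
  have l := (c1 a).loc (-(h'.g.X.P a).sg)
    ((h'.g.X.P a).sg_cases.symm.imp (by simp +contextual) (by simp +contextual))
  exact cq_end (Ends.bridge_rs hl a.2 e2 e3 hk h'.ch.aff h'.hf (c1 a).aff (c3 a) (c2 a) l _ rfl)
    (d4 a) (r1 a) (r2 a)

end Crest.Agent.X212.Cht98
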