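import Crest.Agent.X212.Map77.Rp
import Crest.Agent.X212.Eqv71.Cfg
import Crest.Agent.X212.Mod61.Tr

/-! Row 212, IX-TRN (helper98): the pointwise action of equivalences on fields and equations. -/

set_option autoImplicit false
set_option linter.unusedSectionVars false
noncomputable section
open scoped Manifold ContDiff Topology InnerProductSpace
open Set Function Filter

namespace Crest.Agent.X212.Cht98
open An An.Pre Sob92 Prm93 Map77 Ell97 Mod61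
open Eqv71 hiding idx_apply
open Wz78 (SA adc_skw inner_rk1 nab)

variable {E : Type} [NormedAddCommGroup E] [NormedSpace ℝ E] [FiniteDimensional ℝ E]
  [MeasurableSpace E] [BorelSpace E]
  {HM : Type} [TopologicalSpace HM] {I : ModelWithCorners ℝ E HM} [I.Boundaryless]
  {M : Type} [TopologicalSpace M] [ChartedSpace HM M] [IsManifold I ∞ M]
  [MeasurableSpace M] [T2Space M] [BorelSpace M] [SecondCountableTopology M]
  {E' : Type} [NormedAddCommGroup E'] [NormedSpace ℝ E'] [FiniteDimensional ℝ E']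
  [MeasurableSpace E'] [BorelSpace E']
  {HM' : Type} [TopologicalSpace HM'] {I' : ModelWithCorners ℝ E' HM'} [I'.Boundaryless]
  {M' : Type} [TopologicalSpace M'] [ChartedSpace HM' M'] [IsManifold I' ∞ M']
  [MeasurableSpace M'] [T2Space M'] [BorelSpace M'] [SecondCountableTopology M']

section alg
variable {ι ι' ι'' κ κ' κ'' : Type} [Fintype ι] [Fintype ι'] [Fintype ι''] [Fintype κ]
  [DecidableEq κ] [Fintype κ'] [DecidableEq κ'] [Fintype κ''] [DecidableEq κ'']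

/-- the action on fields -/
def ΛC (U : ι' → ι → ℝ) (w : CL (An.Eu κ) (An.Eu κ')) : CL (Cf ι κ) (Cf ι' κ') := sm2 (ridx U (cj w)) w

/-- the action on equations -/
def ΛF (U : ι' → ι → ℝ) (w : CL (An.Eu κ) (An.Eu κ')) :
    CL (P2 (HS κ) (Ef ι κ)) (P2 (HS κ') (Ef ι' κ')) := sm2 (cj w) (sm2 w (ridx (sq2 U) (cj w)))

variable (U : ι' → ι → ℝ) (w : CL (An.Eu κ) (An.Eu κ')) (U' : ι'' → ι' → ℝ) (w' : CL (An.Eu κ') (An.Eu κ''))

theorem cj_comp : cj w' ∘L cj w = cj (w' ∘L w) := ContinuousLinearMap.ext (cj_cj w w')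

theorem ΛC_ΛC (v : Cf ι κ) :
    ΛC U' w' (ΛC U w v) = ΛC (fun a c => ∑ b, U' a b * U b c) (w' ∘L w) v :=
  ext2 (by simp only [ΛC, f2_sm2, ridx_ridx, cj_comp]) (by simp [ΛC])

theorem ΛF_ΛF (v : P2 (HS κ) (Ef ι κ)) :
    ΛF U' w' (ΛF U w v) = ΛF (fun a c => ∑ b, U' a b * U b c) (w' ∘L w) v :=
  ext2 (by simp only [ΛF, f2_sm2, cj_cj]) (ext2 (by simp [ΛF])
    (by simp only [ΛF, s2_sm2, ridx_ridx, cj_comp, sq2_mul]))

theorem wd_ridx {X X' : Type} [NormedAddCommGroup X] [InnerProductSpace ℝ X] [NormedAddCommGroup X']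
    [InnerProductSpace ℝ X'] {P : ι → ι → ℝ} {P' : ι' → ι' → ℝ} (T : X →L[ℝ] X')
    (h1 : ∀ b a, ∑ k, P' b k * U k a = U b a) (h2 : ∀ b a, ∑ k, U b k * P k a = U b a) (a : ι)
    (α : Fm ι X) : ∑ b, U b a • wd2 X' P' b (ridx U T α) = ridx (sq2 U) T (wd2 X P a α) := by
  refine fm_ext fun s => ?_
  simp only [WithLp.ofLp_sum, Finset.sum_apply, PiLp.smul_apply, wd2_apply, smul_sub,
    Finset.sum_sub_distrib, smul_smul, ← Finset.sum_smul, mul_comm (U _ a), h1]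
  simp only [ridx_apply, wd2_apply, map_sub, map_smul, smul_sub, Finset.sum_sub_distrib,
    Fintype.sum_prod_type, sq2, smul_smul, Finset.smul_sum]
  rw [← h2 s.1 a, ← h2 s.2 a]
  simp only [Finset.sum_mul, Finset.sum_smul]
  congr 1
  · rw [Finset.sum_comm]; simp only [mul_right_comm]
  · simp only [mul_comm, mul_left_comm]

variable {d : Bd M ι κ} {d' : Bd M' ι' κ'} {x : M} {x' : M'}

variable (d d' x x') in
/-- pointwise related bundles -/
structure PR : Prop where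
  g : ∀ ξ, d'.g x' (cj w ξ) = cj w (d.g x ξ)
  p1 : ∀ α, d'.p1 x' (ridx U (cj w) α) = ridx U (cj w) (d.p1 x α)
  p2 : ∀ α, d'.p2 x' (ridx (sq2 U) (cj w) α) = ridx (sq2 U) (cj w) (d.p2 x α)
  sp : ∀ v, d'.sp x' (w v) = w (d.sp x v)
  sm : ∀ v, d'.sm x' (w v) = w (d.sm x v)
  ρ : ∀ a v, ∑ b, U b a • d'.ρ b x' (w v) = w (d.ρ a x v)
  PU : ∀ b a, ∑ k, d'.P b k x' * U k a = U b a
  UP : ∀ b a, ∑ k, U b k * d.P k a x = U b a
  UU : ∀ a a', ∑ b, U b a * U b a' = d.P a a' x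
  ig : ∀ ξ, cj (trn w ∘L w) (d.g x ξ) = d.g x ξ
  ip : ∀ v, trn w (w (d.sp x v)) = d.sp x v
  im : ∀ v, trn w (w (d.sm x v)) = d.sm x v

namespace PR
variable {U w} (h : PR U w d d' x x')
include h

theorem pC (v : Cf ι κ) : d'.pC x' (ΛC U w v) = ΛC U w (d.pC x v) :=
  ext2 (by simp only [ΛC, f2_ps, f2_sm2, h.p1]) (by simp only [ΛC, s2_ps, s2_sm2, h.sp])

theorem pF (v : P2 (HS κ) (Ef ι κ)) :
    ps d'.g d'.pE x' (ΛF U w v) = ΛF U w (ps d.g d.pE x v) :=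
  ext2 (by simp only [ΛF, f2_ps, f2_sm2, h.g]) (ext2
    (by simp only [ΛF, s2_ps, s2_sm2, f2_ps, f2_sm2, h.sm])
    (by simp only [ΛF, s2_ps, s2_sm2, h.p2]))

theorem iC (H : d.OK) {v : Cf ι κ} (hv : d.pC x v = v) :
    ΛC (fun a b => U b a) (trn w) (ΛC U w v) = v := by
  have e1 : d.p1 x (fa v) = fa v := maps_f2 x v hv
  have e2 : d.sp x (fp v) = fp v := maps_s2 x v hv
  rw [ΛC_ΛC]
  refine ext2 (fm_ext fun a => ?_) ?_
  · simp only [ΛC, f2_sm2, ridx_apply, h.UU]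
    rw [← e1, ← H.P_p1]
    exact Finset.sum_congr rfl fun b _ => by rw [← H.g_p1, h.ig]
  · rw [ΛC, s2_sm2, ← e2]; exact h.ip _

theorem iF (H : d.OK) {v : P2 (HS κ) (Ef ι κ)} (hv : ps d.g d.pE x v = v) :
    ΛF (fun a b => U b a) (trn w) (ΛF U w v) = v := by
  have e1 := maps_f2 x v hv
  have e2 := maps_f2 x _ (maps_s2 x v hv)
  have e3 := maps_s2 x _ (maps_s2 x v hv)
  rw [ΛF_ΛF]
  refine ext2 ?_ (ext2 ?_ (fm_ext fun s => ?_))
  · rw [ΛF, f2_sm2, ← e1, h.ig]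
  · rw [ΛF, s2_sm2, f2_sm2, ← e2]; exact h.im _
  simp only [ΛF, s2_sm2, ridx_apply, h.UU]
  have e := H.sd_p2 x (s2 _ _ (s2 _ _ v))
  have e4 := fun s => (congrArg (cj (trn w ∘L w)) (H.g_p2 x (s2 _ _ (s2 _ _ v)) s)).symm.trans
    ((h.ig _).trans (H.g_p2 x _ s))
  rw [e3] at e e4
  rw [← e.pr s.1 s.2]
  simp only [← e.pr' _ s.2, Finset.smul_sum, smul_smul, Fintype.sum_prod_type, sq2, e4]

/-- the symbols correspond -/
theorem σ (H : d.OK) (H' : d'.OK) (F : Fr I M ι) (F' : Fr I' M' ι') (u : M → Cf ι κ)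
    (u' : M' → Cf ι' κ') (a : ι) (v : Cf ι κ) :
    ∑ b, U b a • (d'.full F' u').σ b x' (ΛC U w v) = ΛF U w ((d.full F u).σ a x v) := by
  refine ext2 ?_ (ext2 ?_ ?_)
  · simp only [map_sum, map_smul, H'.full_σ1, ΛF, f2_sm2, H.full_σ1, ΛC, h.p1, ridx_apply,
      Finset.smul_sum, smul_smul]
    rw [Finset.sum_comm, ← H.P_p1]
    simp only [← Finset.sum_smul, h.UU, map_sum, map_smul]
  · simp only [map_sum, map_smul, H'.full_σ2, ΛF, f2_sm2, s2_sm2, H.full_σ2, ΛC, h.sp, h.ρ]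
  · rw [ΛF, s2_sm2, s2_sm2, Bd.OK.full_σ3, ← h.p2, ← wd_ridx U _ h.PU h.UP, ← h.p1, map_sum,
      map_sum, map_sum]
    refine Finset.sum_congr rfl fun b _ => ?_
    rw [map_smul, map_smul, map_smul, Bd.OK.full_σ3, ΛC, f2_sm2]

end PR
end alg

end Crest.Agent.X212.Cht98
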