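import Crest.Agent.X212.Cht98.TrD
import Crest.Agent.X212.Cht98.TrB
import Crest.Agent.X212.Nk89.Asy

/-! Row 212, IX-TRN (helper98): charts of the index, the transport statements. -/

set_option autoImplicit false
set_option linter.unusedSectionVars false
noncomputable section
open scoped Manifold ContDiff Topology InnerProductSpace
open MeasureTheory Set Function Filter

namespace Crest.Agent.X212.Cht98
open An M Nd18 Nk89 Map77 Mod61 Cyf70 Fred93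
open Eqv71 (csL)

variable {κ lam : Type} [Fintype κ] [Fintype lam] {Z Z' : Mf 4}

/-- a chart of the index -/
structure IC (b : BG κ lam Z) (O : Set Z.M) (k : ℕ) (δ : ℝ) : Type 1 where
  g : b.GR O δ
  o : Ref g.𝔉
  R : ℝ
  r : ℕ
  n : ℕ
  m : ℕ
  e : g.T → PtX Z.M (Option κ) lam r n m
  ch : g.Ch k o R e
  f : o.C r k → o.Y n m k
  hf : RepF e f

namespace IC
variable {b : BG κ lam Z} {O : Set Z.M} {k : ℕ} {δ : ℝ} (h : IC b O k δ)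

/-- the base configuration -/
abbrev c0 : C0 Z κ lam := noz (pt0 h.o h.r h.g.ht).cfg

/-- fields -/
abbrev V : Type := h.g.𝔉.F0.H (k + 1) (bd h.o).pC

/-- equations -/
abbrev W : Type := h.g.𝔉.F0.H k (ps h.o.Pg (bd h.o).pE)

/-- the linearisation -/
abbrev T : h.V →L[ℝ] h.W := TT k h.f (pt0 h.o h.r h.g.ht)

theorem ix_iff (hk : 7 ≤ k) {c : C0 Z κ lam} {d : ℤ} : b.Ix O c k δ d ↔ ∃ h : IC b O k δ,
    (∃ u ζ, Mod61.EqOn b.B b.G.F b.O ⟨c.m, c.W, O.indicator c.Φ, 0⟩ h.c0 u ζ) ∧ Fr h.T d :=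
  ⟨fun ⟨g, o, R, r, n, m, e, ch, h1, h2⟩ =>
    let ⟨f, hf⟩ := (adj_rem g.X.ok).rp ch.aff k hk
    ⟨⟨g, o, R, r, n, m, e, ch, f, hf⟩, h1, (idx_iff g.X.ok (by omega) hf _).1 h2⟩,
    fun ⟨h, h1, h2⟩ => ⟨h.g, h.o, h.R, h.r, h.n, h.m, h.e, h.ch, h1,
      (idx_iff h.g.X.ok (by omega) h.hf _).2 h2⟩⟩

end IC

namespace Lnk
variable {b : BG κ lam Z} {b' : BG κ lam Z'} {O : Set Z.M} {O' : Set Z'.M} {k : ℕ} {δ : ℝ}
  {h : IC b O k δ} {h' : IC b' O' k δ} (A : Lnk b b' O O' h.c0 h'.c0)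

/-- the map of the modules, with the phase -/
def w (x : Z.M) : CL h.o.m.V h'.o.m.V := csL h'.o.m.J A.ζ ∘L A.u x

/-- the action on fields -/
abbrev LC (x : Z.M) : CL (Cf (Option κ) (Fin h.o.m.N)) (Cf (Option κ) (Fin h'.o.m.N)) :=
  ΛC (A.p.U x) (A.w x)

/-- the action on equations -/
abbrev LF (x : Z.M) : CL (P2 (HS (Fin h.o.m.N)) (Ef (Option κ) (Fin h.o.m.N)))
    (P2 (HS (Fin h'.o.m.N)) (Ef (Option κ) (Fin h'.o.m.N))) := ΛF (A.p.U x) (A.w x)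

end Lnk

variable (κ lam) in
/-- **IX-TRN**: a link of charts transports fields and equations, and the linearisations commute
with the transports up to a compact operator -/
def TrnStmt (k : ℕ) : Prop := ∀ (Z Z' : Mf 4) (b : BG κ lam Z) (b' : BG κ lam Z') O O' δ
  (h : IC b O k δ) (h' : IC b' O' k δ) (A : Lnk b b' O O' h.c0 h'.c0), b.OK O → b'.OK O' →
  ∃ (aC : h.V →L[ℝ] h'.V) (aF : h.W →L[ℝ] h'.W),
    (∀ u y, h'.g.𝔉.F0.val (k + 1) _ (aC u) y =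
      A.f' y • A.LC (A.p.φ.symm y) (h.g.𝔉.F0.val (k + 1) _ u (A.p.φ.symm y))) ∧
    (∀ u y, h'.g.𝔉.F0.val k _ (aF u) y =
      A.f' y • A.LF (A.p.φ.symm y) (h.g.𝔉.F0.val k _ u (A.p.φ.symm y))) ∧
    Cq (h'.T ∘L aC) (aF ∘L h.T)

variable (κ lam) in
/-- **IX-NATZ**: limits which are equivalent high up along a translation are equivalent by a
`t`-invariant map, whose transport intertwines the linearisations on the cylinders -/
def NatZ (k : ℕ) : Prop := ∀ (X : XD κ lam) (δ : ℝ) (β β' : X.C) (O O' : Set (X.Y.M × ℝ))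
  (h : X.D.Adm β) (h' : X.D.Adm β') (h0 : ∀ x ∉ O, β.Φ x.1 = 0) (h0' : ∀ x ∉ O', β'.Φ x.1 = 0)
  (f : (refZ T0 δ h h0).C 0 k → (refZ T0 δ h h0).Y 0 0 k)
  (f' : (refZ T0 δ h' h0').C 0 k → (refZ T0 δ h' h0').Y 0 0 k) (sg s l : ℝ)
  (w : X.Y.M × ℝ → CL β.m.V β'.m.V) (ζ : Circle), X.OK → (famZ T0 X.D δ O).OK →
  (famZ T0 X.D δ O').OK → (∀ z z', z ∈ O ↔ z' ∈ O') → sg = 1 ∨ sg = -1 → RepF (fun _ => eZ X.N X.D) f → RepF (fun _ => eZ X.N X.D) f' →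
  CEq X.D.Z (cy β) (cy β') {z | s < sg * z.2} (fun z => (z.1, z.2 + l))
    (fun z i j => X.D.B.P i j z) X.D.B.l w ζ →
  ∃ (w₀ : X.Y.M → CL β.m.V β'.m.V)
    (τC : (famZ T0 X.D δ O).F0.H (k + 1) (bd (refZ T0 δ h h0)).pC →L[ℝ]
      (famZ T0 X.D δ O').F0.H (k + 1) (bd (refZ T0 δ h' h0')).pC)
    (τF : (famZ T0 X.D δ O).F0.H k (ps (refZ T0 δ h h0).Pg (bd (refZ T0 δ h h0)).pE) →L[ℝ]
      (famZ T0 X.D δ O').F0.H k (ps (refZ T0 δ h' h0').Pg (bd (refZ T0 δ h' h0')).pE)),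
    (∀ z : X.Y.M × ℝ, s < sg * z.2 → w z = w₀ z.1) ∧
    (∀ u z, (famZ T0 X.D δ O').F0.val (k + 1) _ (τC u) (z.1, z.2 + l) =
      ΛC (fun i j => X.D.B.P i j z) (csL β'.m.J ζ ∘L w₀ z.1)
        ((famZ T0 X.D δ O).F0.val (k + 1) _ u z)) ∧
    (∀ u z, (famZ T0 X.D δ O').F0.val k _ (τF u) (z.1, z.2 + l) =
      ΛF (fun i j => X.D.B.P i j z) (csL β'.m.J ζ ∘L w₀ z.1) ((famZ T0 X.D δ O).F0.val k _ u z)) ∧
    ∀ u : Sec (Cyf70.IC X.Y.I) (bd (refZ T0 δ h h0)).pC,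
      (∀ z, u.1 z = 0 ∨ 1 < sg * z.2 ∧ 1 < sg * (z.2 + l)) →
      TT k f' (yZ δ h' h0') (τC ((famZ T0 X.D δ O).F0.toH _ _ u)) =
        τF (TT k f (yZ δ h h0) ((famZ T0 X.D δ O).F0.toH _ _ u))

end Crest.Agent.X212.Cht98
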