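import Crest.Agent.X212.Map77.Tw
import Crest.Agent.X212.Sob92.Iso
import Crest.Agent.X212.Met55.Mix

/-! Row 212, IX-TRN (helper98): transport along diffeomorphisms which are not isometries. -/

set_option autoImplicit false
set_option linter.unusedSectionVars false
noncomputable section
open scoped Manifold ContDiff Topology InnerProductSpace NNReal
open MeasureTheory Set Function Filter

namespace Crest.Agent.X212.Cht98
open An An.Pre Sob92 Prm93 Map77 Ell97

variable {E : Type} [NormedAddCommGroup E] [NormedSpace ℝ E] [FiniteDimensional ℝ E]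
  [MeasurableSpace E] [BorelSpace E]
  {HM : Type} [TopologicalSpace HM] {I : ModelWithCorners ℝ E HM} [I.Boundaryless]
  {M : Type} [TopologicalSpace M] [ChartedSpace HM M] [IsManifold I ∞ M]
  [MeasurableSpace M] [T2Space M] [BorelSpace M] [SecondCountableTopology M]
  {E' : Type} [NormedAddCommGroup E'] [NormedSpace ℝ E'] [FiniteDimensional ℝ E']
  [MeasurableSpace E'] [BorelSpace E']
  {HM' : Type} [TopologicalSpace HM'] {I' : ModelWithCorners ℝ E' HM'} [I'.Boundaryless]
  {M' : Type} [TopologicalSpace M'] [ChartedSpace HM' M'] [IsManifold I' ∞ M']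
  [MeasurableSpace M'] [T2Space M'] [BorelSpace M'] [SecondCountableTopology M']
  {ι ι' κ κ' : Type} [Fintype ι] [Fintype ι'] [Fintype κ] [Fintype κ']
  {N : Type} [NormedAddCommGroup N] [NormedSpace ℝ N]
  {V W V' W' : Type} [NormedAddCommGroup V] [InnerProductSpace ℝ V] [FiniteDimensional ℝ V]
  [NormedAddCommGroup W] [InnerProductSpace ℝ W] [FiniteDimensional ℝ W]
  [NormedAddCommGroup V'] [InnerProductSpace ℝ V'] [FiniteDimensional ℝ V']
  [NormedAddCommGroup W'] [InnerProductSpace ℝ W'] [FiniteDimensional ℝ W']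
  {φ : OpenPartialHomeomorph M M'} {K : Set M'} {j k : ℕ}

theorem sm_pull' (h : ContMDiffOn I I' ∞ φ φ.source) {u : M' → N} (hu : Sm I' u)
    (ha : Adm φ (tsupport u)) : Sm I (pull φ u) := fun x => by
  by_cases hx : x ∈ φ.source
  · exact ((hu _).comp x (h.contMDiffAt (φ.open_source.mem_nhds hx))).congr_of_eventuallyEq
      (pull_eventuallyEq hx u)
  · exact contMDiffAt_const.congr_of_eventuallyEq
      (notMem_tsupport_iff_eventuallyEq.1 fun h' => hx (ha.tsupport_pull h').1)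

theorem sm_of_on {O K : Set M} (hO : IsOpen O) (hK : IsClosed K) (h : K ⊆ O) {f : M → N}
    (hf : ContMDiffOn I 𝓘(ℝ, N) ∞ f O) (hs : support f ⊆ K) : Sm I f :=
  contMDiff_of_tsupport fun _ hx => hf.contMDiffAt (hO.mem_nhds (h (closure_minimal hs hK hx)))

theorem cb_of_on {F : Pre I M ι} {O K : Set M} (hO : IsOpen O) (hK : IsCompact K) (h : K ⊆ O)
    {f : M → N} (hf : ContMDiffOn I 𝓘(ℝ, N) ∞ f O) (hs : support f ⊆ K) : F.Cb f :=
  Cb_of_hcs (sm_of_on hO hK.isClosed h hf hs)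
    (hK.of_isClosed_subset (isClosed_tsupport f) (closure_minimal hs hK.isClosed))

theorem D_chain {F : Pre I M ι} {F' : Pre I' M' ι'} (h : ContMDiffOn I I' ∞ φ φ.source) {x : M}
    (hx : x ∈ φ.source) {a : ι} {r : ι' → ℝ}
    (e : mfderiv I I' φ x (F.e a x) = ∑ b, r b • F'.e b (φ x)) {u : M' → N} (hu : Sm I' u) :
    F.D a (pull φ u) x = ∑ b, r b • F'.D b u (φ x) := by
  have h1 := mfderiv_comp_apply x (md hu (φ x))
    ((h.contMDiffAt (φ.open_source.mem_nhds hx)).mdifferentiableAt (by simp)) (F.e a x)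
  rw [e, map_sum] at h1
  simp only [map_smul] at h1
  exact (dv_congr (pull_eventuallyEq hx u)).trans h1

/-- multiply by the coefficient field `f` and transport -/
def tG (F : Pre I M ι) (F' : Pre I' M' ι') (φ : OpenPartialHomeomorph M M') (k : ℕ)
    (p' : M' → V →L[ℝ] V) (q : M → W →L[ℝ] W) (f : M' → V →L[ℝ] W) : F'.H k p' →L[ℝ] F.H k q :=
  F'.liftT k k p' F q fun u => pull φ fun y => f y (u y)

variable (φ K) in
/-- `φ` is bounded with all derivatives over `K` -/
structure LD (F : Pre I M ι) (F' : Pre I' M' ι') : Prop where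
  sm : ContMDiffOn I I' ∞ φ φ.source
  adm : Adm φ K
  D : ∃ A : ι → ι' → M' → ℝ, (∀ a b, F'.Cb (A a b)) ∧ ∀ a, ∀ x ∈ φ.source, φ x ∈ K →
    mfderiv I I' φ x (F.e a x) = ∑ b, A a b (φ x) • F'.e b (φ x)
  μ : ∃ c : ℝ≥0, ∀ g : M' → ℝ, Continuous g → HasCompactSupport g → (∀ y, 0 ≤ g y) →
    tsupport g ⊆ K → ∫ x, pull φ g x ∂F.μ ≤ c * ∫ y, g y ∂F'.μ

namespace LD
variable {F : Pre I M ι} {F' : Pre I' M' ι'} (h : LD φ K F F')
include h

theorem adm' {u : M' → N} (hu : tsupport u ⊆ K) : Adm φ (tsupport u) :=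
  h.adm.mono (isClosed_tsupport u) hu

theorem nrm (k : ℕ) : ∃ C, 0 ≤ C ∧ ∀ u : M' → V, Sm I' u → HasCompactSupport u →
    tsupport u ⊆ K → F.nrm k (pull φ u) ≤ C * F'.nrm k u := by
  obtain ⟨A, hA, hD⟩ := h.D
  obtain ⟨c, hc⟩ := h.μ
  obtain ⟨B, hB⟩ := Cb_unif (f := fun s : ι × ι' => A s.1 s.2) fun s => hA s.1 s.2
  have h0 : ∀ u : M' → V, Sm I' u → HasCompactSupport u → tsupport u ⊆ K →
      F.nrm 0 (pull φ u) ≤ √c * F'.nrm 0 u := fun u hu h1 h2 => by
    have s : support (fun y => ⟪u y, u y⟫_ℝ) ⊆ support u := fun y hy e => hy (by simp [e])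
    rw [Pre.nrm, Pre.nrm, ← Real.sqrt_mul c.coe_nonneg]
    refine Real.sqrt_le_sqrt (le_trans (le_of_eq ?_) (hc _ (hu.continuous.inner hu.continuous)
      (h1.mono s) (fun _ => real_inner_self_nonneg) ((closure_mono s).trans h2)))
    refine integral_congr_ae (.of_forall fun x => ?_)
    by_cases hx : x ∈ φ.source <;> simp [pull_of_mem, pull_of_notMem, hx]
  have hd : ∀ u : M' → V, Sm I' u → tsupport u ⊆ K → ∀ a,
      F.D a (pull φ u) = pull φ fun y => ∑ b, A a b y • F'.D b u y := fun u hu h2 a =>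
    funext fun x => by
      by_cases hx : x ∈ φ.source
      · rw [pull_of_mem hx]
        by_cases hk : φ x ∈ K
        · exact D_chain h.sm hx (hD a x hx hk) hu
        · have : ∀ b, F'.D b u (φ x) = 0 := fun b => dv_eq_zero_of_notMem fun e => hk (h2 e)
          simp only [this, smul_zero, Finset.sum_const_zero]
          exact dv_eq_zero_of_notMem fun e => hk (h2 ((h.adm' h2).tsupport_pull e).2)
      · rw [pull_of_notMem hx]
        exact dv_eq_zero_of_notMem fun e => hx ((h.adm' h2).tsupport_pull e).1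
  induction k with
  | zero => exact ⟨_, Real.sqrt_nonneg _, h0⟩
  | succ k ih =>
    obtain ⟨C, C0, hC⟩ := ih
    have hK := cK_nonneg (ι := ι') k
    refine ⟨√c + Fintype.card ι * (C * (Fintype.card ι' * (cK ι' k * |B k|))), by positivity,
      fun u hu h1 h2 => ?_⟩
    have s1 : ∀ a b, Sm I' fun y => A a b y • F'.D b u y := fun a b =>
      (hB (a, b)).1.smul (F'.sm_D hu b)
    have s2 : ∀ a, support (fun y => ∑ b, A a b y • F'.D b u y) ⊆ tsupport u := fun a y hy =>
      by_contra fun e => hy (Finset.sum_eq_zero fun b _ => by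
        rw [show F'.D b u y = 0 from dv_eq_zero_of_notMem e, smul_zero])
    have s3 := fun a => closure_minimal (s2 a) (isClosed_tsupport u)
    have h3 : ∀ a, F'.nrm k (fun y => ∑ b, A a b y • F'.D b u y) ≤
        Fintype.card ι' * (cK ι' k * |B k|) * F'.nrm (k + 1) u := fun a => by
      refine (nrm_sum_le Finset.univ k (u := fun b y => A a b y • F'.D b u y) (fun b _ => s1 a b)
        fun b _ => (F'.hcs_D h1 b).mono fun x hx h => hx (by simp [h])).trans ?_
      refine (Finset.sum_le_sum fun b _ => (nrm_smul (hB (a, b)).1 (F'.sm_D hu b)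
        ((hB (a, b)).2 k) (FL_of_hcs k (F'.sm_D hu b) (F'.hcs_D h1 b))).trans
        (mul_le_mul_of_nonneg_left (nrm_D_le k u b) (by positivity))).trans (le_of_eq ?_)
      simp [mul_assoc]
    have h4 := (h0 u hu h1 h2).trans
      (mul_le_mul_of_nonneg_left (nrm_mono (Nat.zero_le (k + 1)) u) (Real.sqrt_nonneg _))
    have h5 := Finset.sum_le_sum fun a (_ : a ∈ Finset.univ) => ((hd u hu h2 a).symm ▸
      hC _ (contMDiff_finsetSum fun b _ => s1 a b)
        (h1.of_isClosed_subset (isClosed_tsupport _) (s3 a)) ((s3 a).trans h2) :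
          F.nrm k (F.D a (pull φ u)) ≤ _).trans (mul_le_mul_of_nonneg_left (h3 a) C0)
    rw [Finset.sum_const, Finset.card_univ, nsmul_eq_mul] at h5
    exact (nrm_succ_le k _).trans ((add_le_add h4 h5).trans (le_of_eq (by ring)))

variable {p' : M' → V →L[ℝ] V} {q : M → W →L[ℝ] W} {f : M' → V →L[ℝ] W}

theorem rep (hf : F'.Cb f) (hs : tsupport f ⊆ K)
    (hm : ∀ x ∈ φ.source, ∀ v, p' (φ x) v = v → q x (f (φ x) v) = f (φ x) v) :
    F'.RepT F (tG F F' φ k p' q f) fun u => pull φ fun y => f y (u y) := by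
  obtain ⟨B, hf, hB⟩ := hf
  obtain ⟨C, C0, hC⟩ := h.nrm (V := W) k
  have h1 : ∀ u : M' → V, tsupport (fun y => f y (u y)) ⊆ K := fun u =>
    (closure_mono (show support (fun y => f y (u y)) ⊆ support f from
      fun y hy h' => hy (by simp [h']))).trans hs
  have h2 : ∀ u ∈ Sec I' p', HasCompactSupport fun y => f y (u y) := fun u hu =>
    hu.2.1.mono fun y hy h' => hy (by simp [h'])
  refine (rep_liftT (fun u hu => ⟨sm_pull' h.sm (hf.clm_apply hu.1) (h.adm' (h1 u)),
    hcs_pull (h2 u hu) ((h1 u).trans h.adm.1), fun x => ?_⟩) (fun u _ v _ => ?_) (fun c u _ => ?_)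
    (mul_nonneg C0 (mul_nonneg (cK_nonneg (ι := ι') k) (abs_nonneg (B k)))) fun u hu => ?_).1
  · by_cases hx : x ∈ φ.source
    · rw [pull_of_mem hx]; exact hm x hx _ (hu.2.2 _)
    · rw [pull_of_notMem hx, map_zero]
  · rw [← pull_add]; congr 1; funext y; simp
  · rw [← pull_smul]; congr 1; funext y; simp
  · rw [mul_assoc]
    exact (hC _ (hf.clm_apply hu.1) (h2 u hu) (h1 u)).trans (mul_le_mul_of_nonneg_left
      (nrm_app hf hu.1 (hB k) (FL_of_hcs k hu.1 hu.2.1)) C0)

end LD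

/-- values of transported sections -/
theorem val_pull {F : Pre I M ι} {F' : Pre I' M' ι'} {p' : M' → V →L[ℝ] V} {q : M → W →L[ℝ] W}
    {f : M' → V →L[ℝ] W} {A : F'.H k p' →L[ℝ] F.H j q}
    (r : F'.RepT F A fun u => pull φ fun y => f y (u y)) {S S' : ℝ} (hS : Sup F S)
    (hS' : Sup F' S') (hk : 4 ≤ k) (hj : 4 ≤ j) (u : F'.H k p') (x : M) :
    F.val j q (A u) x = pull φ (fun y => f y (F'.val k p' u y)) x := by
  by_cases hx : x ∈ φ.source
  · rw [pull_of_mem hx]
    refine H_eq (f := fun u => F.ev j q x (A u)) (g := fun u => f (φ x) (F'.ev k p' (φ x) u))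
      (by fun_prop) (by fun_prop) (fun u => ?_) u
    rw [RepT_toH r, (ev_spec hS hj x).1, (ev_spec hS' hk _).1]
    exact pull_of_mem hx _
  · rw [pull_of_notMem hx]
    refine H_eq (f := fun u => F.ev j q x (A u)) (g := fun _ => 0)
      (by fun_prop) (by fun_prop) (fun u => ?_) u
    rw [RepT_toH r, (ev_spec hS hj x).1]
    exact pull_of_notMem hx _

variable (φ) in
/-- `φ` is smooth and rotates the frames by `R` -/
structure PD (G : Pre I M ι) (G' : Pre I' M' ι') (R : ι → ι' → M' → ℝ) : Prop where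
  sm : ContMDiffOn I I' ∞ φ φ.source
  sm' : ContMDiffOn I' I ∞ φ.symm φ.target
  sR : ∀ a b, ContMDiffOn I' 𝓘(ℝ, ℝ) ∞ (R a b) φ.target
  e : ∀ a, ∀ x ∈ φ.source, mfderiv I I' φ x (G.e a x) = ∑ b, R a b (φ x) • G'.e b (φ x)

theorem int_le {μ ν : Measure M} [IsFiniteMeasureOnCompacts ν] {K : Set M} {c : ℝ≥0}
    (h : μ.restrict K ≤ c • ν) {g : M → ℝ} (hg : Continuous g) (hc : HasCompactSupport g)
    (h0 : ∀ x, 0 ≤ g x) (hs : support g ⊆ K) : ∫ x, g x ∂μ ≤ c * ∫ x, g x ∂ν := by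
  have := integral_mono_measure h (.of_forall h0)
    (hg.integrable_of_hasCompactSupport hc).smul_measure_nnreal
  rwa [integral_smul_nnreal_measure, setIntegral_eq_integral_of_forall_compl_eq_zero
    fun x hx => by_contra fun e => hx (hs e)] at this

theorem int_pull {μ : Measure M} {μ' : Measure M'}
    (h : (μ.restrict φ.source).map φ = μ'.restrict φ.target) {g : M' → ℝ} (hg : Continuous g)
    (hs : support g ⊆ φ.target) : ∫ x, pull φ g x ∂μ = ∫ y, g y ∂μ' := by
  rw [pull, integral_indicator φ.open_source.measurableSet,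
    ← setIntegral_eq_integral_of_forall_compl_eq_zero (s := φ.target) (μ := μ')
      fun y hy => by_contra fun h' => hy (hs h'), ← h,
    integral_map (φ.continuousOn.aemeasurable φ.open_source.measurableSet)
      hg.aestronglyMeasurable]
  rfl

theorem cont_pull {g : M' → N} (hg : Continuous g) (ha : Adm φ (tsupport g)) :
    Continuous (pull φ g) := continuous_iff_continuousAt.2 fun x => by
  by_cases hx : x ∈ φ.source
  · exact (hg.continuousAt.comp (φ.continuousAt hx)).congr (pull_eventuallyEq hx g).symm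
  · exact continuousAt_const.congr
      (notMem_tsupport_iff_eventuallyEq.1 fun h' => hx (ha.tsupport_pull h').1).symm

namespace PD
variable {G : Pre I M ι} {G' : Pre I' M' ι'} {R : ι → ι' → M' → ℝ} (h : PD φ G G' R)
  {F : Pre I M κ} {F' : Pre I' M' κ'}
include h

theorem son {f : M → N} (hf : Sm I f) : ContMDiffOn I' 𝓘(ℝ, N) ∞ (fun y => f (φ.symm y)) φ.target :=
  hf.comp_contMDiffOn h.sm'

theorem mix (F : Pre I M κ) (F' : Pre I' M' κ') : ∃ R', PD φ F F' R' := by
  obtain ⟨h1, s1⟩ := mix_fT G F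
  obtain ⟨h2, s2⟩ := mix_fT F' G'
  refine ⟨fun a d y => ∑ c, ∑ b, Met55.fT G.e (F.e a) (φ.symm y) c *
    (R c b y * Met55.fT F'.e (G'.e b) y d), h.sm, h.sm', fun a d => contMDiffOn_finsetSum fun c _ =>
      contMDiffOn_finsetSum fun b _ => (h.son (s1 a c)).mul ((h.sR c b).mul (s2 b d).contMDiffOn),
    fun a x hx => ?_⟩
  rw [h1 a x, map_sum]
  simp only [map_smul, h.e _ x hx, h2 _ (φ x), φ.left_inv hx, Finset.smul_sum, smul_smul,
    Finset.sum_smul]
  rw [Finset.sum_comm (s := Finset.univ (α := κ'))]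
  exact Finset.sum_congr rfl fun c _ => Finset.sum_comm

/-- over compact sets every diffeomorphism is bounded -/
theorem ld (G₀ : Pre I M ι) (G₀' : Pre I' M' ι')
    (hμ : (G₀.μ.restrict φ.source).map φ = G₀'.μ.restrict φ.target) (hK : IsCompact K)
    (hs : K ⊆ φ.target) (F : Pre I M κ) (F' : Pre I' M' κ') : LD φ K F F' := by
  obtain ⟨R', h'⟩ := h.mix F F'
  obtain ⟨χ, c1, c2, c3, -, c4⟩ := Met55.exists_cut (I := I') hK φ.open_target hs
  have ha := Adm.of_isCompact hK hs
  have hK₀ : IsCompact (φ.source ∩ φ ⁻¹' K) := φ.symm_image_eq_source_inter_preimage hs ▸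
    hK.image_of_continuousOn (φ.continuousOn_symm.mono hs)
  obtain ⟨c, hc⟩ := meas_le_compact G₀ F hK₀
  obtain ⟨c', hc'⟩ := meas_le_compact F' G₀' hK
  refine ⟨h.sm, ha, ⟨fun a b y => χ y * R' a b y, fun a b => cb_of_on φ.open_target c2 c3
    (c1.contMDiffOn.mul (h'.sR a b)) fun y hy => subset_tsupport χ (left_ne_zero_of_mul hy),
    fun a x hx hk => by simp only [(c4 _ hk).self_of_nhds, Pi.one_apply, one_mul, h'.e a x hx]⟩,
    c * c', fun g g1 g2 g3 g4 => ?_⟩
  have a := ha.mono (isClosed_tsupport g) g4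
  have := G₀.fin
  have := F'.fin
  refine (int_le hc (cont_pull g1 a) (hcs_pull g2 (g4.trans hs)) (fun x => ?_) fun x hx => ?_).trans ?_
  · by_cases hx : x ∈ φ.source <;> simp [pull_of_mem, pull_of_notMem, hx, g3]
  · exact (inter_subset_inter_right _ (preimage_mono g4)) (a.tsupport_pull (subset_tsupport _ hx))
  · rw [int_pull hμ g1 ((subset_tsupport g).trans (g4.trans hs)), NNReal.coe_mul, mul_assoc]
    exact mul_le_mul_of_nonneg_left (int_le hc' g1 g2 g3 ((subset_tsupport g).trans g4)) c.2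

end PD

/-- **transport commutes with operators whose symbols correspond, up to order zero** -/
theorem comm_ld {F : Fr I M κ} {G : Fr I M ι} {F' : Fr I' M' κ'} {G' : Fr I' M' ι'}
    {R : ι → ι' → M' → ℝ} {A : Op M ι V W} {A' : Op M' ι' V' W'} {cV : M' → V' →L[ℝ] V}
    {cW : M' → W' →L[ℝ] W} (h : LD φ K F.toPre F'.toPre) (hK : IsCompact K)
    (g : PD φ G.toPre G'.toPre R) (t : Tw F G) (t' : Tw F' G') (hA : Nc F.toPre G.P A)
    (hA' : Nc F'.toPre G'.P A') (c1 : F'.Cb cV) (c2 : F'.Cb cW) (s1 : tsupport cV ⊆ K)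
    (s2 : tsupport cW ⊆ K)
    (m1 : ∀ x ∈ φ.source, ∀ v, A'.p (φ x) v = v → A.p x (cV (φ x) v) = cV (φ x) v)
    (m2 : ∀ x ∈ φ.source, ∀ v, A'.q (φ x) v = v → A.q x (cW (φ x) v) = cW (φ x) v)
    (hσ : ∀ x ∈ φ.source, ∀ b v,
      ∑ a, R a b (φ x) • A.σ a x (cV (φ x) v) = cW (φ x) (A'.σ b (φ x) v)) :
    ∃ L, tG F.toPre F'.toPre φ k A'.q A.q cW ∘L LH F'.toPre G'.toPre k A'.p A'.q A' =
      LH F.toPre G.toPre k A.p A.q A ∘L tG F.toPre F'.toPre φ (k + 1) A'.p A.p cV +
        F.incl (k + 1) k A.q ∘L L := by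
  have sV := c1.choose_spec.1
  have sW := c2.choose_spec.1
  have z1 : ∀ y ∉ K, cV y = 0 := fun y hy => image_eq_zero_of_notMem_tsupport fun e => hy (s1 e)
  have z2 : ∀ y ∉ K, cW y = 0 := fun y hy => image_eq_zero_of_notMem_tsupport fun e => hy (s2 e)
  have z3 : ∀ b, ∀ y ∉ K, G'.D b cV y = 0 := fun b y hy => dv_eq_zero_of_notMem fun e => hy (s1 e)
  have s3 : support (fun y => cW y ∘L A'.B y - (A.B (φ.symm y) ∘L cV y +
      ∑ a, ∑ b, R a b y • A.σ a (φ.symm y) ∘L G'.D b cV y)) ⊆ K := fun y hy =>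
    by_contra fun e => hy (by simp [z1 y e, z2 y e, z3 _ y e])
  have c3 : F'.Cb _ := cb_of_on φ.open_target hK h.adm.1
    ((sW.clm_comp hA'.B.choose_spec.1).contMDiffOn.sub (((g.son hA.B.choose_spec.1).clm_comp
      sV.contMDiffOn).add (contMDiffOn_finsetSum fun a _ => contMDiffOn_finsetSum fun b _ =>
        (g.sR a b).smul ((g.son (hA.σ a).choose_spec.1).clm_comp (G'.sm_D sV b).contMDiffOn)))) s3
  refine ⟨_, RepT_eq (RepT_comp (h.rep c2 s2 m2) (t'.rep hA' k)) (RepT_add (RepT_comp (t.rep hA k)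
    (h.rep c1 s1 m1)) (RepT_comp (rep_incl k.le_succ) (h.rep c3 (closure_minimal s3 hK.isClosed)
      fun x hx v _ => ?_))) fun u => funext fun x => ?_⟩
  · simp [φ.left_inv hx, hA.alg.qB, hA.alg.qσ, m2 x hx _ (hA'.alg.qB _ v)]
  · have su : Sm I' fun y => cV y (u.1 y) := sV.clm_apply u.2.1
    by_cases hx : x ∈ φ.source
    · have d : ∀ a, G.D a (pull φ fun y => cV y (u.1 y)) x = ∑ b, R a b (φ x) •
          (G'.D b cV (φ x) (u.1 (φ x)) + cV (φ x) (G'.D b u.1 (φ x))) := fun a => by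
        simp only [D_chain g.sm hx (g.e a x hx) su, D_app _ _ sV u.2.1]
      simp only [Pi.add_apply, Pi.smul_apply', id, pull_of_mem hx, Pre.op, d, φ.left_inv hx,
        _root_.sub_apply, _root_.add_apply, _root_.smul_apply, _root_.sum_apply, map_add, map_smul,
        map_sum, ContinuousLinearMap.comp_apply, Finset.sum_add_distrib, smul_add, ← hσ x hx]
      rw [Finset.sum_comm (f := fun b a => R a b (φ x) • A.σ a x (cV (φ x) (G'.D b u.1 (φ x))))]
      abel
    · have s : support (fun y => cV y (u.1 y)) ⊆ support cV := fun y hy e => hy (by simp [e])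
      have := image_eq_zero_of_notMem_tsupport fun e => hx ((h.adm' ((closure_mono s).trans
        s1)).tsupport_pull (tsupport_op (F := G.toPre) A.σ A.B _ e)).1
      simp only [Pi.add_apply, id, pull_of_notMem hx, this, add_zero]

end Crest.Agent.X212.Cht98
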