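import Crest.Agent.X212.Sob92.Der

/-! Row 212, layer AN (helper98): Euclidean charts with a smooth density; push-forward and
pull-back of functions, frame derivatives in a chart, comparison of `L^p` norms. -/

set_option autoImplicit false
set_option linter.unusedSectionVars false

open scoped Manifold ContDiff Topology ENNReal NNReal
open Set Filter Function MeasureTheory

noncomputable section
namespace Crest.Agent.X212.Cht98
open Crest.Agent.X212.Sob92

variable {E H : Type} [NormedAddCommGroup E] [NormedSpace ℝ E] [TopologicalSpace H]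
  {I : ModelWithCorners ℝ E H} {M : Type} [TopologicalSpace M] [ChartedSpace H M]
  [MeasurableSpace M] [BorelSpace M]
  {F : Type} [NormedAddCommGroup F] [InnerProductSpace ℝ F] [FiniteDimensional ℝ F]
  [MeasurableSpace F] [BorelSpace F]
  {V : Type} [NormedAddCommGroup V] [NormedSpace ℝ V]

/-- A smooth chart with values in a Euclidean space in which `μ` has a smooth positive density. -/
structure Ch (I : ModelWithCorners ℝ E H) (μ : Measure M) (F : Type) [NormedAddCommGroup F]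
    [InnerProductSpace ℝ F] [FiniteDimensional ℝ F] [MeasurableSpace F] [BorelSpace F] where
  φ : OpenPartialHomeomorph M F
  sm : ContMDiffOn I 𝓘(ℝ, F) ∞ φ φ.source
  sms : ContMDiffOn 𝓘(ℝ, F) I ∞ φ.symm φ.target
  ρ : F → ℝ
  ρs : ContDiffOn ℝ ∞ ρ φ.target
  ρp : ∀ y ∈ φ.target, 0 < ρ y
  lint : ∀ g : M → ℝ≥0∞, Measurable g →
    ∫⁻ x in φ.source, g x ∂μ = ∫⁻ y in φ.target, ENNReal.ofReal (ρ y) * g (φ.symm y)

/-- every point lies in a chart with density -/
def Atl (I : ModelWithCorners ℝ E H) (μ : Measure M) (F : Type) [NormedAddCommGroup F]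
    [InnerProductSpace ℝ F] [FiniteDimensional ℝ F] [MeasurableSpace F] [BorelSpace F] : Prop :=
  ∀ x : M, ∃ c : Ch I μ F, x ∈ c.φ.source

namespace Ch
variable {μ : Measure M} (c : Ch I μ F)

/-- push-forward of a function, zero off the target -/
def pf (u : M → V) : F → V := c.φ.target.indicator fun y => u (c.φ.symm y)

/-- pull-back of a function, zero off the source -/
def pb (w : F → V) : M → V := c.φ.source.indicator fun x => w (c.φ x)

theorem pf_of_mem (u : M → V) {y : F} (hy : y ∈ c.φ.target) : c.pf u y = u (c.φ.symm y) :=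
  indicator_of_mem hy _

theorem pb_of_mem (w : F → V) {x : M} (hx : x ∈ c.φ.source) : c.pb w x = w (c.φ x) :=
  indicator_of_mem hx _

theorem pf_ev (u : M → V) {y : F} (hy : y ∈ c.φ.target) :
    c.pf u =ᶠ[𝓝 y] fun y => u (c.φ.symm y) := by
  filter_upwards [c.φ.open_target.mem_nhds hy] with z hz using c.pf_of_mem u hz

theorem pb_ev (w : F → V) {x : M} (hx : x ∈ c.φ.source) :
    c.pb w =ᶠ[𝓝 x] fun x => w (c.φ x) := by
  filter_upwards [c.φ.open_source.mem_nhds hx] with z hz using c.pb_of_mem w hz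

theorem smAt {x : M} (hx : x ∈ c.φ.source) : ContMDiffAt I 𝓘(ℝ, F) ∞ c.φ x :=
  c.sm.contMDiffAt (c.φ.open_source.mem_nhds hx)

theorem smsAt {y : F} (hy : y ∈ c.φ.target) : ContMDiffAt 𝓘(ℝ, F) I ∞ c.φ.symm y :=
  c.sms.contMDiffAt (c.φ.open_target.mem_nhds hy)

theorem locAt {u : M → V} {y : F} (hy : y ∈ c.φ.target)
    (hu : ContMDiffAt I 𝓘(ℝ, V) ∞ u (c.φ.symm y)) :
    ContDiffAt ℝ ∞ (fun y => u (c.φ.symm y)) y :=
  contMDiffAt_iff_contDiffAt.1 (hu.comp y (c.smsAt hy))

theorem loc_on {u : M → V} (hu : ContMDiff I 𝓘(ℝ, V) ∞ u) :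
    ContDiffOn ℝ ∞ (fun y => u (c.φ.symm y)) c.φ.target :=
  fun _ hy => (c.locAt hy (hu _)).contDiffWithinAt

theorem pfAt {u : M → V} {y : F} (hy : y ∈ c.φ.target)
    (hu : ContMDiffAt I 𝓘(ℝ, V) ∞ u (c.φ.symm y)) : ContDiffAt ℝ ∞ (c.pf u) y :=
  (c.locAt hy hu).congr_of_eventuallyEq (c.pf_ev u hy)

theorem pf_on {u : M → V} (hu : ContMDiff I 𝓘(ℝ, V) ∞ u) :
    ContDiffOn ℝ ∞ (c.pf u) c.φ.target :=
  fun _ hy => (c.pfAt hy (hu _)).contDiffWithinAt

theorem img_cpt {K : Set M} (hK : IsCompact K) (hKs : K ⊆ c.φ.source) : IsCompact (c.φ '' K) :=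
  hK.image_of_continuousOn (c.φ.continuousOn.mono hKs)

theorem img_sub {K : Set M} (hKs : K ⊆ c.φ.source) : c.φ '' K ⊆ c.φ.target := by
  rintro _ ⟨x, hx, rfl⟩
  exact c.φ.map_source (hKs hx)

theorem simg_cpt {L : Set F} (hL : IsCompact L) (hLs : L ⊆ c.φ.target) :
    IsCompact (c.φ.symm '' L) :=
  hL.image_of_continuousOn (c.φ.continuousOn_symm.mono hLs)

theorem simg_sub {L : Set F} (hLs : L ⊆ c.φ.target) : c.φ.symm '' L ⊆ c.φ.source := by
  rintro _ ⟨x, hx, rfl⟩
  exact c.φ.map_target (hLs hx)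

theorem tsupport_pf {u : M → V} {K : Set M} (hK : IsCompact K) (hKs : K ⊆ c.φ.source)
    (hu : support u ⊆ K) : tsupport (c.pf u) ⊆ c.φ '' K := by
  refine closure_minimal (fun y hy => ?_) (c.img_cpt hK hKs).isClosed
  by_cases h : y ∈ c.φ.target
  · refine ⟨c.φ.symm y, hu ?_, c.φ.right_inv h⟩
    rwa [mem_support, c.pf_of_mem u h] at hy
  · exact absurd (indicator_of_notMem h _) hy

theorem pf_smooth {u : M → V} {K : Set M} (hK : IsCompact K) (hKs : K ⊆ c.φ.source)
    (hu : support u ⊆ K) (hs : ContMDiff I 𝓘(ℝ, V) ∞ u) : ContDiff ℝ ∞ (c.pf u) := by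
  refine contDiff_iff_contDiffAt.2 fun y => ?_
  by_cases h : y ∈ c.φ.target
  · exact c.pfAt h (hs _)
  · have h2 : y ∉ tsupport (c.pf u) := fun h' => h (c.img_sub hKs (c.tsupport_pf hK hKs hu h'))
    exact contDiffAt_const.congr_of_eventuallyEq (notMem_tsupport_iff_eventuallyEq.1 h2)

theorem tsupport_pb [T2Space M] {w : F → V} {L : Set F} (hL : IsCompact L)
    (hLs : L ⊆ c.φ.target) (hw : support w ⊆ L) : tsupport (c.pb w) ⊆ c.φ.symm '' L := by
  refine closure_minimal (fun x hx => ?_) (c.simg_cpt hL hLs).isClosed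
  by_cases h : x ∈ c.φ.source
  · refine ⟨c.φ x, hw ?_, c.φ.left_inv h⟩
    rwa [mem_support, c.pb_of_mem w h] at hx
  · exact absurd (indicator_of_notMem h _) hx

theorem pbAt {w : F → V} {x : M} (hx : x ∈ c.φ.source) (hw : ContDiffAt ℝ ∞ w (c.φ x)) :
    ContMDiffAt I 𝓘(ℝ, V) ∞ (c.pb w) x :=
  (hw.contMDiffAt.comp x (c.smAt hx)).congr_of_eventuallyEq (c.pb_ev w hx)

theorem pb_smooth [T2Space M] {w : F → V} {L : Set F} (hL : IsCompact L)
    (hLs : L ⊆ c.φ.target) (hw : support w ⊆ L) (hs : ContDiff ℝ ∞ w) :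
    ContMDiff I 𝓘(ℝ, V) ∞ (c.pb w) := by
  intro x
  by_cases h : x ∈ c.φ.source
  · exact c.pbAt h hs.contDiffAt
  · have h2 : x ∉ tsupport (c.pb w) := fun h' => h (c.simg_sub hLs (c.tsupport_pb hL hLs hw h'))
    exact contMDiffAt_const.congr_of_eventuallyEq (notMem_tsupport_iff_eventuallyEq.1 h2)

theorem pb_hcs [T2Space M] {w : F → V} {L : Set F} (hL : IsCompact L)
    (hLs : L ⊆ c.φ.target) (hw : support w ⊆ L) : HasCompactSupport (c.pb w) :=
  (c.simg_cpt hL hLs).of_isClosed_subset (isClosed_tsupport _) (c.tsupport_pb hL hLs hw)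

/-! ### vector fields in the chart -/

/-- the components of a vector field in the chart -/
def vf (e : (x : M) → TangentSpace I x) (y : F) : F := dv I e c.φ (c.φ.symm y)

theorem vf_on [IsManifold I 1 M] {e : (x : M) → TangentSpace I x}
    (he : ContMDiff I I.tangent ∞ (fun x => (⟨x, e x⟩ : TangentBundle I M))) :
    ContDiffOn ℝ ∞ (c.vf e) c.φ.target := fun _ hy =>
  (c.locAt hy (dv_smoothAt (he _) (c.smAt (c.φ.map_target hy)))).contDiffWithinAt

/-- derivative of a pulled back function -/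
theorem dv_comp_chart (e : (x : M) → TangentSpace I x) {w : F → V} {x : M}
    (hx : x ∈ c.φ.source) (hw : DifferentiableAt ℝ w (c.φ x)) :
    dv I e (fun x => w (c.φ x)) x = fderiv ℝ w (c.φ x) (c.vf e (c.φ x)) := by
  rw [vf, c.φ.left_inv hx]
  exact dv_comp ((c.smAt hx).mdifferentiableAt (by simp)) hw.hasFDerivAt

/-- the frame derivative in the chart -/
theorem dv_chart (e : (x : M) → TangentSpace I x) {u : M → V} {y : F} (hy : y ∈ c.φ.target)
    (hu : ContMDiffAt I 𝓘(ℝ, V) ∞ u (c.φ.symm y)) :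
    dv I e u (c.φ.symm y) = fderiv ℝ (c.pf u) y (c.vf e y) := by
  have hx := c.φ.map_target hy
  have h1 : u =ᶠ[𝓝 (c.φ.symm y)] fun x => c.pf u (c.φ x) := by
    filter_upwards [c.φ.open_source.mem_nhds hx] with z hz
    rw [c.pf_of_mem u (c.φ.map_source hz), c.φ.left_inv hz]
  rw [dv_congr h1, c.dv_comp_chart e hx, c.φ.right_inv hy]
  rw [c.φ.right_inv hy]
  exact (c.pfAt hy hu).differentiableAt (by simp)

theorem dv_pb (e : (x : M) → TangentSpace I x) {w : F → V} {y : F} (hy : y ∈ c.φ.target)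
    (hw : DifferentiableAt ℝ w y) :
    dv I e (c.pb w) (c.φ.symm y) = fderiv ℝ w y (c.vf e y) := by
  have hx := c.φ.map_target hy
  rw [dv_congr (c.pb_ev w hx), c.dv_comp_chart e hx, c.φ.right_inv hy]
  rwa [c.φ.right_inv hy]

theorem mfderiv_surj {y : F} (hy : y ∈ c.φ.target) :
    Surjective (mfderiv I 𝓘(ℝ, F) c.φ (c.φ.symm y)) := by
  have hx := c.φ.map_target hy
  have h1 := ((c.smAt hx).mdifferentiableAt (by simp)).hasMFDerivAt.comp y
    ((c.smsAt hy).mdifferentiableAt (by simp)).hasMFDerivAt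
  have h2 : (c.φ ∘ c.φ.symm) =ᶠ[𝓝 y] id := by
    filter_upwards [c.φ.open_target.mem_nhds hy] with z hz using c.φ.right_inv hz
  have h3 := h1.mfderiv
  rw [h2.mfderiv_eq, mfderiv_id] at h3
  intro v
  exact ⟨mfderiv 𝓘(ℝ, F) I c.φ.symm y v,
    (congrArg (fun L : F →L[ℝ] F => L v) h3).symm⟩

theorem vf_span {ι : Type} {e : ι → (x : M) → TangentSpace I x}
    (hsp : ∀ x, Submodule.span ℝ (range fun a => e a x) = ⊤) {y : F} (hy : y ∈ c.φ.target) :
    Submodule.span ℝ (range fun a => c.vf (e a) y) = ⊤ := by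
  let L : TangentSpace I (c.φ.symm y) →ₗ[ℝ] F :=
    (mfderiv I 𝓘(ℝ, F) c.φ (c.φ.symm y)).toLinearMap
  have h1 : (range fun a => c.vf (e a) y) = L '' range fun a => e a (c.φ.symm y) := by
    rw [← range_comp]; rfl
  rw [h1, Submodule.span_image, hsp, Submodule.map_top, LinearMap.range_eq_top]
  exact c.mfderiv_surj hy

end Ch

/-- a continuous spanning family controls linear maps uniformly on compact sets -/
theorem span_bound {X ι : Type} [TopologicalSpace X] [Fintype ι] {w : ι → X → F} {L : Set X}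
    (hL : IsCompact L) (hw : ∀ a, ContinuousOn (w a) L)
    (hsp : ∀ y ∈ L, Submodule.span ℝ (range fun a => w a y) = ⊤) :
    ∃ C : ℝ≥0, ∀ y ∈ L, ∀ (V : Type) [NormedAddCommGroup V] [NormedSpace ℝ V]
      (T : F →L[ℝ] V), ‖T‖ ≤ C * ∑ a, ‖T (w a y)‖ := by
  let S : Set (F →L[ℝ] ℝ) := Metric.sphere 0 1
  have hS : IsCompact S := isCompact_sphere _ _
  let G : X × (F →L[ℝ] ℝ) → ℝ := fun p => ∑ a, ‖p.2 (w a p.1)‖
  have hG : ContinuousOn G (L ×ˢ S) := by
    refine continuousOn_finsetSum _ fun a _ => ContinuousOn.norm ?_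
    exact continuous_snd.continuousOn.clm_apply
      ((hw a).comp continuous_fst.continuousOn fun p hp => hp.1)
  have hpos : ∀ p ∈ L ×ˢ S, 0 < G p := by
    rintro ⟨y, T⟩ ⟨hy, hT⟩
    refine lt_of_le_of_ne (Finset.sum_nonneg fun _ _ => norm_nonneg _) fun h => ?_
    have h0 : ∀ a, T (w a y) = 0 := fun a => norm_eq_zero.1
      ((Finset.sum_eq_zero_iff_of_nonneg fun _ _ => norm_nonneg _).1 h.symm a (Finset.mem_univ a))
    have h1 : T = 0 := by
      apply ContinuousLinearMap.coe_injective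
      refine LinearMap.ext_on_range (hsp y hy) fun a => ?_
      simpa using h0 a
    have h2 : ‖T‖ = 1 := by simpa [S] using hT
    rw [h1, norm_zero] at h2
    exact zero_ne_one h2
  obtain ⟨m, hm, hmG⟩ := (hL.prod hS).exists_forall_le' hG hpos
  have key : ∀ y ∈ L, ∀ T : F →L[ℝ] ℝ, m * ‖T‖ ≤ ∑ a, ‖T (w a y)‖ := by
    intro y hy T
    rcases eq_or_ne T 0 with rfl | h0
    · simp
    have hp : 0 < ‖T‖ := norm_pos_iff.2 h0
    have h1 := hmG (y, ‖T‖⁻¹ • T) ⟨hy, by simp [S, norm_smul, hp.ne']⟩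
    have h2 : G (y, ‖T‖⁻¹ • T) = ‖T‖⁻¹ * ∑ a, ‖T (w a y)‖ := by
      simp [G, Finset.mul_sum]
    rw [h2] at h1
    calc m * ‖T‖ ≤ (‖T‖⁻¹ * ∑ a, ‖T (w a y)‖) * ‖T‖ := by gcongr
      _ = _ := by field_simp
  refine ⟨⟨m⁻¹, by positivity⟩, fun y hy V _ _ T => ?_⟩
  show ‖T‖ ≤ m⁻¹ * ∑ a, ‖T (w a y)‖
  refine ContinuousLinearMap.opNorm_le_bound _ (by positivity) fun v => ?_
  obtain ⟨g, hg1, hg2⟩ := exists_dual_vector'' ℝ (T v)
  have h1 := key y hy (g.comp T)
  have h2 : ∑ a, ‖(g.comp T) (w a y)‖ ≤ ∑ a, ‖T (w a y)‖ :=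
    Finset.sum_le_sum fun a _ => (g.le_opNorm _).trans (mul_le_of_le_one_left (norm_nonneg _) hg1)
  have h3 : ‖g.comp T‖ ≤ m⁻¹ * ∑ a, ‖T (w a y)‖ := by
    rw [← div_eq_inv_mul, le_div_iff₀ hm, mul_comm]
    exact h1.trans h2
  calc ‖T v‖ = (g.comp T) v := by simpa using hg2.symm
    _ ≤ ‖g.comp T‖ * ‖v‖ := (le_abs_self _).trans ((g.comp T).le_opNorm v)
    _ ≤ _ := by gcongr

namespace Ch
variable {μ : Measure M} (c : Ch I μ F)

/-! ### measures -/

/-- Lebesgue measure of the chart, on `M` -/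
def ν : Measure M := ((volume : Measure F).restrict c.φ.target).map c.φ.symm

theorem aem : AEMeasurable c.φ.symm ((volume : Measure F).restrict c.φ.target) :=
  c.φ.continuousOn_symm.aemeasurable c.φ.open_target.measurableSet

theorem ρ_aem : AEMeasurable (fun y => ENNReal.ofReal (c.ρ y))
    ((volume : Measure F).restrict c.φ.target) :=
  (c.ρs.continuousOn.aemeasurable c.φ.open_target.measurableSet).ennreal_ofReal

theorem restrict_eq : μ.restrict c.φ.source =
    (((volume : Measure F).restrict c.φ.target).withDensity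
      fun y => ENNReal.ofReal (c.ρ y)).map c.φ.symm := by
  have ha : AEMeasurable c.φ.symm (((volume : Measure F).restrict c.φ.target).withDensity
      fun y => ENNReal.ofReal (c.ρ y)) := c.aem.mono_ac (withDensity_absolutelyContinuous _ _)
  ext s hs
  have hm : Measurable (s.indicator (1 : M → ℝ≥0∞)) := measurable_one.indicator hs
  rw [← lintegral_indicator_one hs, ← lintegral_indicator_one hs, c.lint _ hm,
    lintegral_map' hm.aemeasurable ha,
    lintegral_withDensity_eq_lintegral_mul₀ c.ρ_aem (hm.comp_aemeasurable' c.aem)]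
  rfl

/-- Bochner integrals in the chart -/
theorem integral_eq {g : M → V} (hg : AEStronglyMeasurable g (μ.restrict c.φ.source)) :
    ∫ x in c.φ.source, g x ∂μ = ∫ y in c.φ.target, c.ρ y • g (c.φ.symm y) := by
  have ha : AEMeasurable c.φ.symm (((volume : Measure F).restrict c.φ.target).withDensity
      fun y => ENNReal.ofReal (c.ρ y)) := c.aem.mono_ac (withDensity_absolutelyContinuous _ _)
  rw [c.restrict_eq] at hg ⊢
  rw [integral_map ha hg]
  have h1 : AEMeasurable (fun y => (c.ρ y).toNNReal) ((volume : Measure F).restrict c.φ.target) :=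
    (c.ρs.continuousOn.aemeasurable c.φ.open_target.measurableSet).real_toNNReal
  have h2 := integral_withDensity_eq_integral_smul₀ h1 (fun y => g (c.φ.symm y))
  refine h2.trans (setIntegral_congr_fun c.φ.open_target.measurableSet fun y hy => ?_)
  show (c.ρ y).toNNReal • g (c.φ.symm y) = _
  rw [NNReal.smul_def, Real.coe_toNNReal _ (c.ρp y hy).le]

theorem ν_apply {s : Set M} (hs : MeasurableSet s) :
    c.ν s = ∫⁻ y in c.φ.target, s.indicator (1 : M → ℝ≥0∞) (c.φ.symm y) := by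
  have hm : Measurable (s.indicator (1 : M → ℝ≥0∞)) := measurable_one.indicator hs
  rw [← lintegral_indicator_one hs, ν, lintegral_map' hm.aemeasurable c.aem]

theorem μ_apply {s : Set M} (hs : MeasurableSet s) (h : s ⊆ c.φ.source) :
    μ s = ∫⁻ y in c.φ.target, ENNReal.ofReal (c.ρ y) *
      s.indicator (1 : M → ℝ≥0∞) (c.φ.symm y) := by
  rw [← c.lint _ (measurable_one.indicator hs), lintegral_indicator_one hs,
    Measure.restrict_apply hs, inter_eq_left.2 h]

/-- comparison of `μ` with the Lebesgue measure of the chart on a compact set -/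
theorem cmp [T2Space M] {K : Set M} (hK : IsCompact K) (hKs : K ⊆ c.φ.source) :
    ∃ C : ℝ≥0, μ.restrict K ≤ C • c.ν.restrict K ∧ c.ν.restrict K ≤ C • μ.restrict K := by
  have hc := c.ρs.continuousOn.mono (c.img_sub hKs)
  obtain ⟨m, hm, hm'⟩ := (c.img_cpt hK hKs).exists_forall_le' hc
    fun y hy => c.ρp y (c.img_sub hKs hy)
  obtain ⟨A, hA⟩ := (c.img_cpt hK hKs).exists_bound_of_continuousOn hc
  have hmem : ∀ s : Set M, ∀ y ∈ c.φ.target, c.φ.symm y ∈ s ∩ K → y ∈ c.φ '' K :=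
    fun s y hy h => ⟨_, h.2, c.φ.right_inv hy⟩
  refine ⟨(max A m⁻¹).toNNReal, Measure.le_iff.2 fun s hs => ?_, Measure.le_iff.2 fun s hs => ?_⟩
  · have hsK := hs.inter hK.measurableSet
    rw [Measure.coe_nnreal_smul_apply, Measure.restrict_apply hs, Measure.restrict_apply hs,
      c.ν_apply hsK, c.μ_apply hsK (inter_subset_right.trans hKs),
      ← lintegral_const_mul' _ _ ENNReal.coe_ne_top]
    refine setLIntegral_mono' c.φ.open_target.measurableSet fun y hy => ?_
    by_cases h : c.φ.symm y ∈ s ∩ K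
    · gcongr
      exact ENNReal.ofReal_le_ofReal
        (((le_abs_self _).trans (hA y (hmem s y hy h))).trans (le_max_left _ _))
    · simp [indicator_of_notMem h]
  · have hsK := hs.inter hK.measurableSet
    rw [Measure.coe_nnreal_smul_apply, Measure.restrict_apply hs, Measure.restrict_apply hs,
      c.ν_apply hsK, c.μ_apply hsK (inter_subset_right.trans hKs),
      ← lintegral_const_mul' _ _ ENNReal.coe_ne_top]
    refine setLIntegral_mono' c.φ.open_target.measurableSet fun y hy => ?_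
    by_cases h : c.φ.symm y ∈ s ∩ K
    · rw [← mul_assoc]
      refine le_mul_of_one_le_left' ?_
      have h1 : (1 : ℝ) ≤ max A m⁻¹ * c.ρ y := by
        calc (1 : ℝ) = m⁻¹ * m := (inv_mul_cancel₀ hm.ne').symm
          _ ≤ _ := mul_le_mul (le_max_right _ _) (hm' y (hmem s y hy h)) hm.le
            (le_max_of_le_right (by positivity))
      calc (1 : ℝ≥0∞) = ENNReal.ofReal 1 := by simp
        _ ≤ ENNReal.ofReal (max A m⁻¹ * c.ρ y) := ENNReal.ofReal_le_ofReal h1
        _ = _ := ENNReal.ofReal_mul (le_max_of_le_right (by positivity))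
    · simp [indicator_of_notMem h]

theorem eLp_ν {g : M → ℝ} (hg : Measurable g) (p : ℝ≥0∞) :
    eLpNorm g p c.ν = eLpNorm (c.pf g) p volume := by
  rw [ν, eLpNorm_map_measure hg.aestronglyMeasurable c.aem, pf,
    eLpNorm_indicator_eq_eLpNorm_restrict c.φ.open_target.measurableSet]
  rfl

theorem norm_pf (u : M → V) (y : F) : ‖c.pf u y‖ = c.pf (fun x => ‖u x‖) y := by
  by_cases h : y ∈ c.φ.target
  · rw [c.pf_of_mem _ h, c.pf_of_mem _ h]
  · simp [pf, indicator_of_notMem h]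

/-- comparison of `L^p` norms for functions supported in a compact subset of the chart -/
theorem eLp_cmp [T2Space M] {K : Set M} (hK : IsCompact K) (hKs : K ⊆ c.φ.source) (p : ℝ≥0∞) :
    ∃ C : ℝ≥0, ∀ (V : Type) [NormedAddCommGroup V] [NormedSpace ℝ V] (g : M → V),
      Measurable (fun x => ‖g x‖) → support g ⊆ K →
      eLpNorm g p μ ≤ C * eLpNorm (c.pf g) p volume ∧
        eLpNorm (c.pf g) p volume ≤ C * eLpNorm g p μ := by
  obtain ⟨C, h1, h2⟩ := c.cmp hK hKs
  refine ⟨C ^ (1 / p).toReal, fun V _ _ g hg hs => ?_⟩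
  have hs' : support (fun x => ‖g x‖) ⊆ K := fun x hx => hs (by simpa using hx)
  have e1 : eLpNorm (c.pf g) p volume = eLpNorm (fun x => ‖g x‖) p (c.ν.restrict K) := by
    rw [eLpNorm_restrict_eq_of_support_subset hs', c.eLp_ν hg, ← eLpNorm_norm]
    exact congrArg (fun f => eLpNorm f p volume) (funext fun y => c.norm_pf g y)
  have e2 : eLpNorm g p μ = eLpNorm (fun x => ‖g x‖) p (μ.restrict K) := by
    rw [eLpNorm_restrict_eq_of_support_subset hs', eLpNorm_norm]
  have key : ∀ m1 m2 : Measure M, m1 ≤ C • m2 → eLpNorm (fun x => ‖g x‖) p m1 ≤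
      (C ^ (1 / p).toReal : ℝ≥0) * eLpNorm (fun x => ‖g x‖) p m2 := by
    intro m1 m2 h
    refine (eLpNorm_mono_measure _ h).trans ?_
    have h3 := eLpNorm_smul_measure_le (C : ℝ≥0∞) (fun x => ‖g x‖) p m2
    rw [ENNReal.coe_rpow_of_nonneg _ ENNReal.toReal_nonneg]
    exact h3
  rw [e1, e2]
  exact ⟨key _ _ h1, key _ _ h2⟩

end Ch

theorem Atl.openPos {μ : Measure M} (h : Atl I μ F) : μ.IsOpenPosMeasure := by
  refine ⟨fun U hU ⟨x, hx⟩ h0 => ?_⟩
  obtain ⟨c, hc⟩ := h x
  have hW : IsOpen (U ∩ c.φ.source) := hU.inter c.φ.open_source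
  have h1 : μ (U ∩ c.φ.source) = 0 := measure_mono_null inter_subset_left h0
  rw [c.μ_apply hW.measurableSet inter_subset_right] at h1
  have hT : IsOpen (c.φ.target ∩ c.φ.symm ⁻¹' (U ∩ c.φ.source)) :=
    c.φ.isOpen_inter_preimage_symm hW
  have hm : Measurable ((U ∩ c.φ.source).indicator (1 : M → ℝ≥0∞)) :=
    measurable_one.indicator hW.measurableSet
  replace h1 := (lintegral_eq_zero_iff' (c.ρ_aem.mul (hm.comp_aemeasurable' c.aem))).1 h1
  rw [EventuallyEq, ae_restrict_iff' c.φ.open_target.measurableSet] at h1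
  have h2 : (volume : Measure F) (c.φ.target ∩ c.φ.symm ⁻¹' (U ∩ c.φ.source)) = 0 := by
    refine measure_mono_null (fun y hy => ?_) h1
    intro h3
    have h4 := h3 hy.1
    have h5 : c.φ.symm y ∈ U ∩ c.φ.source := hy.2
    simp only [Pi.mul_apply, indicator_of_mem h5, Pi.one_apply, mul_one, Pi.zero_apply,
      ENNReal.ofReal_eq_zero] at h4
    exact absurd (c.ρp y hy.1) (not_lt.2 h4)
  refine hT.measure_ne_zero _ ⟨c.φ x, c.φ.map_source hc, ?_⟩ h2
  show c.φ.symm (c.φ x) ∈ U ∩ c.φ.source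
  rw [c.φ.left_inv hc]
  exact ⟨hx, hc⟩

theorem Atl.finCpt [T2Space M] {μ : Measure M} (h : Atl I μ F) : IsLocallyFiniteMeasure μ := by
  refine ⟨fun x => ?_⟩
  obtain ⟨c, hc⟩ := h x
  obtain ⟨L, hL, hL1, hL2⟩ := exists_compact_subset c.φ.open_target (c.φ.map_source hc)
  have hK := c.simg_cpt hL hL2
  obtain ⟨C, h1, -⟩ := c.cmp hK (c.simg_sub hL2)
  refine ⟨c.φ.symm '' L, ?_, ?_⟩
  · have h2 := c.φ.symm.image_mem_nhds (c.φ.map_source hc) (mem_interior_iff_mem_nhds.1 hL1)
    rwa [c.φ.left_inv hc] at h2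
  · have h2 := h1 (c.φ.symm '' L)
    rw [Measure.coe_nnreal_smul_apply, Measure.restrict_apply_self,
      Measure.restrict_apply_self, c.ν_apply hK.measurableSet] at h2
    refine h2.trans_lt (ENNReal.mul_lt_top ENNReal.coe_lt_top ?_)
    refine lt_of_le_of_lt (b := ∫⁻ y in c.φ.target, L.indicator 1 y) ?_ ?_
    · refine setLIntegral_mono' c.φ.open_target.measurableSet fun y hy => ?_
      by_cases h3 : c.φ.symm y ∈ c.φ.symm '' L
      · obtain ⟨z, hz, hzy⟩ := h3
        have h4 : z = y := c.φ.symm.injOn (hL2 hz) hy hzy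
        rw [indicator_of_mem (show y ∈ L from h4 ▸ hz)]
        exact indicator_le_self' (fun _ _ => zero_le) _
      · simp [indicator_of_notMem h3]
    · rw [lintegral_indicator_one hL.measurableSet]
      exact (Measure.restrict_le_self L).trans_lt hL.measure_lt_top

end Crest.Agent.X212.Cht98
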