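import Crest.Agent.X212.Cht98.Cov
import Crest.Agent.X212.Met55.Vol
import Crest.Agent.X212.Prm93.Fam

/-! Row 212, layer AN (helper98): tameness on a set, in families, and uniform tameness of
manifolds with product necks and ends. -/

set_option autoImplicit false
set_option linter.unusedSectionVars false

open scoped Manifold ContDiff Topology NNReal
open Set Filter Function MeasureTheory Module

noncomputable section
namespace Crest.Agent.X212.Cht98
open Crest.Agent.X212.Sob92 Crest.Agent.X212.An Crest.Agent.X212.Prm93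
open Crest.Agent.X212.Met55 (VF VJ Sp atx fP fT rj br)
open Crest.Agent.X212.Pj41 (FSm)

variable {E : Type} [NormedAddCommGroup E] [NormedSpace ℝ E] [FiniteDimensional ℝ E]
  [MeasurableSpace E] [BorelSpace E]
  {HM : Type} [TopologicalSpace HM] {I : ModelWithCorners ℝ E HM} [I.Boundaryless]
  {M : Type} [TopologicalSpace M] [ChartedSpace HM M] [IsManifold I ∞ M]
  [MeasurableSpace M] [BorelSpace M] [T2Space M] [SecondCountableTopology M]
  {ι ι' : Type} [Fintype ι] [Fintype ι']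
  {E' : Type} [NormedAddCommGroup E'] [NormedSpace ℝ E'] [FiniteDimensional ℝ E']
  [MeasurableSpace E'] [BorelSpace E']
  {HM' : Type} [TopologicalSpace HM'] {I' : ModelWithCorners ℝ E' HM'} [I'.Boundaryless]
  {M' : Type} [TopologicalSpace M'] [ChartedSpace HM' M'] [IsManifold I' ∞ M']
  [MeasurableSpace M'] [BorelSpace M'] [T2Space M']
  {N : Type} [NormedAddCommGroup N] [NormedSpace ℝ N]

/-! ### bounds on a set -/

/-- sup bounds of all derivatives on `K` -/
def BOn (F : Pre I M ι) (K : Set M) (f : M → N) (C : ℕ → ℝ) : Prop :=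
  ∀ k, ∀ w : List ι, w.length ≤ k → ∀ x ∈ K, ‖F.Dw w f x‖ ≤ C k

/-- tameness on `K` -/
structure TOn (F : Fr I M ι) (K : Set M) (C : ℕ → ℝ) : Prop where
  P : ∀ a b, BOn F.toPre K (F.P a b) C
  c : ∀ a b l, BOn F.toPre K (F.c a b l) C
  dv : ∀ a, BOn F.toPre K (F.dv a) C
  l4 : L4On F.toPre K (C 0)
  sup : SupOn F.toPre K (C 0)

section basic
variable {F : Pre I M ι} {K K' : Set M} {f : M → N} {C C' : ℕ → ℝ}

theorem BOn.mono (h : BOn F K f C) (hK : K' ⊆ K) (hC : ∀ k, C k ≤ C' k) : BOn F K' f C' :=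
  fun k w hw x hx => (h k w hw x (hK hx)).trans (hC k)

theorem BOn.of_CBs (h : F.CBs f C) (K : Set M) : BOn F K f C := fun k w hw x _ => h.2 k w hw x

/-- global bounds from bounds on the sets of a cover -/
theorem CBs_of_BOn (hf : Sm I f) (h : ∀ x, ∃ K, x ∈ K ∧ BOn F K f C) : F.CBs f C :=
  ⟨hf, fun k w hw x => let ⟨_, h1, h2⟩ := h x; h2 k w hw x h1⟩

theorem CBs_of_tsupport (hf : Sm I f) (hK : tsupport f ⊆ K) (h : BOn F K f C) :
    F.CBs f fun k => |C k| := ⟨hf, fun k w hw x => by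
  by_cases hx : x ∈ K
  · exact (h k w hw x hx).trans (le_abs_self _)
  · rw [image_eq_zero_of_notMem_tsupport fun h0 => hx (hK (tsupport_Dw f w h0)), norm_zero]
    exact abs_nonneg _⟩

theorem BOn.iso {F' : Pre I' M' ι} {φ : OpenPartialHomeomorph M M'} {L : Set M'} {g : M' → N}
    (h : Iso F F' φ) (hK : K ⊆ φ.source) (hm : MapsTo φ K L) (hg : Sm I' g)
    (he : ∀ x ∈ φ.source, f x = g (φ x)) (H : BOn F' L g C) : BOn F K f C :=
  fun k w hw x hx => by
  rw [iso_Dw' h w hg he (hK hx)]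
  exact H k w hw _ (hm hx)

end basic

theorem TOn.mono {F : Fr I M ι} {K K' : Set M} {C C' : ℕ → ℝ} (h : TOn F K C) (hK : K' ⊆ K)
    (hC : ∀ k, C k ≤ C' k) : TOn F K' C' :=
  ⟨fun a b => (h.P a b).mono hK hC, fun a b l => (h.c a b l).mono hK hC,
    fun a => (h.dv a).mono hK hC, h.l4.mono hK (hC 0), h.sup.mono hK (hC 0)⟩

theorem TOn.iso {F : Fr I M ι} {F' : Fr I' M' ι} {φ : OpenPartialHomeomorph M M'} {K : Set M}
    {L : Set M'} {C : ℕ → ℝ} (h : Iso F.toPre F'.toPre φ) (hK : K ⊆ φ.source) (hm : MapsTo φ K L)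
    (H : TOn F' L C) : TOn F K fun k => |C k| where
  P a b := ((H.P a b).iso h hK hm (F'.P_sm a b) fun _ hx => Met55.iso_P h hx a b).mono
    Subset.rfl fun _ => le_abs_self _
  c a b l := ((H.c a b l).iso h hK hm (F'.c_sm a b l) fun _ hx => Met55.iso_c h hx a b l).mono
    Subset.rfl fun _ => le_abs_self _
  dv a := ((H.dv a).iso h hK hm (F'.dv_sm a) fun _ hx => Met55.iso_dv h hx a).mono
    Subset.rfl fun _ => le_abs_self _
  l4 := (H.l4.iso h hK hm).mono Subset.rfl (le_abs_self _)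
  sup := H.sup.iso h hK hm

/-- tameness on a set from its parts -/
theorem tOn_of {α : Type} {F : α → Fr I M ι} {K : Set M} {C1 C2 C3 : ℕ → ℝ} {S S' : ℝ}
    (h1 : ∀ t a b, BOn (F t).toPre K ((F t).P a b) C1)
    (h2 : ∀ t a b l, BOn (F t).toPre K ((F t).c a b l) C2)
    (h3 : ∀ t a, BOn (F t).toPre K ((F t).dv a) C3) (h4 : ∀ t, L4On (F t).toPre K S)
    (h5 : ∀ t, SupOn (F t).toPre K S') : ∃ C, ∀ t, TOn (F t) K C :=
  ⟨fun k => max (max (C1 k) (C2 k)) (max (C3 k) (max S S')), fun t =>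
    ⟨fun a b => (h1 t a b).mono Subset.rfl fun _ => by simp,
      fun a b l => (h2 t a b l).mono Subset.rfl fun _ => by simp,
      fun a => (h3 t a).mono Subset.rfl fun _ => by simp,
      (h4 t).mono Subset.rfl (by simp), (h5 t).mono Subset.rfl (by simp)⟩⟩

/-! ### families -/

section fam
variable {T : Type} [NormedAddCommGroup T] [NormedSpace ℝ T] {e : T → ι → VF I M} {Q : Set T}
  {K : Set M}

/-- iterated derivatives along vector fields -/
def dw (e : ι → VF I M) : List ι → (M → N) → M → N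
  | [], u => u
  | a :: w, u => dw e w (dv I (e a) u)

theorem Dw_eq (F : Pre I M ι) (w : List ι) : ∀ u : M → N, F.Dw w u = dw F.e w u := by
  induction w with
  | nil => exact fun _ => rfl
  | cons a w ih => exact fun u => ih _

theorem jAt_dw {t : T} {x : M} (he : ∀ a, VJ I (fun s => e s a) t x) (w : List ι) :
    ∀ {f : T → M → N}, JAt I f t x → JAt I (fun s => dw (e s) w (f s)) t x := by
  induction w with
  | nil => exact fun h => h
  | cons a w ih => exact fun h => ih (JAt.dv' (he a) h)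

theorem bdd_fam (hQ : IsCompact Q) (hK : IsCompact K) {f : T → M → N}
    (hf : ∀ t ∈ Q, ∀ x ∈ K, ContinuousAt (fun z : T × M => f z.1 z.2) (t, x)) :
    ∃ C, ∀ t ∈ Q, ∀ x ∈ K, ‖f t x‖ ≤ C :=
  let ⟨C, hC⟩ := (hQ.prod hK).exists_bound_of_continuousOn (f := fun z : T × M => f z.1 z.2)
    fun z hz => (hf z.1 hz.1 z.2 hz.2).continuousWithinAt
  ⟨C, fun t ht x hx => hC (t, x) ⟨ht, hx⟩⟩

/-- uniform bounds of finitely many jointly smooth functions -/
theorem bOn_fam (hQ : IsCompact Q) (hK : IsCompact K)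
    (he : ∀ t ∈ Q, ∀ x ∈ K, ∀ a, VJ I (fun s => e s a) t x) {J : Type} [Finite J]
    {f : J → T → M → N} (hf : ∀ j, ∀ t ∈ Q, ∀ x ∈ K, JAt I (f j) t x) :
    ∃ C, ∀ t ∈ Q, ∀ F : Pre I M ι, F.e = e t → ∀ j, BOn F K (f j t) C := by
  choose c hc using fun (j : J) (w : List ι) => bdd_fam hQ hK (f := fun s => dw (e s) w (f j s))
    fun t ht x hx => (jAt_dw (he t ht x hx) w (hf j t ht x hx)).continuousAt
  choose C hC using fun k => (((finite_univ (α := J)).prod (List.finite_length_le ι k)).image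
    fun z => c z.1 z.2).bddAbove
  refine ⟨C, fun t ht F hF j k w hw x hx => ?_⟩
  rw [Dw_eq, hF]
  exact (hc j w t ht x hx).trans (hC k ⟨(j, w), ⟨trivial, hw⟩, rfl⟩)

theorem bOn_compact (F : Pre I M ι) (hK : IsCompact K) {J : Type} [Finite J] {f : J → M → N}
    (hf : ∀ j, Sm I (f j)) : ∃ C, ∀ j, BOn F K (f j) C :=
  let ⟨C, hC⟩ := bOn_fam (e := fun _ : ℝ => F.e) (isCompact_singleton (x := 0)) hK
    (fun _ _ x _ a => Met55.VJ.of_fixed (F.sm a x)) (f := fun j _ => f j)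
    fun j _ _ x _ => JAt.of_fixed (hf j x)
  ⟨C, hC 0 rfl F rfl⟩

theorem TOn.compact (F : Fr I M ι) (hn : finrank ℝ E ≤ 4) (hK : IsCompact K) : ∃ C, TOn F K C := by
  obtain ⟨C1, h1⟩ := bOn_compact F.toPre hK (f := fun j : ι × ι => F.P j.1 j.2) fun _ => F.P_sm _ _
  obtain ⟨C2, h2⟩ := bOn_compact F.toPre hK (f := fun j : ι × ι × ι => F.c j.1 j.2.1 j.2.2)
    fun _ => F.c_sm _ _ _
  obtain ⟨C3, h3⟩ := bOn_compact F.toPre hK F.dv_sm
  obtain ⟨S, -, h4⟩ := l4On F.toPre hn hK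
  obtain ⟨S', -, h5⟩ := supOn F.toPre hn hK
  obtain ⟨C, hC⟩ := tOn_of (F := fun _ : Unit => F) (fun _ a b => h1 (a, b))
    (fun _ a b l => h2 (a, b, l)) (fun _ => h3) (fun _ => h4) fun _ => h5
  exact ⟨C, hC ()⟩

/-- comparison of the norms of functions supported in `K` -/
theorem nrm_on {F : Pre I M ι} {F' : Pre I M ι'} {A : ι' → ι → M → ℝ} (hA : ∀ a b, Sm I (A a b))
    (h : ∀ a, ∀ x ∈ K, F'.e a x = ∑ b, A a b x • F.e b x) {c C : ℝ}
    (hμ : ∀ u : M → ℝ, Sm I u → HasCompactSupport u → tsupport u ⊆ K →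
      F'.nrm 0 u ≤ √c * F.nrm 0 u) (k : ℕ) : (∀ a b, F.CB k (A a b) C) →
    ∀ {u : M → ℝ}, Sm I u → HasCompactSupport u → tsupport u ⊆ K →
      F'.nrm k u ≤ cN ι ι' c C k * F.nrm k u := by
  induction k with
  | zero => exact fun _ u hu hc hs => hμ u hu hc hs
  | succ k ih =>
    intro hC u hu hc hs
    have hC' := fun a b => CB_of_le (hC a b) k.le_succ
    have h0 := cN_nonneg (ι := ι) (ι' := ι') c C k
    have hK := cK_nonneg (ι := ι) k
    have hD : ∀ a, F'.D a u = fun x => ∑ b, A a b x • F.D b u x := fun a => funext fun x => by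
      by_cases hx : x ∈ K
      · simp only [Pre.D_def, dv, h a x hx, map_sum, map_smul]
        rfl
      · simp only [Pre.D_def, dv_eq_zero_of_notMem fun h0 => hx (hs h0), smul_zero,
          Finset.sum_const_zero]
    have h1 : ∀ a, F.nrm k (F'.D a u) ≤ Fintype.card ι * (cK ι k * |C|) * F.nrm (k + 1) u := by
      intro a
      rw [hD]
      refine (nrm_sum_le Finset.univ k (u := fun b x => A a b x • F.D b u x)
        (fun b _ => (hA a b).smul (F.sm_D hu b))
        fun b _ => (F.hcs_D hc b).mono fun x hx h => hx (by simp [h])).trans ?_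
      refine (Finset.sum_le_sum fun b _ => (nrm_smul (hA a b) (F.sm_D hu b) (hC' a b)
        (FL_of_hcs k (F.sm_D hu b) (F.hcs_D hc b))).trans
        (mul_le_mul_of_nonneg_left (nrm_D_le k u b) (by positivity))).trans (le_of_eq ?_)
      simp [mul_assoc]
    have h2 := (hμ u hu hc hs).trans
      (mul_le_mul_of_nonneg_left (nrm_mono (Nat.zero_le (k + 1)) u) (Real.sqrt_nonneg _))
    have h3 := Finset.sum_le_sum fun a (_ : a ∈ Finset.univ) =>
      (ih hC' (F'.sm_D hu a) (F'.hcs_D hc a) ((F'.tsupport_D u a).trans hs)).trans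
        (mul_le_mul_of_nonneg_left (h1 a) h0)
    rw [Finset.sum_const, Finset.card_univ, nsmul_eq_mul] at h3
    refine (nrm_succ_le k u).trans ((add_le_add h2 h3).trans (le_of_eq ?_))
    rw [cN]; ring

theorem int_le_rd {F : Pre I M ι} {F' : Pre I M ι'} (h : F.IsVol) (h' : F'.IsVol) {c : ℝ}
    (hc : ∀ x ∈ K, rd F F' x ≤ c) {g : M → ℝ} (hg : Continuous g) (hs : HasCompactSupport g)
    (h0 : ∀ x, 0 ≤ g x) (hK : support g ⊆ K) : ∫ x, g x ∂F'.μ ≤ c * ∫ x, g x ∂F.μ := by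
  rw [integral_rd h h', ← integral_const_mul]
  refine integral_mono (((sm_rd F F').continuous.smul hg).integrable_of_hasCompactSupport
    hs.smul_left) ((hg.integrable_of_hasCompactSupport hs).const_mul c) fun x => ?_
  by_cases hx : g x = 0
  · simp [hx]
  · exact mul_le_mul_of_nonneg_right (hc x (hK hx)) (h0 x)

/-- the quotient of the Riemannian densities is jointly smooth -/
theorem jAt_rj {t : T} {x : M} (he : ∀ a, VJ I (fun s => e s a) t x) (hs : Sp (atx (e t) x))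
    (F : Pre I M ι') : JAt I (fun s y => rj (e s) y / rj F.e y) t x := by
  have hx := mem_chart_source HM x
  have h0 := (Met55.sp_inc hx hs).det_pos (b := finBasis ℝ E)
  have h1 : FSm (𝓘(ℝ, T).prod I)
      (fun z : T × M => √(Met55.gm (finBasis ℝ E) (Met55.inc I x (e z.1) z.2)).det) (t, x) :=
    ContDiffAt.comp_contMDiffAt (g := Real.sqrt)
      (f := fun z : T × M => (Met55.gm (finBasis ℝ E) (Met55.inc I x (e z.1) z.2)).det)
      (Real.contDiffAt_sqrt h0.ne') ((Met55.mJ_fm hx he).mul (Met55.mJ_fm hx he).transpose).det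
  have h2 : JAt I (fun (_ : T) y => (Met55.rjb (finBasis ℝ E) (Met55.inc I x F.e y))⁻¹) t x :=
    JAt.of_fixed (FSm.inv' (Met55.sm_rjb hx (fun a => F.sm a x) (Met55.pre_sp F x))
      (Met55.sp_inc hx (Met55.pre_sp F x)).rjb_pos.ne')
  refine (FSm.mul' (FSm.inv' h1 (Real.sqrt_pos.2 h0).ne') h2).congr_of_eventuallyEq
    ((ev_src (HM := HM) t x).mono fun z hz => ?_)
  have k1 := Met55.rjb_map (v := atx F.e z.2) (Met55.dch I x z.2) (finBasis ℝ E) (finBasis ℝ E)
  have k2 := Met55.rjb_map (v := atx (e z.1) z.2) (Met55.dch I x z.2) (finBasis ℝ E) (finBasis ℝ E)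
  have k3 := (Met55.sp_inc hz (Met55.pre_sp F z.2)).rjb_pos (b := finBasis ℝ E)
  show rj (e z.1) z.2 / rj F.e z.2 = Met55.rjb (finBasis ℝ E) (Met55.inc I x (e z.1) z.2) /
    Met55.rjb (finBasis ℝ E) (Met55.inc I x F.e z.2)
  erw [k1] at k3
  erw [k1, k2]
  rw [mul_div_mul_left _ _ (left_ne_zero_of_mul k3.ne')]; rfl

theorem ev_vAt {Ω : Set (T × M)} (hΩ : IsOpen Ω)
    (he : ∀ t x, (t, x) ∈ Ω → ∀ a, VJ I (fun s => e s a) t x) {t : T} {x : M} (h : (t, x) ∈ Ω)
    (a b : ι) : ∀ᶠ z : T × M in 𝓝 (t, x), Met55.VAt I (e z.1 a) z.2 ∧ Met55.VAt I (e z.1 b) z.2 := by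
  filter_upwards [hΩ.mem_nhds h] with z hz using ⟨(he _ _ hz a).right, (he _ _ hz b).right⟩

/-- **uniform tameness of a family of Riemannian frames on a compact set** -/
theorem tOn_fam (hn : finrank ℝ E ≤ 4) (F0 : Pre I M ι') (h0 : F0.IsVol) {Ω : Set (T × M)}
    (hΩ : IsOpen Ω) (he : ∀ t x, (t, x) ∈ Ω → ∀ a, VJ I (fun s => e s a) t x)
    (hs : ∀ t x, (t, x) ∈ Ω → Sp (atx (e t) x)) (hQ : IsCompact Q) (hK : IsCompact K)
    (hQK : Q ×ˢ K ⊆ Ω) : ∃ C, ∀ t ∈ Q, ∀ F : Fr I M ι, F.IsVol → F.e = e t → TOn F K C := by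
  have := Manifold.locallyCompact_of_finiteDimensional I (M := M)
  have := sigmaCompactSpace_of_locallyCompact_secondCountable (X := M)
  obtain ⟨U, V, -, hV, hQ', hKV, hV'⟩ := generalized_tube_lemma hQ hK hΩ hQK
  obtain ⟨L, hL, hKL, hLV⟩ := exists_compact_between hK hV hKV
  have hm : ∀ t ∈ Q, ∀ x ∈ L, (t, x) ∈ Ω := fun t ht x hx => hV' ⟨hQ' ht, hLV hx⟩
  have hm' : ∀ t ∈ Q, ∀ x ∈ K, (t, x) ∈ Ω := fun t ht x hx => hQK ⟨ht, hx⟩
  obtain ⟨χ, h1, h2, -⟩ := exists_contMDiffMap_zero_one_of_isClosed I (n := ⊤)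
    (isClosed_compl_iff.2 isOpen_interior) hK.isClosed (disjoint_compl_left_iff_subset.2 hKL)
  have hχ : tsupport χ ⊆ L := closure_minimal
    (fun x hx => interior_subset (by_contra fun h => hx (h1 h))) hL.isClosed
  have hc : ∀ t x, (t, x) ∈ Ω → ∀ a b l,
      JAt I (fun s y => fT (e s) (br I (e s a) (e s b)) y l) t x := fun t x h a b l =>
    Met55.jAt_fT (he t x h) (hs t x h) (Met55.vJ_br (he t x h a) (he t x h b) (ev_vAt hΩ he h a b)) l
  obtain ⟨C1, k1⟩ := bOn_fam hQ hK (fun t ht x hx => he t x (hm' t ht x hx))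
    (f := fun (j : ι × ι) s y => fP (e s) y j.1 j.2) fun j t ht x hx =>
      Met55.mJ_fP (he t x (hm' t ht x hx)) (hs t x (hm' t ht x hx)) j.1 j.2
  obtain ⟨C2, k2⟩ := bOn_fam hQ hK (fun t ht x hx => he t x (hm' t ht x hx))
    (f := fun (j : ι × ι × ι) s y => fT (e s) (br I (e s j.1) (e s j.2.1)) y j.2.2)
    fun j t ht x hx => hc t x (hm' t ht x hx) _ _ _
  obtain ⟨C3, k3⟩ := bOn_fam hQ hK (fun t ht x hx => he t x (hm' t ht x hx))
    (f := fun (a : ι) s y => ∑ b, ∑ l, fT (e s) (br I (e s b) (e s a)) y l * fP (e s) y l b)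
    fun a t ht x hx => FSm.sum' fun b _ => FSm.sum' fun l _ => FSm.mul'
      (hc t x (hm' t ht x hx) b a l)
      (Met55.mJ_fP (he t x (hm' t ht x hx)) (hs t x (hm' t ht x hx)) l b)
  obtain ⟨C4, k4⟩ := bOn_fam hQ hL (fun t ht x hx => he t x (hm t ht x hx))
    (f := fun (j : ι' × ι) s y => χ y * fT (e s) (F0.e j.1) y j.2) fun j t ht x hx =>
      FSm.mul' (JAt.of_fixed (χ.contMDiff x)) (Met55.jAt_fT (he t x (hm t ht x hx))
        (hs t x (hm t ht x hx)) (Met55.VJ.of_fixed (F0.sm j.1 x)) j.2)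
  obtain ⟨c1, k5⟩ := bdd_fam hQ hK (f := fun s y => rj (e s) y / rj F0.e y) fun t ht x hx =>
    (jAt_rj (he t x (hm' t ht x hx)) (hs t x (hm' t ht x hx)) F0).continuousAt
  obtain ⟨c2, k6⟩ := bdd_fam hQ hK (f := fun s y => (rj (e s) y / rj F0.e y)⁻¹) fun t ht x hx =>
    (jAt_rj (he t x (hm' t ht x hx)) (hs t x (hm' t ht x hx)) F0).continuousAt.inv₀
      (div_pos (hs t x (hm' t ht x hx)).rjb_pos (Met55.pre_sp F0 x).rjb_pos).ne'
  obtain ⟨S, hS, k7⟩ := l4On F0 hn hK
  obtain ⟨S', hS', k8⟩ := supOn F0 hn hK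
  have key : ∀ t ∈ Q, ∀ F : Fr I M ι, F.IsVol → F.e = e t → ∀ k, ∀ f : M → ℝ, Sm I f →
      HasCompactSupport f → tsupport f ⊆ K →
        F0.ip k f f ≤ cN ι ι' |c2| |C4 k| k ^ 2 * F.ip k f f := by
    intro t ht F hF hFe k f hf hfc hfs
    have hA : ∀ a b, Sm I fun y => χ y * fT F.e (F0.e a) y b := fun a b =>
      χ.contMDiff.mul ((mix_fT F.toPre F0).2 a b)
    have h3 := nrm_on (F := F.toPre) (F' := F0) hA (c := |c2|) (C := |C4 k|) (K := K)
      (fun a x hx => by
        simp only [show χ x = 1 from h2 hx, one_mul]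
        exact (mix_fT F.toPre F0).1 a x)
      (fun u hu huc hus => by
        rw [Pre.nrm, Pre.nrm, ← Real.sqrt_mul (abs_nonneg _)]
        refine Real.sqrt_le_sqrt (int_le_rd hF h0 (K := K) (fun x hx => ?_)
          (hu.continuous.inner hu.continuous) (huc.mono fun x hx h => hx (by simp [h]))
          (fun _ => real_inner_self_nonneg) fun x hx => hus (subset_tsupport _ fun h => hx ?_))
        · have := k6 t ht x hx
          rw [inv_div, ← hFe] at this
          exact (le_abs_self _).trans (this.trans (le_abs_self _))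
        · simp [h]) k
      (fun a b => (CBs_of_tsupport (hA a b) ((tsupport_mul_subset_left).trans hχ)
        (hFe ▸ k4 t ht F.toPre hFe (a, b))).2 k) hf hfc hfs
    rw [ip_eq, ip_eq, ← nrm_sq, ← nrm_sq, ← mul_pow]
    exact pow_le_pow_left₀ (nrm_nonneg k f) h3 2
  obtain ⟨C, hC⟩ := tOn_of (α := {z : T × Fr I M ι // z.1 ∈ Q ∧ z.2.IsVol ∧ z.2.e = e z.1})
    (F := fun z => z.1.2) (K := K) (C1 := C1) (C2 := C2) (C3 := C3)
    (S := √|c1| * (S * cN ι ι' |c2| |C4 1| 1 ^ 2)) (S' := S' * cN ι ι' |c2| |C4 3| 3 ^ 2)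
    (fun ⟨(t, F), ht, _, hF⟩ a b => by
      rw [show F.P a b = fun y => fP (e t) y a b from funext fun y => hF ▸ Met55.fr_P F a b y]
      exact k1 t ht F.toPre hF (a, b))
    (fun ⟨(t, F), ht, _, hF⟩ a b l => by
      rw [show F.c a b l = fun y => fT (e t) (br I (e t a) (e t b)) y l from
        funext fun y => hF ▸ Met55.fr_c F a b l y]
      exact k2 t ht F.toPre hF (a, b, l))
    (fun ⟨(t, F), ht, hv, hF⟩ a => by
      rw [show F.dv a = fun y => ∑ b, ∑ l, fT (e t) (br I (e t b) (e t a)) y l * fP (e t) y l b from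
        funext fun y => by
          rw [Met55.dv_vol hv, ← show F.e = e t from hF]
          exact Finset.sum_congr rfl fun b _ => Finset.sum_congr rfl fun l _ => by
            rw [Met55.fr_c, Met55.fr_P]]
      exact k3 t ht F.toPre hF a)
    (fun ⟨(t, F), ht, hv, hF⟩ f hf hfc hfs => by
      have h3 := int_le_rd h0 hv (K := K) (c := |c1|) (fun x hx => by
        have := k5 t ht x hx
        rw [← show F.e = e t from hF] at this
        exact (le_abs_self _).trans (this.trans (le_abs_self _))) (g := fun x => f x ^ 4)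
        (hf.continuous.pow 4) (hfc.mono fun x hx h => hx (by simp [h])) (fun _ => by positivity)
        fun x hx => hfs (subset_tsupport _ fun h => hx (by simp [h]))
      refine (Real.sqrt_le_sqrt h3).trans ?_
      rw [Real.sqrt_mul (abs_nonneg _), mul_assoc, mul_assoc]
      exact mul_le_mul_of_nonneg_left ((k7 f hf hfc hfs).trans
        (mul_le_mul_of_nonneg_left (key t ht F hv hF 1 f hf hfc hfs) hS)) (Real.sqrt_nonneg _))
    fun ⟨(t, F), ht, hv, hF⟩ f hf hfc hfs x => by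
      rw [mul_assoc]
      exact (k8 f hf hfc hfs x).trans
        (mul_le_mul_of_nonneg_left (key t ht F hv hF 3 f hf hfc hfs) hS')
  exact ⟨C, fun t ht F hv hF => hC ⟨(t, F), ht, hv, hF⟩⟩

end fam

end Crest.Agent.X212.Cht98
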