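import Crest.Agent.X212.Cht98.PchA
import Crest.Agent.X212.Map77.S1
import Crest.Agent.X212.Nd18.Api

/-! Row 212, layer AN-S (helper98): **PCH**, patching of parametrices along the ends. -/

set_option autoImplicit false
set_option linter.unusedSectionVars false
noncomputable section
open scoped Manifold ContDiff Topology InnerProductSpace
open MeasureTheory Set Function Filter

namespace Crest.Agent.X212.Cht98
open An An.Pre Sob92 Ell97 Prm93 Cyf70 Map77 Map77.S Sw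
open M (Mf pm)
open Nd18 (Dp BD)

variable {κ lam ν : Type} [Fintype κ] [Fintype lam] [Fintype ν] [DecidableEq ν] {X : Mf 4}

/-- the step at time `R` towards the side `b` -/
def stp (b : Bool) (R t : ℝ) : ℝ := Real.smoothTransition (pm b * t - R)

theorem stp_zero {b : Bool} {R t : ℝ} (h : pm b * t ≤ R) : stp b R t = 0 :=
  Real.smoothTransition.zero_of_nonpos (by linarith)

theorem stp_one {b : Bool} {R t : ℝ} (h : R + 1 ≤ pm b * t) : stp b R t = 1 :=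
  Real.smoothTransition.one_of_one_le (by linarith)

theorem stp_mul (b : Bool) (R t : ℝ) : stp b R t * stp b (R + 1) t = stp b (R + 1) t := by
  rcases le_total (pm b * t) (R + 1) with h | h
  · rw [stp_zero h, mul_zero]
  · rw [stp_one h, one_mul]

theorem bd_stp (b : Bool) (R : ℝ) : ∃ C, BD (stp b R) C := by
  obtain ⟨C, h⟩ := Nd18.bd_st
  refine ⟨C, ?_⟩
  cases b
  · convert h.refl (-R) using 2 with t
    simp only [stp, pm, Bool.false_eq_true, if_false]; congr 1; ring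
  · convert h.shift (-R) using 2 with t
    simp only [stp, pm, if_true]; congr 1; ring

theorem pm_win {b : Bool} {t t' : ℝ} (h : |t' - t| < 1) :
    pm b * t - 1 < pm b * t' ∧ pm b * t' < pm b * t + 1 := by
  rw [abs_lt] at h
  cases b <;> simp only [pm, Bool.false_eq_true, if_false, if_true] <;> constructor <;> linarith

theorem pm_abs (b : Bool) (t : ℝ) : |pm b * t| = |t| := by cases b <;> simp [pm]

theorem pm_ne {b b' : Bool} (h : b ≠ b') (t : ℝ) : pm b * t = -(pm b' * t) := by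
  cases b <;> cases b' <;> simp_all [pm]

section nk
variable {nc : ℕ} {e : En3 κ lam ν} {bg : Bg X.I X.M κ lam ν nc} (K : Sw.Nk e bg) (b : Bool)

/-- beyond `R` the side `b` is deep in the neck -/
def Dpe (R : ℝ) : Prop := ∀ t, R ≤ pm b * t → t ∈ Dp K.p K.q 1

variable {K b} {R R' : ℝ}

theorem ev_dpe (h : K.Inf b) : ∀ᶠ R in atTop, Dpe K b R := by
  cases b
  · have hp : K.p = none := h
    filter_upwards [eventually_ge_atTop (1 - K.q.getD 0)] with R hR t ht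
    refine ⟨by simp [hp], fun a ha => ?_⟩
    rw [Option.mem_def.1 ha] at hR
    simp only [pm, Bool.false_eq_true, if_false, Option.getD_some] at ht hR
    linarith
  · have hq : K.q = none := h
    filter_upwards [eventually_ge_atTop (K.p.getD 0 + 1)] with R hR t ht
    refine ⟨fun a ha => ?_, by simp [hq]⟩
    rw [Option.mem_def.1 ha] at hR
    simp only [pm, if_true, Option.getD_some] at ht hR
    linarith

theorem Dpe.mono (h : Dpe K b R) (hR : R ≤ R') : Dpe K b R' := fun t ht => h t (hR.trans ht)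

theorem Dpe.zero (h : Dpe K b R) : ∀ t ∉ Dp K.p K.q 1, stp b R t = 0 := fun t ht =>
  stp_zero (le_of_not_ge fun h' => ht (h t h'))

theorem Dpe.src (h : Dpe K b R) {x : e.Y.M × ℝ} (hx : R ≤ pm b * x.2) : x ∈ K.ψ.source :=
  K.mem_src.2 (Nd18.Dp_sub one_pos (h _ hx))

theorem Dpe.off (h : Dpe K b R) {x : X.M} (hx : x ∉ K.ψ.target) : stp b R (K.tm x) = 0 :=
  h.zero _ fun h' => hx (K.dp_sub one_pos h')

theorem Dpe.cb (h : Dpe K b R) : bg.F.Cb fun x => stp b R (K.tm x) := by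
  obtain ⟨C, hC⟩ := bd_stp b R
  rw [← K.push_time one_pos h.zero]
  exact ⟨_, K.CBs_push one_pos (hC.cyl e.D.F.toPre) fun z => h.zero z.2⟩

theorem Dpe.tdr (h : Dpe K b R) : TD e.D.Z.toPre bg.F.toPre K.ψ fun x => stp b R (K.tm x) :=
  have h1 : support (fun x => stp b R (K.tm x)) ⊆ K.dp 1 :=
    fun _ hx => by_contra fun h' => hx (h.zero _ h')
  ⟨K.iso, h.cb, (closure_minimal h1 K.isClosed_dp).trans (K.dp_sub one_pos)⟩

theorem Dpe.tde (h : Dpe K b R) : TD bg.F.toPre e.D.Z.toPre K.ψ.symm fun z => stp b R z.2 :=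
  ⟨iso_symm K.iso, (bd_stp b R).imp fun _ hC => hC.cyl e.D.F.toPre,
    (K.adm one_pos fun z => h.zero z.2).1⟩

variable {V : Type} [NormedAddCommGroup V] [InnerProductSpace ℝ V] [FiniteDimensional ℝ V]
  {p : X.M → V →L[ℝ] V} {p' : e.Y.M × ℝ → V →L[ℝ] V}

theorem pq_symm {α : Type} {f : X.M → α} {f' : e.Y.M × ℝ → α}
    (hp : ∀ x ∈ K.ψ.source, f (K.ψ x) = f' x) : ∀ x ∈ K.ψ.symm.source, f x = f' (K.ψ.symm x) :=
  fun x hx => by rw [← hp _ (K.ψ.map_target hx), K.ψ.right_inv hx]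

theorem push_eq (h : Dpe K b R) (u : e.Y.M × ℝ → V) (x : X.M) :
    pull K.ψ.symm (fun z => stp b R z.2 • u z) x = stp b R (K.tm x) • u (K.ψ.symm x) := by
  by_cases hx : x ∈ K.ψ.target
  · rw [pull_of_mem (φ := K.ψ.symm) hx, K.snd_symm hx]
  · rw [pull_of_notMem (φ := K.ψ.symm) hx, h.off hx, zero_smul]

theorem pull_eq (h : Dpe K b R) (u : X.M → V) (x : e.Y.M × ℝ) :
    pull K.ψ (fun z => stp b R (K.tm z) • u z) x = stp b R x.2 • u (K.ψ x) := by
  by_cases hx : x ∈ K.ψ.source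
  · rw [pull_of_mem hx, K.tm_ψ x hx]
  · rw [pull_of_notMem hx, stp_zero (le_of_not_ge fun h' => hx (h.src h')), zero_smul]

theorem rep_er (h : Dpe K b R) (h' : Dpe K b R') (hp : ∀ x ∈ K.ψ.source, p (K.ψ x) = p' x) (k : ℕ) :
    bg.F.Rep (tc bg.F.toPre e.D.Z.toPre K.ψ.symm k p' p (fun z => stp b R z.2) ∘L
      tc e.D.Z.toPre bg.F.toPre K.ψ k p p' fun x => stp b R' (K.tm x))
      fun u x => (stp b R (K.tm x) * stp b R' (K.tm x)) • u x := by
  refine RepT_congr (RepT_comp (h.tde.rep (pq_symm hp) k)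
    (h'.tdr.rep (fun x hx => (hp x hx).symm) k)) fun u => funext fun x => ?_
  rw [push_eq h, pull_eq h']
  by_cases hx : x ∈ K.ψ.target
  · rw [K.snd_symm hx, K.ψ.right_inv hx, mul_smul]
  · simp [h.off hx]

end nk

variable {N : Type} [Fintype N] {e : N → En3 κ lam ν} (s : Pz X 0 e)

/-- the infinite ends -/
abbrev Ed : Type := {a : N × Bool // s.Inf a.1 a.2}

variable {s}

/-- the neck of an end -/
def Ed.K (a : Ed s) : Sw.Nk (e a.1.1) s.bg := a.2.choose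

theorem Ed.mem (a : Ed s) : a.K ∈ s.nk a.1.1 := a.2.choose_spec.1

theorem Ed.inf (a : Ed s) : a.K.Inf a.1.2 := a.2.choose_spec.2

theorem not_core {T : ℝ} {x : X.M} (hx : x ∉ s.core T) :
    ∃ (a : Ed s) (z : (e a.1.1).Y.M × ℝ), z.2 ∈ a.K.far a.1.2 T ∧ a.K.ψ z = x := by
  simp only [Pz.core, mem_ofPred_eq, not_forall, not_not] at hx
  obtain ⟨i, b, K, h1, h2, z, h3, h4⟩ := hx
  have hi : s.Inf i b := ⟨K, h1, h2⟩
  obtain rfl : K = Ed.K ⟨(i, b), hi⟩ := Option.mem_unique h1 (Ed.mem ⟨(i, b), hi⟩)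
  exact ⟨⟨(i, b), hi⟩, z, h3.2, h4⟩

variable (s) in
/-- a depth beyond which all ends are deep -/
def Dps (R : ℝ) : Prop := 0 ≤ R ∧ ∀ a : Ed s, Dpe a.K a.1.2 R

theorem Dps.mono {R R' : ℝ} (h : Dps s R) (hR : R ≤ R') : Dps s R' :=
  ⟨h.1.trans hR, fun a => (h.2 a).mono hR⟩

theorem Dps.other (hs : s.OK) {R : ℝ} (h : Dps s R) {a a' : Ed s} (hne : a ≠ a')
    {z : (e a'.1.1).Y.M × ℝ} (hz : R ≤ pm a'.1.2 * z.2) : stp a.1.2 R (a.K.tm (a'.K.ψ z)) = 0 := by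
  have h1 := (h.2 a').src hz
  obtain ⟨⟨i, b⟩, hi⟩ := a
  obtain ⟨⟨j, b'⟩, hj⟩ := a'
  by_cases hij : i = j
  · subst hij
    have hK : Ed.K ⟨(i, b), hi⟩ = Ed.K ⟨(i, b'), hj⟩ :=
      Option.mem_unique (Ed.mem ⟨(i, b), hi⟩) (Ed.mem ⟨(i, b'), hj⟩)
    have hb : b ≠ b' := fun h' => hne (by subst h'; rfl)
    rw [hK, (Ed.K ⟨(i, b'), hj⟩).tm_ψ z h1]
    refine stp_zero ?_
    rw [pm_ne hb]
    linarith [h.1]
  · exact (h.2 ⟨(i, b), hi⟩).off fun h' => disjoint_left.1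
      (hs.dj hij _ (Ed.mem ⟨(i, b), hi⟩) _ (Ed.mem ⟨(j, b'), hj⟩)) h'
      ((Ed.K ⟨(j, b'), hj⟩).ψ.map_source h1)

open Classical in
variable (s) in
/-- the interior cut-off -/
def ch0 (R : ℝ) (x : X.M) : ℝ := 1 - ∑ a : Ed s, stp a.1.2 R (a.K.tm x)

theorem Dps.cb {R : ℝ} (h : Dps s R) : s.bg.F.Cb (ch0 s R) :=
  Cb_sub (Cb_const 1) (Cb_sum _ fun a _ => (h.2 a).cb)

theorem Dps.far (hs : s.OK) {R : ℝ} (h : Dps s R) (a : Ed s) {z : (e a.1.1).Y.M × ℝ}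
    (hz : R + 1 ≤ pm a.1.2 * z.2) : ch0 s R (a.K.ψ z) = 0 := by
  classical
  rw [ch0, Finset.sum_eq_single a (fun a' _ hne => h.other hs hne (by linarith)) (by simp),
    a.K.tm_ψ z ((h.2 a).src (by linarith)), stp_one hz, sub_self]

theorem Dps.sub (hs : s.OK) {R : ℝ} (h : Dps s R) : tsupport (ch0 s R) ⊆ s.core (R + 1) :=
  closure_minimal (fun x hx => by_contra fun h' => by
    obtain ⟨a, z, h1, rfl⟩ := not_core h'
    exact hx (h.far hs a h1.2.le)) (hs.cpt _).isClosed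

theorem Dps.td {R : ℝ} (h : Dps s R) :
    TD s.bg.F.toPre s.bg.F.toPre (OpenPartialHomeomorph.refl _) (ch0 s R) :=
  ⟨iso_refl _, h.cb, subset_univ _⟩

variable {V W : Type} [NormedAddCommGroup V] [InnerProductSpace ℝ V] [FiniteDimensional ℝ V]
  [NormedAddCommGroup W] [InnerProductSpace ℝ W] [FiniteDimensional ℝ W]

variable (s) in
/-- the interior cut-off as an operator -/
abbrev c0 (k : ℕ) (p : X.M → V →L[ℝ] V) (R : ℝ) : s.bg.F.H k p →L[ℝ] s.bg.F.H k p :=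
  tc s.bg.F.toPre s.bg.F.toPre (OpenPartialHomeomorph.refl _) k p p (ch0 s R)

/-- restriction to an end -/
abbrev Ed.r (a : Ed s) (k : ℕ) (p : X.M → V →L[ℝ] V) (p' : (e a.1.1).Y.M × ℝ → V →L[ℝ] V) (R : ℝ) :
    s.bg.F.H k p →L[ℝ] (e a.1.1).D.Z.H k p' :=
  tc (e a.1.1).D.Z.toPre s.bg.F.toPre a.K.ψ k p p' fun x => stp a.1.2 R (a.K.tm x)

/-- extension from an end -/
abbrev Ed.x (a : Ed s) (k : ℕ) (p : X.M → V →L[ℝ] V) (p' : (e a.1.1).Y.M × ℝ → V →L[ℝ] V) (R : ℝ) :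
    (e a.1.1).D.Z.H k p' →L[ℝ] s.bg.F.H k p :=
  tc s.bg.F.toPre (e a.1.1).D.Z.toPre a.K.ψ.symm k p' p fun z => stp a.1.2 R z.2

theorem Dps.rep0 {R : ℝ} (h : Dps s R) (k : ℕ) (p : X.M → V →L[ℝ] V) :
    s.bg.F.Rep (c0 s k p R) fun u x => ch0 s R x • u x :=
  RepT_congr (h.td.rep (fun _ _ => rfl) k) fun _ => pull_refl _

open Classical in
theorem Dps.one {R R₁ R₂ : ℝ} (h : Dps s R) (h1 : Dps s R₁) (h2 : Dps s R₂)
    (hm : ∀ b t, stp b R₁ t * stp b R₂ t = stp b R t) (k : ℕ) {p : X.M → V →L[ℝ] V}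
    {p' : ∀ a : Ed s, (e a.1.1).Y.M × ℝ → V →L[ℝ] V}
    (hp : ∀ a : Ed s, ∀ x ∈ a.K.ψ.source, p (a.K.ψ x) = p' a x) :
    c0 s k p R + ∑ a : Ed s, a.x k p (p' a) R₁ ∘L a.r k p (p' a) R₂ =
      ContinuousLinearMap.id ℝ _ :=
  RepT_eq (RepT_add (h.rep0 k p) (RepT_sum _ fun a _ => rep_er (h1.2 a) (h2.2 a) (hp a) k)) Rep_id
    fun u => funext fun x => by
      simp only [Pi.add_apply, hm, ← Finset.sum_smul, ← add_smul, ch0, sub_add_cancel, one_smul, id]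

section main
variable {k : ℕ} {G : Fr X.I X.M (Option κ)} {A : Op X.M (Option κ) V W}
  {L : s.bg.F.H (k + 1) A.p →L[ℝ] s.bg.F.H k A.q}
  {A' : ∀ i, Bool → Op ((e i).Y.M × ℝ) (Option κ) V W}
  {L' : ∀ i b, (e i).D.Z.H (k + 1) (A' i b).p →L[ℝ] (e i).D.Z.H k (A' i b).q}
  (h : Pch s k G A L A' L') {R₀ R : ℝ}
  (ha : ∀ i b, ∀ K ∈ s.nk i, K.Inf b → ∀ (u : Sec _ A.p) (u' : Sec _ (A' i b).p)
    (x : (e i).Y.M × ℝ), x.2 ∈ K.far b R₀ → (∀ x', |x'.2 - x.2| < 1 → u.1 (K.ψ x') = u'.1 x') →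
    s.bg.F.val k _ (L (s.bg.F.toH _ _ u)) (K.ψ x) =
      (e i).D.Z.val k _ (L' i b ((e i).D.Z.toH _ _ u')) x)
  (hR : Dps s R) (h0 : R₀ ≤ R)
include h

theorem pch_lk : Lk s.bg.F.toPre G.toPre A L := Lk.of_gain (h.tw.rep h.nc k) h.gain

theorem pch_lk' (a : Ed s) :
    Lk (e a.1.1).D.Z.toPre (e a.1.1).D.Z.toPre (A' a.1.1 a.1.2) (L' a.1.1 a.1.2) :=
  have hn := h.nc' _ _ a.2
  Lk.of_gain (rep_opH hn.σ hn.B hn.alg.qσ (Maps.of_left hn.alg.qB)) (h.gain' _ _ a.2)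

theorem pch_cbD {χ : X.M → ℝ} (hχ : s.bg.F.Cb χ) (a : Option κ) : s.bg.F.Cb (G.D a χ) :=
  h.tw.cmp.Cb_iff.2 (Cb_D (h.tw.cmp.Cb_iff.1 hχ) a)

theorem pch_tame (i : N) : ∃ C, (e i).D.Z.Tame C := (h.ok.en i).cyl.tame

include hR

theorem pch_val0 {U : Type} [NormedAddCommGroup U] [InnerProductSpace ℝ U] [FiniteDimensional ℝ U]
    {p : X.M → U →L[ℝ] U} (u : s.bg.F.H k p) (x : X.M) :
    s.bg.F.val k p (c0 s k p R u) x = ch0 s R x • s.bg.F.val k p u x := by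
  rw [hR.td.val (fun _ _ => rfl) h.tw.sup h.tw.sup h.hk, pull_refl]

theorem pch_l0 : Cq (c0 s k A.q R ∘L L) (LH s.bg.F.toPre G.toPre k A.p A.q A ∘L c0 s (k + 1) A.p R) := by
  have := FiniteDimensional.complete ℝ W
  refine cq_of_supp h.tw.t0.choose_spec h.hk (hR.td.comm (DC.refl _) h.nc h.nc (pch_cbD h hR.cb)
    (fun _ _ => rfl) (fun _ _ => rfl) (fun _ _ _ => rfl) (Lk.of_rep (h.tw.rep h.nc k)) (pch_lk h))
    (dense_toH _ _ _) ((h.ok.cpt _).of_isClosed_subset (isClosed_tsupport _) (hR.sub h.ok))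
    fun u x hx => ?_
  rw [ContinuousLinearMap.comp_apply, pch_val0 h hR, image_eq_zero_of_notMem_tsupport hx, zero_smul,
    RepT_toH (RepT_comp (h.tw.rep h.nc k) (hR.rep0 _ _)), val_toH h.tw.sup h.hk]
  have s2 : support (fun y => ch0 s R y • u.1 y) ⊆ support (ch0 s R) :=
    fun y hy h0 => hy (by simp [h0])
  exact (image_eq_zero_of_notMem_tsupport fun h' =>
    hx (closure_mono s2 (tsupport_op _ _ _ h'))).symm

theorem pch_cq0 {U : Type} [NormedAddCommGroup U] [InnerProductSpace ℝ U] [FiniteDimensional ℝ U]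
    {p : X.M → U →L[ℝ] U} {Y : Type*} [NormedAddCommGroup Y] [NormedSpace ℝ Y]
    {D : Y →L[ℝ] s.bg.F.H k p} (hD : Gn D) : IsCompactOperator (c0 s k p R ∘L D) :=
  cpt_of_supp h.tw.t0.choose_spec h.hk (hR.td.gn (fun _ _ => rfl) hD) denseRange_id
    ((h.ok.cpt _).of_isClosed_subset (isClosed_tsupport _) (hR.sub h.ok)) fun u x hx => by
    rw [ContinuousLinearMap.comp_apply, pch_val0 h hR, image_eq_zero_of_notMem_tsupport hx,
      zero_smul]

include ha h0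

/-- far out `L u` vanishes if `u` vanishes on the window -/
theorem pch_far (a : Ed s) (u : Sec _ A.p) {z : (e a.1.1).Y.M × ℝ} (hz : z.2 ∈ a.K.far a.1.2 (R + 2))
    (hu : ∀ z', |z'.2 - z.2| < 1 → u.1 (a.K.ψ z') = 0) :
    s.bg.F.val k _ (L (s.bg.F.toH _ _ u)) (a.K.ψ z) = 0 := by
  have := FiniteDimensional.complete ℝ W
  rw [ha _ _ _ a.mem a.inf u 0 z ⟨hz.1, by have := hz.2; simp only [mem_ofPred_eq] at this ⊢; linarith⟩
    hu, map_zero, map_zero, val_zero, Pi.zero_apply]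

theorem pch_r0 : Cq (L ∘L c0 s (k + 1) A.p R) (c0 s k A.q R ∘L LH s.bg.F.toPre G.toPre k A.p A.q A) := by
  refine Cq.symm (cq_of_supp h.tw.t0.choose_spec h.hk (hR.td.comm (DC.refl _) h.nc h.nc
    (pch_cbD h hR.cb) (fun _ _ => rfl) (fun _ _ => rfl) (fun _ _ _ => rfl) (pch_lk h)
    (Lk.of_rep (h.tw.rep h.nc k))) (dense_toH _ _ _) (h.ok.cpt (R + 2)) fun u x hx => ?_)
  obtain ⟨a, z, h1, rfl⟩ := not_core hx
  have h2 : R + 2 < pm a.1.2 * z.2 := h1.2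
  rw [ContinuousLinearMap.comp_apply, pch_val0 h hR, hR.far h.ok a (by linarith), zero_smul,
    ContinuousLinearMap.comp_apply, RepT_toH (hR.rep0 _ _), pch_far h ha hR h0 a _ h1]
  intro z' hz'
  show ch0 s R _ • _ = _
  rw [hR.far h.ok a (by linarith [(pm_win (b := a.1.2) hz').1]), zero_smul]

theorem pch_l1 (a : Ed s) : Cq (a.r k A.q (A' a.1.1 a.1.2).q R ∘L L)
    (L' a.1.1 a.1.2 ∘L a.r (k + 1) A.p (A' a.1.1 a.1.2).p R) := by
  obtain ⟨C, hC⟩ := pch_tame h a.1.1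
  have hq := h.pq _ _ _ a.mem a.inf
  have hd := hR.2 a
  refine cq_of_supp hC h.hk (hd.tdr.comm (DC.of_iso a.K.iso (fun _ _ _ => rfl) (h.fr _ _ a.mem))
    (h.nc' _ _ a.2) h.nc (pch_cbD h hd.cb) (fun x hx => (hq x hx).1.symm)
    (fun x hx => (hq x hx).2.1.symm) (fun x hx c => ((hq x hx).2.2 c).symm) (pch_lk' h a) (pch_lk h))
    (dense_toH _ _ _) (isCompact_univ.prod (isCompact_Icc (a := -(R + 2)) (b := R + 2)))
    fun u x hx => ?_
  have h1 : R + 2 < |pm a.1.2 * x.2| := by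
    rw [pm_abs]
    exact lt_of_not_ge fun h' => hx ⟨mem_univ _, abs_le.1 h'⟩
  rw [ContinuousLinearMap.comp_apply,
    hd.tdr.val (fun x hx => (hq x hx).2.1.symm) (Sup.of_tame hC) h.tw.sup h.hk, pull_eq hd,
    ContinuousLinearMap.comp_apply, RepT_toH (hd.tdr.rep (fun x hx => (hq x hx).1.symm) _)]
  rcases lt_abs.1 h1 with h2 | h2
  · rw [stp_one (by linarith), one_smul]
    refine ha _ _ _ a.mem a.inf u _ x ⟨a.K.mem_src.1 (hd.src (by linarith)), ?_⟩ fun x' hx' => ?_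
    · show R₀ < _
      linarith
    · show _ = pull _ _ _
      rw [pull_eq hd, stp_one (by linarith [(pm_win (b := a.1.2) hx').1]), one_smul]
  · rw [stp_zero (by linarith [hR.1]), zero_smul]
    refine (h.lo _ _ a.2 _ x fun x' hx' => ?_).symm
    show pull _ _ _ = _
    rw [pull_eq hd, stp_zero (by linarith [(pm_win (b := a.1.2) hx').2, hR.1]), zero_smul]

theorem pch_r1 (a : Ed s) : Cq (L ∘L a.x (k + 1) A.p (A' a.1.1 a.1.2).p R)
    (a.x k A.q (A' a.1.1 a.1.2).q R ∘L L' a.1.1 a.1.2) := by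
  obtain ⟨C, hC⟩ := pch_tame h a.1.1
  have hq := h.pq _ _ _ a.mem a.inf
  have hd := hR.2 a
  have e1 := pq_symm fun x hx => (hq x hx).1
  have e2 := pq_symm fun x hx => (hq x hx).2.1
  refine Cq.symm (cq_of_supp h.tw.t0.choose_spec h.hk (hd.tde.comm
    (DC.of_iso (iso_symm a.K.iso) (h.fr _ _ a.mem) fun _ _ _ => rfl) h.nc (h.nc' _ _ a.2)
    (fun c => Cb_D hd.tde.cb c) e1 e2
    (fun x hx c => pq_symm (fun x hx => (hq x hx).2.2 c) x hx) (pch_lk h) (pch_lk' h a))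
    (dense_toH _ _ _) (h.ok.cpt (R + 2)) fun u x hx => ?_)
  obtain ⟨a', z, h1, rfl⟩ := not_core hx
  have h2 : R + 2 < pm a'.1.2 * z.2 := h1.2
  rw [ContinuousLinearMap.comp_apply, hd.tde.val e2 h.tw.sup (Sup.of_tame hC) h.hk, push_eq hd,
    ContinuousLinearMap.comp_apply, RepT_toH (hd.tde.rep e1 _)]
  by_cases hne : a = a'
  · subst hne
    have h3 := hd.src (x := z) (by linarith)
    rw [a.K.tm_ψ z h3, a.K.ψ.left_inv h3, stp_one (by linarith), one_smul]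
    refine (ha _ _ _ a.mem a.inf _ u z ⟨h1.1, ?_⟩ fun z' hz' => ?_).symm
    · show R₀ < _
      linarith
    · have h4 := (pm_win (b := a.1.2) hz').1
      have h5 := hd.src (x := z') (by linarith)
      show pull _ _ _ = _
      rw [push_eq hd, a.K.tm_ψ z' h5, a.K.ψ.left_inv h5, stp_one (by linarith), one_smul]
  · rw [hR.other h.ok hne (by linarith), zero_smul, pch_far h ha hR h0 a' _ h1]
    intro z' hz'
    show pull _ _ _ = _
    rw [push_eq hd, hR.other h.ok hne (by linarith [(pm_win (b := a'.1.2) hz').1]), zero_smul]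

end main

/-- **PCH** -/
theorem pchStmt : PchStmt κ lam ν := by
  classical
  intro X N _ e s V W _ _ _ _ _ _ k G A L A' L' h
  obtain ⟨R₀, ha⟩ := h.agr
  obtain ⟨R, h1, h2, h3⟩ := ((eventually_ge_atTop 0).and ((eventually_ge_atTop R₀).and
    (eventually_all.2 fun a : Ed s => ev_dpe a.inf))).exists
  have hR : Dps s R := ⟨h1, h3⟩
  have hR' : Dps s (R + 1) := hR.mono (by linarith)
  have h0 : R₀ ≤ R + 1 := by linarith
  choose Q hQ hQ' using fun a : Ed s => exists_inv (h.bij _ _ a.2)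
  have hq := fun a : Ed s => h.pq _ _ _ a.mem a.inf
  obtain ⟨k, rfl⟩ : ∃ k', k = k' + 1 := ⟨k - 1, by have := h.hk; omega⟩
  obtain ⟨Q₀, R₁, hl⟩ := exists_left h.tw h.nc h.cl.1 k
  obtain ⟨Q₁, hr⟩ := exists_right h.tw h.nc h.cl (k + 1)
  refine isFredholm_of_cq
    (left_patch₀ (Q₀ := Q₀) (pch_l0 h hR') ?_ (pch_l1 h ha hR' h0) hQ
      (hR'.one hR hR' (fun b t => stp_mul b R t) _ fun a x hx => (hq a x hx).1))
    (right_patch₀ (Q₀ := Q₁) (pch_r0 h ha hR' h0) ?_ (pch_r1 h ha hR' h0) hQ'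
      (hR'.one hR' hR (fun b t => (mul_comm _ _).trans (stp_mul b R t)) _
        fun a x hx => (hq a x hx).2.1))
  · have h4 := (pch_cq0 h hR' (p := A.p) ⟨ContinuousLinearMap.id ℝ _, rfl⟩).clm_comp R₁
    refine Cq.symm (Cq.of_cpt (K := R₁ ∘L c0 s (k + 1) A.p (R + 1) ∘L
      s.bg.F.incl (k + 2) (k + 1) A.p ∘L ContinuousLinearMap.id ℝ _) h4 fun x => ?_)
    have h5 := DFunLike.congr_fun (RepT_eq (RepT_comp (hR'.rep0 (k + 1) A.p) (rep_incl (k + 1).le_succ))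
      (RepT_comp (rep_incl (k + 1).le_succ) (hR'.rep0 (k + 2) A.p)) fun _ => rfl) x
    simp only [ContinuousLinearMap.comp_apply, ContinuousLinearMap.id_apply] at h5 ⊢
    rw [h5, hl]
  · exact Cq.of_cpt (pch_cq0 h hR' hr) fun x => by simp

end Crest.Agent.X212.Cht98
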