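import Crest.Agent.X212.Map77.Tw
import Crest.Agent.X212.Cyf70.Sf
import Crest.Agent.X212.Sob92.Iso

/-! Row 212, layer AN-S (helper98): operators that gain a derivative, cut and transport,
interior parametrices. -/

set_option autoImplicit false
set_option linter.unusedSectionVars false
noncomputable section
open scoped Manifold ContDiff Topology InnerProductSpace
open MeasureTheory Set Function Filter

namespace Crest.Agent.X212.Cht98
open An An.Pre Sob92 Ell97 Prm93 Cyf70 Map77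

section abs
variable {E F : Type*} [NormedAddCommGroup E] [NormedSpace ℝ E] [NormedAddCommGroup F]
  [NormedSpace ℝ F] {α : Type*} [Fintype α] {E' F' : α → Type*} [∀ a, NormedAddCommGroup (E' a)]
  [∀ a, NormedSpace ℝ (E' a)] [∀ a, NormedAddCommGroup (F' a)] [∀ a, NormedSpace ℝ (F' a)]
  {T T₀ : E →L[ℝ] F} {Q₀ : F →L[ℝ] E} {c : E →L[ℝ] E} {c' : F →L[ℝ] F}
  {T' : ∀ a, E' a →L[ℝ] F' a} {Q : ∀ a, F' a →L[ℝ] E' a} {e : ∀ a, E' a →L[ℝ] E}
  {r' : ∀ a, F →L[ℝ] F' a}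

theorem left_patch₀ {r : ∀ a, E →L[ℝ] E' a} (h0 : Cq (c' ∘L T) (T₀ ∘L c))
    (h0' : Cq (Q₀ ∘L T₀ ∘L c) c) (h1 : ∀ a, Cq (r' a ∘L T) (T' a ∘L r a))
    (h2 : ∀ a x, Q a (T' a x) = x) (h3 : c + ∑ a, e a ∘L r a = ContinuousLinearMap.id ℝ E) :
    Cq ((Q₀ ∘L c' + ∑ a, e a ∘L Q a ∘L r' a) ∘L T) (ContinuousLinearMap.id ℝ E) := by
  rw [← h3, ContinuousLinearMap.add_comp, ContinuousLinearMap.finsetSum_comp]
  exact ((h0.left Q₀).trans h0').add (Cq.sum _ fun a _ =>
    (((h1 a).left (Q a)).left (e a)).congr (fun _ => rfl) fun x => by simp [h2])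

theorem right_patch₀ {e' : ∀ a, F' a →L[ℝ] F} (h0 : Cq (T ∘L c) (c' ∘L T₀))
    (h0' : Cq (c' ∘L T₀ ∘L Q₀) c') (h1 : ∀ a, Cq (T ∘L e a) (e' a ∘L T' a))
    (h2 : ∀ a x, T' a (Q a x) = x) (h3 : c' + ∑ a, e' a ∘L r' a = ContinuousLinearMap.id ℝ F) :
    Cq (T ∘L (c ∘L Q₀ + ∑ a, e a ∘L Q a ∘L r' a)) (ContinuousLinearMap.id ℝ F) := by
  rw [← h3, ContinuousLinearMap.comp_add, ContinuousLinearMap.comp_finsetSum]
  exact ((h0.right Q₀).trans h0').add (Cq.sum _ fun a _ =>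
    ((h1 a).right (Q a ∘L r' a)).congr (fun _ => rfl) fun x => by simp [h2])

theorem exists_inv [CompleteSpace E] [CompleteSpace F] (h : Bijective T) :
    ∃ Q : F →L[ℝ] E, (∀ x, Q (T x) = x) ∧ ∀ y, T (Q y) = y :=
  let e := ContinuousLinearEquiv.ofBijective T (LinearMap.ker_eq_bot.2 h.1)
    (LinearMap.range_eq_top.2 h.2)
  ⟨e.symm, e.symm_apply_apply, e.apply_symm_apply⟩

end abs

variable {E : Type} [NormedAddCommGroup E] [NormedSpace ℝ E] [FiniteDimensional ℝ E]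
  [MeasurableSpace E] [BorelSpace E]
  {HM : Type} [TopologicalSpace HM] {I : ModelWithCorners ℝ E HM} [I.Boundaryless]
  {M : Type} [TopologicalSpace M] [ChartedSpace HM M] [IsManifold I ∞ M]
  [MeasurableSpace M] [T2Space M] [BorelSpace M] [SecondCountableTopology M]
  {E' : Type} [NormedAddCommGroup E'] [NormedSpace ℝ E'] [FiniteDimensional ℝ E']
  [MeasurableSpace E'] [BorelSpace E']
  {HM' : Type} [TopologicalSpace HM'] {I' : ModelWithCorners ℝ E' HM'} [I'.Boundaryless]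
  {M' : Type} [TopologicalSpace M'] [ChartedSpace HM' M'] [IsManifold I' ∞ M']
  [MeasurableSpace M'] [T2Space M'] [BorelSpace M'] [SecondCountableTopology M']
  {ι : Type} [Fintype ι]
  {V W : Type} [NormedAddCommGroup V] [InnerProductSpace ℝ V] [FiniteDimensional ℝ V]
  [NormedAddCommGroup W] [InnerProductSpace ℝ W] [FiniteDimensional ℝ W]
  {X X' : Type*} [NormedAddCommGroup X] [NormedSpace ℝ X] [NormedAddCommGroup X'] [NormedSpace ℝ X']
  {k : ℕ}

/-- `D` gains a derivative -/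
def Gn {F : Pre I M ι} {q : M → W →L[ℝ] W} (D : X →L[ℝ] F.H k q) : Prop :=
  ∃ D' : X →L[ℝ] F.H (k + 1) q, D = F.incl (k + 1) k q ∘L D'

namespace Gn
variable {F : Pre I M ι} {q : M → W →L[ℝ] W} {D D' : X →L[ℝ] F.H k q}

theorem add (h : Gn D) (h' : Gn D') : Gn (D + D') := by
  obtain ⟨A, rfl⟩ := h
  obtain ⟨B, rfl⟩ := h'
  exact ⟨A + B, (ContinuousLinearMap.comp_add _ _ _).symm⟩

theorem neg (h : Gn D) : Gn (-D) := by
  obtain ⟨A, rfl⟩ := h
  exact ⟨-A, (ContinuousLinearMap.comp_neg _ _).symm⟩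

theorem sub (h : Gn D) (h' : Gn D') : Gn (D - D') := by
  rw [sub_eq_add_neg]; exact h.add h'.neg

theorem comp (h : Gn D) (P : X' →L[ℝ] X) : Gn (D ∘L P) := by
  obtain ⟨A, rfl⟩ := h
  exact ⟨A ∘L P, rfl⟩

theorem congr (h : Gn D) (e : ∀ x, D' x = D x) : Gn D' := (ContinuousLinearMap.ext e) ▸ h

end Gn

/-- **An operator that gains a derivative and has values supported in a compact set is compact**
(the support condition is needed on a dense set only). -/
theorem cpt_of_supp {F : Fr I M ι} {C : ℕ → ℝ} (hF : F.Tame C) (hk : 4 ≤ k) {q : M → W →L[ℝ] W}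
    {D : X →L[ℝ] F.H k q} (hD : Gn D) {Z : Type*} {j : Z → X} (hj : DenseRange j) {K : Set M}
    (hK : IsCompact K) (hs : ∀ z, ∀ x ∉ K, F.val k q (D (j z)) x = 0) : IsCompactOperator D := by
  have := FiniteDimensional.complete ℝ W
  obtain ⟨D', e⟩ := hD
  obtain ⟨χ, h1, h2, -, h3⟩ := hF.exh K hK
  have hS := Sup.of_tame hF
  have h4 : D = (smulH F.toPre k q χ ∘L F.incl (k + 1) k q) ∘L D' := by
    refine ContinuousLinearMap.ext fun u => hj.induction_on u
      (isClosed_eq (by fun_prop) (by fun_prop)) fun z => val_injective hS hk (funext fun x => ?_)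
    have h5 : F.incl (k + 1) k q (D' (j z)) = D (j z) := by rw [e]; rfl
    simp only [ContinuousLinearMap.comp_apply]
    rw [h5, val_smulH hS hk ⟨_, h1⟩]
    by_cases hx : x ∈ K
    · rw [h3 x hx, one_smul]
    · rw [hs z x hx, smul_zero]
  rw [h4]
  exact (rellich_smul h1.1 h2 k.lt_succ_self).comp_clm D'

/-- the same for a difference -/
theorem cq_of_supp {F : Fr I M ι} {C : ℕ → ℝ} (hF : F.Tame C) (hk : 4 ≤ k) {q : M → W →L[ℝ] W}
    {A B : X →L[ℝ] F.H k q} (hD : Gn (A - B)) {Z : Type*} {j : Z → X} (hj : DenseRange j)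
    {K : Set M} (hK : IsCompact K)
    (hs : ∀ z, ∀ x ∉ K, F.val k q (A (j z)) x = F.val k q (B (j z)) x) : Cq A B :=
  have := FiniteDimensional.complete ℝ W
  cpt_of_supp hF hk hD hj hK fun z x hx => by
    rw [_root_.sub_apply, val_sub, Pi.sub_apply, hs z x hx, sub_self]

/-- `L` is the operator `A` of the frame `G`, up to a term that gains a derivative -/
def Lk (F G : Pre I M ι) (A : Op M ι V W) (L : F.H (k + 1) A.p →L[ℝ] F.H k A.q) : Prop :=
  ∃ L₀ : F.H (k + 1) A.p →L[ℝ] F.H k A.q, F.Rep L₀ (G.op A.σ A.B) ∧ Gn (L - L₀)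

theorem Lk.of_rep {F G : Pre I M ι} {A : Op M ι V W} {L : F.H (k + 1) A.p →L[ℝ] F.H k A.q}
    (h : F.Rep L (G.op A.σ A.B)) : Lk F G A L := ⟨L, h, 0, by simp⟩

theorem Lk.of_gain {F G : Pre I M ι} {A : Op M ι V W} {L L₀ : F.H (k + 1) A.p →L[ℝ] F.H k A.q}
    (h : F.Rep L₀ (G.op A.σ A.B)) (e : ∃ n, L = L₀ + F.incl (k + 1) k A.q ∘L n) : Lk F G A L :=
  ⟨L₀, h, e.imp fun n h => by rw [h, add_sub_cancel_left]⟩

section tc
variable (F : Pre I M ι) (F' : Pre I' M' ι) (φ : OpenPartialHomeomorph M M')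

/-- cut off by `χ` and transport -/
def tc (k : ℕ) (p' : M' → V →L[ℝ] V) (p : M → V →L[ℝ] V) (χ : M' → ℝ) :
    F'.H k p' →L[ℝ] F.H k p := trH F F' φ k p' p (sc V χ)

/-- data of a transport -/
structure TD (χ : M' → ℝ) : Prop where
  iso : Iso F F' φ
  cb : F'.Cb χ
  sub : tsupport χ ⊆ φ.target

variable {F F' φ} {χ : M' → ℝ} {p' : M' → V →L[ℝ] V} {p : M → V →L[ℝ] V}

theorem TD.rep (h : TD F F' φ χ) (hp : ∀ x ∈ φ.source, p x = p' (φ x)) (k : ℕ) :
    F'.RepT F (tc F F' φ k p' p χ) fun u => pull φ fun y => χ y • u y := by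
  obtain ⟨C, hC⟩ := Cb_clm (ContinuousLinearMap.lsmul ℝ ℝ : ℝ →L[ℝ] V →L[ℝ] V) h.cb
  have h1 : support (sc V χ) ⊆ support χ := fun y hy h0 => hy (by simp [sc, h0])
  exact (rep_trH h.iso hC.1 (hC.2 k) ((closure_mono h1).trans h.sub)
    fun x hx v hv => by simp [hp x hx, hv]).1

theorem TD.gn (h : TD F F' φ χ) (hp : ∀ x ∈ φ.source, p x = p' (φ x)) {D : X →L[ℝ] F'.H k p'}
    (hD : Gn D) : Gn (tc F F' φ k p' p χ ∘L D) := by
  obtain ⟨A, rfl⟩ := hD
  refine ⟨tc F F' φ (k + 1) p' p χ ∘L A, ?_⟩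
  rw [← ContinuousLinearMap.comp_assoc, ← ContinuousLinearMap.comp_assoc,
    RepT_eq (RepT_comp (h.rep hp k) (rep_incl k.le_succ))
      (RepT_comp (rep_incl k.le_succ) (h.rep hp (k + 1))) fun _ => rfl]

theorem TD.val (h : TD F F' φ χ) (hp : ∀ x ∈ φ.source, p x = p' (φ x)) {S S' : ℝ} (hS : Sup F S)
    (hS' : Sup F' S') (hk : 4 ≤ k) (u : F'.H k p') (x : M) :
    F.val k p (tc F F' φ k p' p χ u) x = pull φ (fun y => χ y • F'.val k p' u y) x := by
  have := FiniteDimensional.complete ℝ V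
  induction u using H_ind with
  | hP =>
    refine isClosed_eq (by fun_prop) ?_
    by_cases hx : x ∈ φ.source
    · simp only [pull_of_mem hx]; fun_prop
    · simp only [pull_of_notMem hx]; fun_prop
  | h u => rw [RepT_toH (h.rep hp k), val_toH hS hk, val_toH hS' hk]

variable (φ) in
/-- the transport commutes with the derivatives of `G`, `G'` -/
def DC (V : Type) [NormedAddCommGroup V] [NormedSpace ℝ V] (G : Pre I M ι) (G' : Pre I' M' ι) :
    Prop := ∀ a (u : M' → V), Sm I' u → HasCompactSupport u → tsupport u ⊆ φ.target →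
  G.D a (pull φ u) = pull φ (G'.D a u)

theorem DC.of_iso (h : Iso F F' φ) {G : Pre I M ι} {G' : Pre I' M' ι}
    (e : ∀ x ∈ φ.source, ∀ a, G.e a x = F.e a x) (e' : ∀ x ∈ φ.target, ∀ a, G'.e a x = F'.e a x) :
    DC φ V G G' := fun a u hu hc hs => funext fun x => by
  have ha := Adm.of_isCompact hc hs
  by_cases hx : x ∈ φ.source
  · have h1 := congrFun (D_pull h hu ha a) x
    rw [pull_of_mem hx] at h1 ⊢
    simp only [D_def, dv_eq] at h1 ⊢
    rw [e x hx, e' _ (φ.map_source hx), h1]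
  · rw [pull_of_notMem hx]
    exact dv_eq_zero_of_notMem fun h' => hx (ha.tsupport_pull h').1

theorem pull_refl {N : Type} [NormedAddCommGroup N] [NormedSpace ℝ N] (u : M → N) :
    pull (OpenPartialHomeomorph.refl M) u = u := funext fun x => pull_of_mem (mem_univ x) u

theorem DC.refl (G : Pre I M ι) : DC (OpenPartialHomeomorph.refl M) V G G := fun a u _ _ _ => by
  rw [pull_refl, pull_refl]

theorem iso_refl (F : Pre I M ι) : Iso F F (OpenPartialHomeomorph.refl M) :=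
  ⟨contMDiffOn_id, contMDiffOn_id, fun a x _ => by
    show mfderiv _ _ id x _ = _
    rw [mfderiv_id]; rfl, by simp⟩

/-- **the commutator of an operator with cut and transport gains a derivative** -/
theorem TD.comm (h : TD F F' φ χ) {G : Pre I M ι} {G' : Pre I' M' ι} (hD : DC φ V G G')
    {A : Op M ι V W} {A' : Op M' ι V W} {P : ι → ι → M → ℝ} {P' : ι → ι → M' → ℝ}
    (hA : Nc F P A) (hA' : Nc F' P' A') (hχ : ∀ a, F'.Cb (G'.D a χ))
    (hp : ∀ x ∈ φ.source, A.p x = A'.p (φ x)) (hq : ∀ x ∈ φ.source, A.q x = A'.q (φ x))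
    (hσ : ∀ x ∈ φ.source, ∀ a, A.σ a x = A'.σ a (φ x))
    {L : F.H (k + 1) A.p →L[ℝ] F.H k A.q} {L' : F'.H (k + 1) A'.p →L[ℝ] F'.H k A'.q}
    (hL : Lk F G A L) (hL' : Lk F' G' A' L') :
    Gn (tc F F' φ k A'.q A.q χ ∘L L' - L ∘L tc F F' φ (k + 1) A'.p A.p χ) := by
  have := FiniteDimensional.complete ℝ W
  obtain ⟨L₀, h1, h2⟩ := hL
  obtain ⟨L₀', h1', h2'⟩ := hL'
  have hs : Sm I' χ := h.cb.choose_spec.1
  obtain ⟨C, hC⟩ : F'.Cb fun y => χ y • A'.B y - ∑ a, G'.D a χ y • A'.σ a y :=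
    Cb_sub (Cb_smul h.cb hA'.B) (Cb_sum _ fun a _ => Cb_smul (hχ a) (hA'.σ a))
  have s1 : support (fun y => χ y • A'.B y - ∑ a, G'.D a χ y • A'.σ a y) ⊆ tsupport χ :=
    fun y hy => by_contra fun h0 => hy (by
      simp [image_eq_zero_of_notMem_tsupport h0, D_def, dv_eq_zero_of_notMem h0])
  have r1 := (rep_trH (k := k + 1) (p' := A'.p) (q := A.q) h.iso hC.1 (hC.2 _)
    ((closure_minimal s1 (isClosed_tsupport χ)).trans h.sub) fun x hx v _ => by
      simp [hq x hx, hA'.alg.qB, hA'.alg.qσ]).1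
  have r2 := RepT_comp (rep_mulH (k := k + 1) (p := A.p) hA.B (Maps.of_left hA.alg.qB))
    (h.rep hp (k + 1))
  have h3 : Gn (tc F F' φ k A'.q A.q χ ∘L L₀' - L₀ ∘L tc F F' φ (k + 1) A'.p A.p χ) := by
    refine ⟨_, RepT_eq (RepT_sub (RepT_comp (h.rep hq k) h1') (RepT_comp h1 (h.rep hp (k + 1))))
      (RepT_comp (rep_incl k.le_succ) (RepT_sub r1 r2)) fun u => funext fun x => ?_⟩
    have s2 : support (fun y => χ y • u.1 y) ⊆ support χ := fun y hy h0 => hy (by simp [h0])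
    have e := fun a => hD a (fun y => χ y • u.1 y) (hs.smul u.2.1)
      (u.2.2.1.mono fun y hy h0 => hy (by simp [h0])) ((closure_mono s2).trans h.sub)
    simp only [Pi.sub_apply, id, Pre.op, e]
    by_cases hx : x ∈ φ.source
    · have e2 : ∀ a, G'.D a (fun y => χ y • u.1 y) (φ x) =
          G'.D a χ (φ x) • u.1 (φ x) + χ (φ x) • G'.D a u.1 (φ x) := fun a =>
        dv_smul (md hs _) (md u.2.1 _)
      simp only [pull_of_mem hx, e2, hσ x hx, map_add, map_smul, smul_add, Finset.smul_sum,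
        Finset.sum_add_distrib, _root_.sub_apply, _root_.smul_apply,
        _root_.sum_apply]
      abel
    · simp [pull_of_notMem hx]
  refine ((h3.add (h.gn hq h2')).sub (h2.comp (tc F F' φ (k + 1) A'.p A.p χ))).congr fun x => ?_
  simp only [ContinuousLinearMap.comp_apply, _root_.sub_apply,
    _root_.add_apply, map_sub]
  abel

end tc

section par
variable {F G : Fr I M ι} (h : Tw F G) {A : Op M ι V W} (hA : Nc F.toPre G.P A)
include h hA

/-- the interior left parametrix -/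
theorem exists_left (hc : A.CliffL G) (k : ℕ) :
    ∃ (Q : F.H (k + 1) A.q →L[ℝ] F.H (k + 2) A.p) (R : F.H (k + 1) A.p →L[ℝ] F.H (k + 2) A.p),
      ∀ u, Q (LH F.toPre G.toPre (k + 1) A.p A.q A u) + R (F.incl (k + 2) (k + 1) A.p u) = u := by
  obtain ⟨C, h1, h2⟩ := h.good hA
  let P := hlf h1 h2 hc
  let c : G.H (k + 2) A.p →L[ℝ] F.H (k + 2) A.p := (chg (k + 2) A.p h.cmp).symm
  refine ⟨c ∘L P.G k ∘L P.Ls k ∘L chg (k + 1) A.q h.cmp,
    c ∘L P.G k ∘L P.i k ∘L chg (k + 1) A.p h.cmp, fun u => ?_⟩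
  have e := P.G_Q k (chg (k + 2) A.p h.cmp u)
  rw [P.Q_apply, map_add] at e
  simp only [ContinuousLinearMap.comp_apply, ContinuousLinearEquiv.coe_coe]
  rw [h.chg_LH hA, chg_incl _ (k + 1).le_succ, ← map_add]
  exact (congrArg c ((add_comm _ _).trans e)).trans ((chg (k + 2) A.p h.cmp).symm_apply_apply u)

/-- the interior right parametrix -/
theorem exists_right (hc : A.Cliff G) (k : ℕ) : ∃ Q : F.H k A.q →L[ℝ] F.H (k + 1) A.p,
    Gn (LH F.toPre G.toPre k A.p A.q A ∘L Q - ContinuousLinearMap.id ℝ _) := by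
  obtain ⟨C, h1, h2⟩ := h.good hA
  let P := (par h1 h2 hc).swap.toHalf
  let c : G.H (k + 1) A.p →L[ℝ] F.H (k + 1) A.p := (chg (k + 1) A.p h.cmp).symm
  let c' : G.H (k + 1) A.q →L[ℝ] F.H (k + 1) A.q := (chg (k + 1) A.q h.cmp).symm
  refine ⟨c ∘L P.L (k + 1) ∘L P.G k ∘L chg k A.q h.cmp,
    -(c' ∘L P.i (k + 1) ∘L P.G k ∘L chg k A.q h.cmp), ContinuousLinearMap.ext fun u => ?_⟩
  have e := P.Q_G k (chg k A.q h.cmp u)
  rw [P.Q_apply] at e
  refine (chg k A.q h.cmp).injective ?_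
  simp only [ContinuousLinearMap.comp_apply, ContinuousLinearEquiv.coe_coe,
    _root_.sub_apply, _root_.neg_apply, map_sub, map_neg,
    ContinuousLinearMap.id_apply, c, c']
  rw [h.chg_LH hA, chg_incl _ k.le_succ, ContinuousLinearEquiv.apply_symm_apply,
    ContinuousLinearEquiv.apply_symm_apply, sub_eq_iff_eq_add, neg_add_eq_sub, eq_sub_iff_add_eq']
  exact e

end par

end Crest.Agent.X212.Cht98
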