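import Crest.Agent.X212.Cht98.Reg
import Crest.Agent.X212.Ell97.HL

/-! Row 212, layer AN (helper98): the regularity statement `Ell97.Reg`. -/

set_option autoImplicit false
set_option linter.unusedSectionVars false

open scoped Manifold ContDiff Topology InnerProductSpace
open Set Filter Function MeasureTheory

noncomputable section
namespace Crest.Agent.X212.Cht98
open Crest.Agent.X212.Sob92 Crest.Agent.X212.An Crest.Agent.X212.Ell97

variable {E : Type} [NormedAddCommGroup E] [NormedSpace ℝ E] [FiniteDimensional ℝ E]
  [MeasurableSpace E] [BorelSpace E]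
  {HM : Type} [TopologicalSpace HM] {I : ModelWithCorners ℝ E HM} [I.Boundaryless]
  {M : Type} [TopologicalSpace M] [ChartedSpace HM M] [IsManifold I ∞ M]
  [MeasurableSpace M] [BorelSpace M] [T2Space M] [SecondCountableTopology M]
  {ι : Type} [Fintype ι]

theorem int_inner {V : Type} [NormedAddCommGroup V] [InnerProductSpace ℝ V] {μ : Measure M}
    {u φ : M → V} (hu : MemLp u 2 μ) (hφ : MemLp φ 2 μ) : Integrable (fun x => ⟪u x, φ x⟫_ℝ) μ :=
  Integrable.mono' (hu.norm.integrable_mul hφ.norm) (hu.1.inner hφ.1)
    (Eventually.of_forall fun x => norm_inner_le_norm (u x) (φ x))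

/-- **interior regularity** in the form used by `Ell97` -/
theorem reg97 (V : Type) [NormedAddCommGroup V] [InnerProductSpace ℝ V] [FiniteDimensional ℝ V]
    (F : Fr I M ι) : Reg V F := by
  intro u ua σ B f hu hua hσ hB hf hW heq
  refine reg F hu hua (B := fun a x => trL V V (σ a x)) (B0 := fun x => trL V V (B x))
    (fun a => (trL V V).contMDiff.comp (hσ a)) ((trL V V).contMDiff.comp hB) hf
    (fun a φ h1 h2 => ?_) fun φ h1 h2 => ?_
  · rw [hW a φ h1 h2, ← integral_neg]
    refine integral_congr_ae (Eventually.of_forall fun x => ?_)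
    simp only [inner_sub_right, inner_add_right, inner_neg_right]
    ring
  · have hm : ∀ {A : M → V →L[ℝ] V}, Sm I A → MemLp (fun x => A x (φ x)) 2 F.μ := fun hA =>
      (hA.clm_apply h1).continuous.memLp_of_hasCompactSupport
        (h2.mono fun x hx h => hx (by simp [h]))
    have i1 := (F.integrable_inner h1.continuous h2 hf.continuous).congr
      (Eventually.of_forall fun x => real_inner_comm (f x) (φ x))
    have i2 := fun a => int_inner (hua a) (hm (hσ a))
    have i3 := int_inner hu (hm hB)
    rw [heq φ h1 h2, ← integral_finsetSum _ fun a _ => i2 a,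
      ← integral_add i1 (integrable_finsetSum _ fun a _ => i2 a)]
    refine (integral_add (i1.add (integrable_finsetSum _ fun a _ => i2 a)) i3).symm.trans ?_
    refine integral_congr_ae (Eventually.of_forall fun x => ?_)
    simp only [Pi.add_apply, inner_add_left, sum_inner, trL_apply, tr_inner]
    ring

end Crest.Agent.X212.Cht98
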