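import Crest.Agent.X212.Cht98.Ch
import Crest.Agent.R096.Osc1_802

/-! Row 212, layer AN (helper98): first order Sobolev inequalities, in a Euclidean space of
dimension `≤ 4` and on compact subsets of a manifold with a spanning frame. -/

set_option autoImplicit false
set_option linter.unusedSectionVars false

open scoped Manifold ContDiff Topology ENNReal NNReal
open Set Filter Function MeasureTheory Metric

noncomputable section
namespace Crest.Agent.X212.Cht98
open Crest.Agent.X212.Sob92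

variable {E H : Type} [NormedAddCommGroup E] [NormedSpace ℝ E] [TopologicalSpace H]
  {I : ModelWithCorners ℝ E H} {M : Type} [TopologicalSpace M] [ChartedSpace H M]
  [MeasurableSpace M] [BorelSpace M]
  {F : Type} [NormedAddCommGroup F] [InnerProductSpace ℝ F] [FiniteDimensional ℝ F]
  [MeasurableSpace F] [BorelSpace F]

/-- Hölder on a set of finite measure -/
theorem holder {α : Type} [MeasurableSpace α] {μ : Measure α} {s : Set α} (hs : μ s ≠ ⊤)
    {p q : ℝ≥0∞} (hp : 1 ≤ p) (hpq : p ≤ q) : ∃ C : ℝ≥0, ∀ (V : Type) [NormedAddCommGroup V]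
      (g : α → V), AEStronglyMeasurable g μ → support g ⊆ s →
      eLpNorm g p μ ≤ C * eLpNorm g q μ := by
  have he : 0 ≤ 1 / p.toReal - 1 / q.toReal := by
    by_cases hq : q = ⊤
    · subst hq; simp
    · have hp' : p ≠ ⊤ := ne_top_of_le_ne_top hq hpq
      have h1 : 0 < p.toReal := ENNReal.toReal_pos (zero_lt_one.trans_le hp).ne' hp'
      exact sub_nonneg.2 (one_div_le_one_div_of_le h1 (ENNReal.toReal_mono hq hpq))
  refine ⟨(μ s ^ (1 / p.toReal - 1 / q.toReal)).toNNReal, fun V _ g hg hgs => ?_⟩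
  rw [ENNReal.coe_toNNReal (ENNReal.rpow_ne_top_of_nonneg he hs),
    ← eLpNorm_restrict_eq_of_support_subset hgs (p := p),
    ← eLpNorm_restrict_eq_of_support_subset hgs (p := q), mul_comm]
  have h := eLpNorm_le_eLpNorm_mul_rpow_measure_univ (μ := μ.restrict s) hpq hg.restrict
  rwa [Measure.restrict_apply_univ] at h

variable (F) in
/-- the Euclidean Sobolev inequality `W^{1,p} ⊆ L^q` for compact supports -/
def ES (q p : ℝ≥0∞) : Prop := ∀ s : Set F, IsCompact s → ∃ C : ℝ≥0, ∀ w : F → ℝ,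
  ContDiff ℝ ∞ w → support w ⊆ s →
    eLpNorm w q volume ≤ C * (eLpNorm w p volume + eLpNorm (fderiv ℝ w) p volume)

theorem ES.mono {q p q' p' : ℝ≥0∞} (h : ES F q p) (hq' : 1 ≤ q') (hq : q' ≤ q) (hp1 : 1 ≤ p)
    (hp : p ≤ p') : ES F q' p' := by
  intro s hs
  obtain ⟨C, hC⟩ := h s hs
  obtain ⟨C1, h1⟩ := holder (μ := (volume : Measure F)) hs.measure_lt_top.ne hq' hq
  obtain ⟨C2, h2⟩ := holder (μ := (volume : Measure F)) hs.measure_lt_top.ne hp1 hp
  obtain ⟨C3, h3⟩ := holder (μ := (volume : Measure F)) hs.measure_lt_top.ne hp1 hp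
  refine ⟨C1 * (C * (C2 + C3)), fun w hw hws => ?_⟩
  have hd : support (fderiv ℝ w) ⊆ s :=
    (support_fderiv_subset ℝ).trans (closure_minimal hws hs.isClosed)
  have e1 := h1 ℝ w hw.continuous.aestronglyMeasurable hws
  have e2 := h2 ℝ w hw.continuous.aestronglyMeasurable hws
  have e3 := h3 (F →L[ℝ] ℝ) (fderiv ℝ w) (hw.continuous_fderiv (by simp)).aestronglyMeasurable hd
  calc eLpNorm w q' volume ≤ C1 * (C * (eLpNorm w p volume + eLpNorm (fderiv ℝ w) p volume)) :=
        e1.trans (by gcongr; exact hC w hw hws)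
    _ ≤ C1 * (C * ((C2 + C3) * eLpNorm w p' volume +
          (C2 + C3) * eLpNorm (fderiv ℝ w) p' volume)) := by
        gcongr
        · exact e2.trans (by gcongr; exact le_self_add)
        · exact e3.trans (by gcongr; exact le_add_self)
    _ = _ := by push_cast; ring

theorem ES_gns {p q : ℝ≥0} (hp : 1 ≤ p) (h2 : p < Module.finrank ℝ F)
    (hpq : p⁻¹ - (Module.finrank ℝ F : ℝ)⁻¹ ≤ (q : ℝ)⁻¹) : ES F q p := by
  intro s hs
  refine ⟨eLpNormLESNormFDerivOfLeConst ℝ volume s p q, fun w hw hws => ?_⟩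
  refine (eLpNorm_le_eLpNorm_fderiv_of_le volume (hw.of_le (by simp)) hws hp h2 hpq
    hs.isBounded).trans ?_
  gcongr
  exact le_add_self

theorem ES_morrey {p : ℝ} (hp : (Module.finrank ℝ F : ℝ) < p) (hp1 : 1 < p) :
    ES F ⊤ (ENNReal.ofReal p) := by
  intro s hs
  obtain ⟨R, hR, hsR⟩ := hs.isBounded.subset_closedBall_lt 0 (0 : F)
  set B := closedBall (0 : F) R with hB
  set m := (volume : Measure F) B with hm
  have hm0 : m ≠ 0 := (measure_closedBall_pos volume _ hR).ne'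
  have hmt : m ≠ ⊤ := measure_closedBall_lt_top.ne
  have hp0 : 0 < p := by linarith
  have he : 0 ≤ 1 - 1 / p := sub_nonneg.2 ((div_le_one hp0).2 hp1.le)
  set c := ENNReal.ofReal (2 * R * (1 - Module.finrank ℝ F / p)⁻¹) with hc
  set K := (c + 1) * m ^ (1 - 1 / p) with hK
  have hKt : K ≠ ⊤ := ENNReal.mul_ne_top (by simp [hc]) (ENNReal.rpow_ne_top_of_nonneg he hmt)
  refine ⟨(K / m).toNNReal, fun w hw hws => ?_⟩
  rw [ENNReal.coe_toNNReal (ENNReal.div_ne_top hKt hm0), eLpNorm_exponent_top]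
  refine eLpNormEssSup_le_of_ae_enorm_bound (Eventually.of_forall fun x => ?_)
  by_cases hx : x ∈ B
  swap
  · have : w x = 0 := by
      by_contra h
      exact hx (hsR (hws h))
    simp [this]
  have hwc := hw.continuous
  have h1 := Crest.Agent.R096.Osc_802.morrey_mean volume (hw.of_le (by simp)) hp hp1 hx
  have hP0 : ENNReal.ofReal p ≠ 0 := by simpa using hp0
  have h2 : (∫⁻ z in B, ‖fderiv ℝ w z‖ₑ ^ p) ^ (1 / p) ≤
      eLpNorm (fderiv ℝ w) (ENNReal.ofReal p) volume := by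
    rw [eLpNorm_eq_lintegral_rpow_enorm_toReal hP0 ENNReal.ofReal_ne_top,
      ENNReal.toReal_ofReal hp0.le]
    gcongr
    exact Measure.restrict_le_self
  have h3 : ∫⁻ z in B, ‖w z‖ₑ ≤ eLpNorm w (ENNReal.ofReal p) volume * m ^ (1 - 1 / p) := by
    have h4 := eLpNorm_le_eLpNorm_mul_rpow_measure_univ (μ := (volume : Measure F).restrict B)
      (p := 1) (q := ENNReal.ofReal p) (by simpa using hp1.le) hwc.aestronglyMeasurable
    rw [eLpNorm_one_eq_lintegral_enorm, Measure.restrict_apply_univ,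
      ENNReal.toReal_ofReal hp0.le] at h4
    refine h4.trans ?_
    simp only [ENNReal.toReal_one, div_one]
    exact mul_le_mul_left (eLpNorm_mono_measure w Measure.restrict_le_self) _
  have h5 : ‖w x‖ₑ * m ≤ K * (eLpNorm w (ENNReal.ofReal p) volume +
      eLpNorm (fderiv ℝ w) (ENNReal.ofReal p) volume) := by
    calc ‖w x‖ₑ * m = ∫⁻ _ in B, ‖w x‖ₑ := by
          rw [lintegral_const, Measure.restrict_apply_univ]
      _ ≤ ∫⁻ z in B, (‖w z‖ₑ + ‖w z - w x‖ₑ) := by
          refine lintegral_mono fun z => ?_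
          calc ‖w x‖ₑ = ‖w z - (w z - w x)‖ₑ := by congr 1; ring
            _ ≤ ‖w z‖ₑ + ‖w z - w x‖ₑ := enorm_sub_le
      _ = (∫⁻ z in B, ‖w z‖ₑ) + ∫⁻ z in B, ‖w z - w x‖ₑ :=
          lintegral_add_left (by fun_prop) _
      _ ≤ eLpNorm w (ENNReal.ofReal p) volume * m ^ (1 - 1 / p) +
          c * (m ^ (1 - 1 / p) * eLpNorm (fderiv ℝ w) (ENNReal.ofReal p) volume) :=
          add_le_add h3 (h1.trans (by gcongr))
      _ ≤ (c + 1) * (eLpNorm w (ENNReal.ofReal p) volume * m ^ (1 - 1 / p)) +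
          (c + 1) * (m ^ (1 - 1 / p) * eLpNorm (fderiv ℝ w) (ENNReal.ofReal p) volume) := by
          exact add_le_add (le_mul_of_one_le_left' le_add_self) (by gcongr; exact le_self_add)
      _ = _ := by rw [hK]; ring
  rw [div_eq_mul_inv, mul_right_comm, ← div_eq_mul_inv]
  exact (ENNReal.le_div_iff_mul_le (Or.inl hm0) (Or.inl hmt)).2 h5

theorem ES_top_five (hn : Module.finrank ℝ F ≤ 4) : ES F ⊤ 5 := by
  have h : (Module.finrank ℝ F : ℝ) ≤ 4 := by exact_mod_cast hn
  simpa using ES_morrey (F := F) (p := 5) (by linarith) (by norm_num)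

theorem ES_five_four (hn : Module.finrank ℝ F ≤ 4) : ES F 5 4 := by
  rcases hn.lt_or_eq with h | h
  · have h' : (Module.finrank ℝ F : ℝ) < 4 := by exact_mod_cast h
    have h2 : ES F ⊤ 4 := by simpa using ES_morrey (F := F) (p := 4) h' (by norm_num)
    exact h2.mono (by norm_num) le_top (by norm_num) le_rfl
  · have h2 : ES F (5 : ℝ≥0) (3 : ℝ≥0) := ES_gns (by norm_num) (by rw [h]; norm_num)
      (by rw [h]; norm_num)
    exact ES.mono (q := 5) (p := 3) (by simpa using h2) (by norm_num) le_rfl (by norm_num)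
      (by norm_num)

theorem ES_four_two (hn : Module.finrank ℝ F ≤ 4) : ES F 4 2 := by
  by_cases h : Module.finrank ℝ F < 2
  · have h' : (Module.finrank ℝ F : ℝ) < 2 := by exact_mod_cast h
    have h2 : ES F ⊤ 2 := by simpa using ES_morrey (F := F) (p := 2) h' (by norm_num)
    exact h2.mono (by norm_num) le_top (by norm_num) le_rfl
  · have h3 : (2 : ℝ) ≤ Module.finrank ℝ F := by exact_mod_cast not_lt.1 h
    have h4 : (Module.finrank ℝ F : ℝ) ≤ 4 := by exact_mod_cast hn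
    by_cases h5 : Module.finrank ℝ F = 2
    · have h2 : ES F (4 : ℝ≥0) (3 / 2 : ℝ≥0) := ES_gns (by rw [← NNReal.coe_le_coe]; norm_num)
        (by rw [h5, ← NNReal.coe_lt_coe]; norm_num) (by rw [h5]; norm_num)
      refine ES.mono (q := 4) (p := (3 / 2 : ℝ≥0)) (by simpa using h2) (by norm_num) le_rfl ?_ ?_
      · rw [ENNReal.one_le_coe_iff, ← NNReal.coe_le_coe]; norm_num
      · rw [← ENNReal.coe_ofNat, ENNReal.coe_le_coe, ← NNReal.coe_le_coe]; norm_num
    · have h6 : 2 < Module.finrank ℝ F := by omega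
      have h2 : ES F (4 : ℝ≥0) (2 : ℝ≥0) := ES_gns (by norm_num) (by exact_mod_cast h6) (by
        have : (4 : ℝ)⁻¹ ≤ (Module.finrank ℝ F : ℝ)⁻¹ := inv_anti₀ (by linarith) h4
        push_cast
        linarith)
      simpa using h2

/-! ### bumps in charts -/

variable [FiniteDimensional ℝ E] [IsManifold I ∞ M] [T2Space M] {μ : Measure M}
  {ι : Type} [Fintype ι] {e : ι → (x : M) → TangentSpace I x}

/-- a smooth bump at `x`, supported in a chart and in `U` -/
theorem Atl.bump (h : Atl I μ F) {U : Set M} (hU : IsOpen U) {x : M} (hx : x ∈ U) :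
    ∃ (c : Ch I μ F) (χ : M → ℝ), ContMDiff I 𝓘(ℝ, ℝ) ∞ χ ∧ HasCompactSupport χ ∧
      tsupport χ ⊆ c.φ.source ∩ U ∧ (∀ y, 0 ≤ χ y ∧ χ y ≤ 1) ∧ ∀ᶠ y in 𝓝 x, χ y = 1 := by
  obtain ⟨c, hc⟩ := h x
  obtain ⟨f, -, hf⟩ := (SmoothBumpFunction.nhds_basis_tsupport (I := I) x).mem_iff.1
    ((c.φ.open_source.inter hU).mem_nhds ⟨hc, hx⟩)
  exact ⟨c, f, f.contMDiff, f.hasCompactSupport, hf, fun y => ⟨f.nonneg, f.le_one⟩,
    f.eventuallyEq_one⟩

/-- finitely many bumps whose level sets `χ = 1` cover a compact set -/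
theorem Atl.bumps (h : Atl I μ F) {U K : Set M} (hU : IsOpen U) (hK : IsCompact K) (hKU : K ⊆ U) :
    ∃ (t : Finset K) (c : K → Ch I μ F) (χ : K → M → ℝ),
      (∀ j, ContMDiff I 𝓘(ℝ, ℝ) ∞ (χ j) ∧ HasCompactSupport (χ j) ∧
        tsupport (χ j) ⊆ (c j).φ.source ∩ U ∧ ∀ y, 0 ≤ χ j y ∧ χ j y ≤ 1) ∧
      ∀ y ∈ K, ∃ j ∈ t, χ j y = 1 := by
  choose c χ h1 h2 h3 h4 h5 using fun x : K => h.bump hU (hKU x.2)
  obtain ⟨t, ht⟩ := hK.elim_nhds_subcover' (fun x hx => {y | χ ⟨x, hx⟩ y = 1})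
    fun x hx => h5 ⟨x, hx⟩
  refine ⟨t, c, χ, fun j => ⟨h1 j, h2 j, h3 j, h4 j⟩, fun y hy => ?_⟩
  obtain ⟨j, hj, hy⟩ := mem_iUnion₂.1 (ht hy)
  exact ⟨j, hj, hy⟩

/-- the derivative in the chart is bounded by the frame derivatives -/
theorem Ch.fderiv_le (c : Ch I μ F)
    (he : ∀ a, ContMDiff I I.tangent ∞ (fun x => (⟨x, e a x⟩ : TangentBundle I M)))
    (hsp : ∀ x, Submodule.span ℝ (range fun a => e a x) = ⊤) {L : Set F} (hL : IsCompact L)
    (hLs : L ⊆ c.φ.target) : ∃ C : ℝ≥0, ∀ (V : Type) [NormedAddCommGroup V] [NormedSpace ℝ V]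
      (u : M → V), ContMDiff I 𝓘(ℝ, V) ∞ u → ∀ y ∈ L,
      ‖fderiv ℝ (c.pf u) y‖ ≤ C * ∑ a, ‖dv I (e a) u (c.φ.symm y)‖ := by
  obtain ⟨C, hC⟩ := span_bound (w := fun a => c.vf (e a)) hL
    (fun a => (c.vf_on (he a)).continuousOn.mono hLs) fun y hy => c.vf_span hsp (hLs hy)
  refine ⟨C, fun V _ _ u hu y hy => (hC y hy V _).trans (le_of_eq ?_)⟩
  congr 1
  exact Finset.sum_congr rfl fun a _ => by rw [c.dv_chart (e a) (hLs hy) (hu _)]

/-- `W^{1,p}` norms in the chart are bounded by the frame norms -/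
theorem Ch.w1_le (c : Ch I μ F)
    (he : ∀ a, ContMDiff I I.tangent ∞ (fun x => (⟨x, e a x⟩ : TangentBundle I M)))
    (hsp : ∀ x, Submodule.span ℝ (range fun a => e a x) = ⊤) {K : Set M} (hK : IsCompact K)
    (hKs : K ⊆ c.φ.source) {p : ℝ≥0∞} (hp : 1 ≤ p) : ∃ C : ℝ≥0,
      ∀ u : M → ℝ, ContMDiff I 𝓘(ℝ, ℝ) ∞ u → support u ⊆ K →
      eLpNorm (c.pf u) p volume ≤ C * eLpNorm u p μ ∧
      eLpNorm (fderiv ℝ (c.pf u)) p volume ≤ C * ∑ a, eLpNorm (dv I (e a) u) p μ := by
  obtain ⟨C1, h1⟩ := c.eLp_cmp hK hKs p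
  obtain ⟨C2, h2⟩ := c.fderiv_le he hsp (c.img_cpt hK hKs) (c.img_sub hKs)
  refine ⟨C1 + C1 * C2, fun u hu hs => ⟨?_, ?_⟩⟩
  · refine ((h1 ℝ u hu.continuous.norm.measurable hs).2).trans ?_
    gcongr
    exact le_self_add
  · let g : M → ℝ := fun x => ∑ a, ‖dv I (e a) u x‖
    have hd : ∀ a, Continuous fun x => ‖dv I (e a) u x‖ :=
      fun a => (dv_smooth (he a) hu).continuous.norm
    have hg : Continuous g := continuous_finsetSum _ fun a _ => hd a
    have hts : tsupport u ⊆ K := closure_minimal hs hK.isClosed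
    have hgs : support g ⊆ K := fun x hx => by
      by_contra h
      exact hx (Finset.sum_eq_zero fun a _ => by
        rw [dv_eq_zero_of_notMem fun h' => h (hts h'), norm_zero])
    have e1 : eLpNorm (fderiv ℝ (c.pf u)) p volume ≤ C2 * eLpNorm (c.pf g) p volume := by
      refine eLpNorm_le_nnreal_smul_eLpNorm_of_ae_le_mul (Eventually.of_forall fun y => ?_) p
      rw [← NNReal.coe_le_coe]
      push_cast
      by_cases hy : y ∈ c.φ '' K
      · refine (h2 ℝ u hu y hy).trans ?_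
        rw [c.pf_of_mem g (c.img_sub hKs hy)]
        gcongr
        exact le_abs_self _
      · have : fderiv ℝ (c.pf u) y = 0 := by
          by_contra h
          exact hy (c.tsupport_pf hK hKs hs (support_fderiv_subset ℝ h))
        rw [this, norm_zero]
        positivity
    have e2 := (h1 ℝ g hg.norm.measurable hgs).2
    have e3 : eLpNorm g p μ ≤ ∑ a, eLpNorm (dv I (e a) u) p μ := by
      have h3 : g = ∑ a, fun x => ‖dv I (e a) u x‖ := by
        funext x; simp [g]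
      rw [h3]
      refine (eLpNorm_sum_le (fun a _ => (hd a).aestronglyMeasurable) hp).trans (le_of_eq ?_)
      exact Finset.sum_congr rfl fun a _ => eLpNorm_norm _
    calc _ ≤ (C2 : ℝ≥0∞) * (C1 * ∑ a, eLpNorm (dv I (e a) u) p μ) :=
          e1.trans (by gcongr; exact e2.trans (by gcongr))
      _ = (C1 * C2 : ℝ≥0) * ∑ a, eLpNorm (dv I (e a) u) p μ := by push_cast; ring
      _ ≤ _ := by gcongr; exact le_add_self

/-- cutting off is bounded in `W^{1,p}`, with the norms on the right taken on `U` -/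
theorem cut_le (he : ∀ a, ContMDiff I I.tangent ∞ (fun x => (⟨x, e a x⟩ : TangentBundle I M)))
    {χ : M → ℝ} (hχ : ContMDiff I 𝓘(ℝ, ℝ) ∞ χ) (hc : HasCompactSupport χ) {U : Set M}
    (hχU : tsupport χ ⊆ U) {p : ℝ≥0∞} (hp : 1 ≤ p) : ∃ C : ℝ≥0,
      ∀ u : M → ℝ, ContMDiff I 𝓘(ℝ, ℝ) ∞ u →
      eLpNorm (fun x => χ x * u x) p μ ≤ C * eLpNorm u p (μ.restrict U) ∧
      ∀ a, eLpNorm (dv I (e a) fun x => χ x * u x) p μ ≤
        C * (eLpNorm u p (μ.restrict U) + eLpNorm (dv I (e a) u) p (μ.restrict U)) := by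
  obtain ⟨A, hA⟩ := hχ.continuous.bounded_above_of_compact_support hc
  choose B hB using fun a => (dv_smooth (he a) hχ).continuous.bounded_above_of_compact_support
    (dv_hcs (e := e a) hc)
  set C : ℝ := |A| + ∑ a, |B a| with hC
  have hC0 : 0 ≤ C := by positivity
  have hA' : ∀ x, ‖χ x‖ ≤ C := fun x => ((hA x).trans (le_abs_self _)).trans
    (le_add_of_nonneg_right (by positivity))
  have hB' : ∀ a x, ‖dv I (e a) χ x‖ ≤ C := fun a x => ((hB a x).trans (le_abs_self _)).trans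
    ((Finset.single_le_sum (f := fun a => |B a|) (fun _ _ => abs_nonneg _)
      (Finset.mem_univ a)).trans (le_add_of_nonneg_left (abs_nonneg _)))
  have key : ∀ f g : M → ℝ, (∀ x, ‖f x‖ ≤ C) → support f ⊆ U →
      eLpNorm (fun x => f x * g x) p μ ≤ C.toNNReal * eLpNorm g p (μ.restrict U) := by
    intro f g hf hs
    rw [← eLpNorm_restrict_eq_of_support_subset (s := U)
      ((support_mul_subset_left f g).trans hs)]
    refine eLpNorm_le_mul_eLpNorm_of_ae_le_mul (Eventually.of_forall fun x => ?_) p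
    rw [norm_mul]
    gcongr
    exact hf x
  refine ⟨C.toNNReal, fun u hu => ⟨key _ _ hA' ((subset_tsupport _).trans hχU), fun a => ?_⟩⟩
  have h1 : (dv I (e a) fun x => χ x * u x) =
      (fun x => dv I (e a) χ x * u x) + fun x => χ x * dv I (e a) u x :=
    funext fun x => dv_smul (hχ.mdifferentiableAt (by simp)) (hu.mdifferentiableAt (by simp))
  rw [h1, mul_add]
  refine (eLpNorm_add_le
    (((dv_smooth (he a) hχ).continuous.mul hu.continuous).aestronglyMeasurable)
    ((hχ.continuous.mul (dv_smooth (he a) hu).continuous).aestronglyMeasurable) hp).trans ?_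
  exact add_le_add (key _ _ (hB' a) ((support_dv χ).trans hχU))
    (key _ _ hA' ((subset_tsupport _).trans hχU))

theorem exists_le_all {κ : Type} (t : Finset κ) (C : κ → ℝ≥0) : ∃ D : ℝ≥0, ∀ j ∈ t, C j ≤ D :=
  ⟨t.sup C, fun _ hj => Finset.le_sup hj⟩

/-- **first order Sobolev inequality**, interior form -/
theorem Atl.sob (h : Atl I μ F)
    (he : ∀ a, ContMDiff I I.tangent ∞ (fun x => (⟨x, e a x⟩ : TangentBundle I M)))
    (hsp : ∀ x, Submodule.span ℝ (range fun a => e a x) = ⊤) {q p : ℝ≥0∞} (hq : 1 ≤ q)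
    (hp : 1 ≤ p) (hE : ES F q p) {U K : Set M} (hU : IsOpen U) (hK : IsCompact K) (hKU : K ⊆ U) :
    ∃ C : ℝ≥0, ∀ u : M → ℝ, ContMDiff I 𝓘(ℝ, ℝ) ∞ u → eLpNorm u q (μ.restrict K) ≤
      C * (eLpNorm u p (μ.restrict U) + ∑ a, eLpNorm (dv I (e a) u) p (μ.restrict U)) := by
  obtain ⟨t, c, χ, hχ, hcov⟩ := h.bumps hU hK hKU
  have loc : ∀ j, ∃ C : ℝ≥0, ∀ u : M → ℝ, ContMDiff I 𝓘(ℝ, ℝ) ∞ u →
      eLpNorm (fun x => χ j x * u x) q μ ≤
      C * (eLpNorm u p (μ.restrict U) + ∑ a, eLpNorm (dv I (e a) u) p (μ.restrict U)) := by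
    intro j
    obtain ⟨h1, h2, h3, -⟩ := hχ j
    have hs : tsupport (χ j) ⊆ (c j).φ.source := h3.trans inter_subset_left
    obtain ⟨C1, k1⟩ := (c j).eLp_cmp h2.isCompact hs q
    obtain ⟨C2, k2⟩ := hE _ ((c j).img_cpt h2.isCompact hs)
    obtain ⟨C3, k3⟩ := (c j).w1_le he hsp h2.isCompact hs hp
    obtain ⟨C4, k4⟩ := cut_le (μ := μ) he h1 h2 (h3.trans inter_subset_right) hp
    refine ⟨C1 * (C2 * (C3 * (C4 * (1 + Fintype.card ι)))), fun u hu => ?_⟩
    have hv : ContMDiff I 𝓘(ℝ, ℝ) ∞ fun x => χ j x * u x := h1.mul hu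
    have hvs : support (fun x => χ j x * u x) ⊆ tsupport (χ j) :=
      (support_mul_subset_left _ _).trans (subset_tsupport _)
    have e1 := (k1 ℝ _ hv.continuous.norm.measurable hvs).1
    have e2 := k2 _ ((c j).pf_smooth h2.isCompact hs hvs hv)
      ((subset_tsupport _).trans ((c j).tsupport_pf h2.isCompact hs hvs))
    obtain ⟨e3, e4⟩ := k3 _ hv hvs
    obtain ⟨e5, e6⟩ := k4 u hu
    set A := eLpNorm u p (μ.restrict U)
    set B := fun a => eLpNorm (dv I (e a) u) p (μ.restrict U)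
    have e7 : ∑ a, eLpNorm (dv I (e a) fun x => χ j x * u x) p μ ≤
        C4 * (Fintype.card ι * A + ∑ a, B a) := by
      refine (Finset.sum_le_sum fun a _ => e6 a).trans (le_of_eq ?_)
      rw [← Finset.mul_sum, Finset.sum_add_distrib]
      simp [B]
    calc _ ≤ (C1 : ℝ≥0∞) * (C2 * (C3 * (C4 * A) + C3 * (C4 * (Fintype.card ι * A + ∑ a, B a)))) := by
          refine e1.trans ?_
          gcongr
          refine e2.trans ?_
          gcongr
          · exact e3.trans (by gcongr)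
          · exact e4.trans (by gcongr)
      _ = (C1 : ℝ≥0∞) * (C2 * (C3 * (C4 * ((1 + Fintype.card ι) * A + 1 * ∑ a, B a)))) := by ring
      _ ≤ (C1 : ℝ≥0∞) * (C2 * (C3 * (C4 * ((1 + Fintype.card ι) * A +
            (1 + Fintype.card ι) * ∑ a, B a)))) := by
          gcongr
          exact le_self_add
      _ = _ := by push_cast; ring
  choose C hC using loc
  refine ⟨∑ j ∈ t, C j, fun u hu => ?_⟩
  have hm : ∀ j, Continuous fun x => ‖χ j x * u x‖ :=
    fun j => ((hχ j).1.continuous.mul hu.continuous).norm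
  calc eLpNorm u q (μ.restrict K)
      ≤ eLpNorm (∑ j ∈ t, fun x => ‖χ j x * u x‖) q (μ.restrict K) := by
        refine eLpNorm_mono_ae_real ?_
        filter_upwards [ae_restrict_mem hK.measurableSet] with x hx
        obtain ⟨j, hj, hx1⟩ := hcov x hx
        rw [Finset.sum_apply]
        refine le_trans (by rw [hx1, one_mul])
          (Finset.single_le_sum (f := fun j => ‖χ j x * u x‖) (fun _ _ => norm_nonneg _) hj)
    _ ≤ eLpNorm (∑ j ∈ t, fun x => ‖χ j x * u x‖) q μ :=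
        eLpNorm_mono_measure _ Measure.restrict_le_self
    _ ≤ ∑ j ∈ t, eLpNorm (fun x => ‖χ j x * u x‖) q μ :=
        eLpNorm_sum_le (fun j _ => (hm j).aestronglyMeasurable) hq
    _ ≤ _ := by
        push_cast
        rw [Finset.sum_mul]
        exact Finset.sum_le_sum fun j _ => by rw [eLpNorm_norm]; exact hC j u hu

end Crest.Agent.X212.Cht98
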