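import Crest.Agent.X212.Nd18.Ind

/-! Row 212, IX-TRN (helper98): links between backgrounds and the rotation statement. -/

set_option autoImplicit false
set_option linter.unusedSectionVars false
noncomputable section
open scoped Manifold ContDiff Topology InnerProductSpace
open MeasureTheory Set Function Filter

namespace Crest.Agent.X212.Cht98
open An M Nd18

variable {κ lam : Type} [Fintype κ] [Fintype lam] {Z Z' : Mf 4}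

/-- a patch with matched configurations and a pair of matched cut-off functions which are `0` or
`1` high up on every end -/
structure Lnk (b : BG κ lam Z) (b' : BG κ lam Z') (O : Set Z.M) (O' : Set Z'.M) (c : C0 Z κ lam)
    (c' : C0 Z' κ lam) where
  p : GP b b'
  u : Z.M → CL c.m.V c'.m.V
  ζ : Circle
  f : Z.M → ℝ
  f' : Z'.M → ℝ
  sp : p.Sp O O'
  ce : p.Ce c c' u ζ
  sm : Sm Z.I f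
  sm' : Sm Z'.I f'
  s : tsupport f ⊆ p.φ.source
  s' : tsupport f' ⊆ p.φ.target
  eq : ∀ x ∈ p.φ.source, f x = f' (p.φ x)
  en : ∀ a, ∃ s, (∀ x ∈ (b.E a).U s, f x = 0) ∨ (∀ x ∈ (b.E a).U s, f x = 1) ∧ ∃ a', p.Mt a a'
  en' : ∀ a', ∃ s, (∀ x ∈ (b'.E a').U s, f' x = 0) ∨
    (∀ x ∈ (b'.E a').U s, f' x = 1) ∧ ∃ a, p.Mt a a'

variable (κ lam) in
/-- excision by a rotation: the square `1 → 3 → 2`, `1 → 4 → 2` commutes where both cut-off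
functions live -/
def RotStmt (k : ℕ) : Prop := ∀ (Z₁ Z₂ Z₃ Z₄ : Mf 4) (b₁ : BG κ lam Z₁) (b₂ : BG κ lam Z₂)
  (b₃ : BG κ lam Z₃) (b₄ : BG κ lam Z₄) O₁ O₂ O₃ O₄ c₁ c₂ c₃ c₄ (A : Lnk b₁ b₃ O₁ O₃ c₁ c₃)
  (B : Lnk b₃ b₂ O₃ O₂ c₃ c₂) (C : Lnk b₁ b₄ O₁ O₄ c₁ c₄) (D : Lnk b₄ b₂ O₄ O₂ c₄ c₂)
  δ d₁ d₂ d₃ d₄, b₁.OK O₁ → b₂.OK O₂ → b₃.OK O₃ → b₄.OK O₄ → c₁.Adm b₁.B b₁.G →
  c₂.Adm b₂.B b₂.G → c₃.Adm b₃.B b₃.G → c₄.Adm b₄.B b₄.G →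
  (∀ x ∈ b₁.O, A.f x ^ 2 + C.f x ^ 2 = 1) → (∀ x ∈ b₂.O, B.f' x ^ 2 + D.f' x ^ 2 = 1) →
  (∀ x ∈ b₃.O, A.f' x ^ 2 + B.f x ^ 2 = 1) → (∀ x ∈ b₄.O, C.f' x ^ 2 + D.f x ^ 2 = 1) →
  (∀ x, A.f x ≠ 0 → C.f x ≠ 0 → A.p.φ x ∈ B.p.φ.source ∧ C.p.φ x ∈ D.p.φ.source ∧
    B.p.φ (A.p.φ x) = D.p.φ (C.p.φ x) ∧ B.f (A.p.φ x) = C.f x ∧ D.f (C.p.φ x) = A.f x ∧
    (∀ i j, ∑ l, B.p.U (A.p.φ x) i l * A.p.U x l j = ∑ l, D.p.U (C.p.φ x) i l * C.p.U x l j) ∧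
    B.u (A.p.φ x) ∘L A.u x = D.u (C.p.φ x) ∘L C.u x ∧ B.ζ * A.ζ = D.ζ * C.ζ) →
  b₁.Ix O₁ c₁ k δ d₁ → b₂.Ix O₂ c₂ k δ d₂ → b₃.Ix O₃ c₃ k δ d₃ → b₄.Ix O₄ c₄ k δ d₄ →
  d₁ + d₂ = d₃ + d₄

end Crest.Agent.X212.Cht98
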