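import Crest.Agent.X212.Cht98.TrC
import Crest.Agent.X212.Nk89.Asy

/-! Row 212, IX-TRN (helper98): the gauge fixed linearisation is natural. -/

set_option autoImplicit false
set_option linter.unusedSectionVars false
noncomputable section
open scoped Manifold ContDiff Topology InnerProductSpace
open Set Function Filter

namespace Crest.Agent.X212.Cht98
open An An.Pre Sob92 Prm93 Map77 Mod61 Nk89
open Eqv71 hiding idx_apply
open Wz78 (SA nab)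

variable {E : Type} [NormedAddCommGroup E] [NormedSpace ℝ E] [FiniteDimensional ℝ E]
  [MeasurableSpace E] [BorelSpace E]
  {HM : Type} [TopologicalSpace HM] {I : ModelWithCorners ℝ E HM} [I.Boundaryless]
  {M : Type} [TopologicalSpace M] [ChartedSpace HM M] [IsManifold I ∞ M]
  [MeasurableSpace M] [T2Space M] [BorelSpace M] [SecondCountableTopology M]
  {E' : Type} [NormedAddCommGroup E'] [NormedSpace ℝ E'] [FiniteDimensional ℝ E']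
  [MeasurableSpace E'] [BorelSpace E']
  {HM' : Type} [TopologicalSpace HM'] {I' : ModelWithCorners ℝ E' HM'} [I'.Boundaryless]
  {M' : Type} [TopologicalSpace M'] [ChartedSpace HM' M'] [IsManifold I' ∞ M']
  [MeasurableSpace M'] [T2Space M'] [BorelSpace M'] [SecondCountableTopology M']
  {ι lam lam' : Type} [Fintype ι] [Fintype lam] [Fintype lam']
  {T T' : Type} [NormedAddCommGroup T] [NormedSpace ℝ T] [NormedAddCommGroup T'] [NormedSpace ℝ T']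
  {𝔉 : Fam I M ι lam T} {𝔉' : Fam I' M' ι lam' T'} {o : Ref 𝔉} {o' : Ref 𝔉'} {r n m n' m' k : ℕ}
  {f : o.C r k → o.Y n m k} {f' : o'.C r k → o'.Y n' m' k} {e : T → PtX M ι lam r n m}
  {e' : T' → PtX M' ι lam' r n' m'}

/-- `y'` is the variation of `y` by `a` -/
def Vr (y y' : Pnt o r) (a : M → Cf ι (Fin o.m.N)) : Prop := y'.t = y.t ∧
  (o.W y'.t y'.α = o.m.addC (o.W y.t y.α) fun x => fa (a x)) ∧
  (o.Φ0 + y'.φ = fun x => (o.Φ0 + y.φ) x + fp (a x)) ∧ y'.z = y.z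

theorem exists_vr (h : 𝔉.OK) (hk : 3 ≤ k) (y : Pnt o r) (u : Sec I (bd o).pC) :
    ∃ y' : Pnt o r, y'.pt k = y.pt k + sC' o r k y.t (𝔉.F0.toH _ _ u) ∧ Vr y y' u.1 := by
  obtain ⟨y', e0, e1, e2⟩ := exists_add h hk y u
  have e3 : ∀ x, uy y' x = uy y x + u.1 x := fun x => by
    rw [uy_eq, uy_eq, e0, (e2 x).1, (e2 x).2, map_add (i1 _ _), map_add (i2 _ _),
      add_add_add_comm, i1_add_i2, map_add, SC_SC o h (h.SSi _ y.ht) x _ (u.2.2.2 x), add_assoc]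
  refine ⟨y', e1, e0, funext₂ fun a x => ?_, funext fun x => ?_,
    (congrArg (·.2.2.1) e1).trans (add_zero _)⟩
  · have := congrArg (oa a) (e3 x)
    rwa [map_add, uy, uy, oa_base, oa_base, oa_apply] at this
  · have := congrArg fp (e3 x)
    rwa [map_add, uy, uy, fp_base, fp_base] at this

theorem der_eq {A B C : Type} [NormedAddCommGroup A] [NormedSpace ℝ A] [NormedAddCommGroup B]
    [NormedSpace ℝ B] [NormedAddCommGroup C] [NormedSpace ℝ C] {g : ℝ → A} {g' : ℝ → B} {a : A}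
    {b : B} (h : HasDerivAt g a 0) (h' : HasDerivAt g' b 0) (L : A →L[ℝ] C) (L' : B →L[ℝ] C)
    (e : ∀ s, L' (g' s) = L (g s)) : L' b = L a :=
  (L'.hasFDerivAt.comp_hasDerivAt 0 h').unique
    ((L.hasFDerivAt.comp_hasDerivAt 0 h).congr_of_eventuallyEq (.of_forall e))

theorem val_TT (h : 𝔉.OK) (hk : 4 ≤ k) (hf : RepF e f) (y : Pnt o r) (u : Sec I (bd o).pC) :
    ∃ (Y : ℝ → Pnt o r) (A : o.Y n m k), (∀ s, Vr y (Y s) fun x => s • u.1 x) ∧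
      HasDerivAt (fun s => f ((Y s).pt k)) A 0 ∧ ∀ x,
      f2 _ _ (𝔉.F0.val k _ (TT k f y (𝔉.F0.toH _ _ u)) x) = o.Pg x (∑ a,
        (nab I (𝔉.G y.t).F.e (o.m.adW y.cfg.W) a (fun y => fa (u.1 y) a) x +
          (Fs 𝔉 y.t).dv a x • fa (u.1 x) a) + hsL (rk1 (fp (u.1 x)) (y.cfg.Φ x))) ∧
      s2 _ _ (𝔉.F0.val k _ (TT k f y (𝔉.F0.toH _ _ u)) x) =
        i1 _ _ (𝔉.F0.val k _ A.1 x) + i2 _ _ (𝔉.F0.val k _ A.2.1 x) := by
  choose Y e1 e2 using fun s : ℝ => exists_vr h (k := k) (by omega) y (s • u)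
  have H := (adj_rem h).hy o y.ht
  have h1 := ((hf.1.contDiffAt ((Map77.isOpen_U h).mem_nhds (pt_mem y))).differentiableAt
    (by simp)).hasFDerivAt
  have d : HasDerivAt (fun s : ℝ => f (y.pt k + s • sC' o r k y.t (𝔉.F0.toH _ _ u)))
      (fderiv ℝ f (y.pt k) (sC' o r k y.t (𝔉.F0.toH _ _ u))) 0 :=
    HasFDerivAt.comp_hasDerivAt 0 (by rwa [zero_smul, add_zero])
      (by simpa using ((hasDerivAt_id (0 : ℝ)).smul_const _).const_add (y.pt k))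
  refine ⟨Y, _, e2, d.congr_of_eventuallyEq (.of_forall fun s => by
    simp only [e1, map_smul]), fun x => ?_⟩
  simp only [TG, _root_.add_apply, ContinuousLinearMap.comp_apply, val_add, Pi.add_apply,
    val_iH1 h.sup hk, val_iH2 h.sup hk, map_add, f2_i1, f2_i2, s2_i1, s2_i2, add_zero, zero_add,
    sY_apply, and_true]
  exact (congrFun (val_RR H hk (cb_uy h y) u) x).trans ((row_eq H.toOK _ (Cb.sm H.cg)
    (Cb.sm H.c1) ((y.ad0 h).conn.sk · x) u).trans (map_add _ _ _))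

variable {O : Set M} {φ : M → M'} {v : M → CL (An.Eu lam) (An.Eu lam')} {w : M → CL o.m.V o'.m.V}
  {ζ : Circle} {y : Pnt o r} {y' : Pnt o' r}

/-- **naturality up to the divergences of the measures** -/
theorem tt_nat (h : 𝔉.OK) (h' : 𝔉'.OK) (hk : 4 ≤ k) (hf : RepF e f) (hf' : RepF e' f')
    (g : LG 𝔉.B (𝔉.G y.t) 𝔉'.B (𝔉'.G y'.t) O φ (fun x b a => 𝔉.B.P b a x) v)
    (c : CEq (𝔉.G y.t).F y.cfg y'.cfg O φ (fun x b a => 𝔉.B.P b a x) v w ζ)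
    (hO : ∀ x ∈ O, x ∈ 𝔉.Om ∧ φ x ∈ 𝔉'.Om ∧ (φ x ∈ 𝔉'.Om' ↔ x ∈ 𝔉.Om'))
    (hN : ∀ (Y : Pnt o r) (Y' : Pnt o' r), Y.t = y.t → Y'.t = y'.t →
      CEq (𝔉.G y.t).F Y.cfg Y'.cfg O φ (fun x b a => 𝔉.B.P b a x) v w ζ → ∀ x ∈ O,
        (e' y'.t).D Y'.cfg (φ x) = cs o'.m.J ζ (w x ((e y.t).D Y.cfg x)) ∧
        (e' y'.t).C Y'.cfg (φ x) = ridx (sq2 fun b a => 𝔉.B.P b a x) (cj (w x)) ((e y.t).C Y.cfg x))
    (u : Sec I (bd o).pC) (u' : Sec I' (bd o').pC)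
    (hu : ∀ x ∈ O, u'.1 (φ x) = ΛC (fun b a => 𝔉.B.P b a x) (csL o'.m.J ζ ∘L w x) (u.1 x))
    {x : M} (hx : x ∈ O) : 𝔉'.F0.val k _ (TT k f' y' (𝔉'.F0.toH _ _ u')) (φ x) =
      ΛF (fun b a => 𝔉.B.P b a x) (csL o'.m.J ζ ∘L w x) (𝔉.F0.val k _ (TT k f y (𝔉.F0.toH _ _ u)) x)
        + i1 _ _ (o'.Pg (φ x) (∑ b, ((Fs 𝔉' y'.t).dv b (φ x) - (Fs 𝔉 y.t).dv b x) •
          fa (u'.1 (φ x)) b)) := by
  obtain ⟨Y, A, a1, d, a2⟩ := val_TT h hk hf y u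
  obtain ⟨Y', A', b1, d', b2⟩ := val_TT h' hk hf' y' u'
  have L := (g.of_ceq (y.ad0 h) (y'.ad0 h') c).phase ζ
  have H := ok_bd o h
  have p1 : ∀ (u : Sec I (bd o).pC) z, o.P1 z (fa (u.1 z)) = fa (u.1 z) := fun u z =>
    maps_f2 z _ (u.2.2.2 z)
  have P := pr_of h.B h'.B (L.be x hx) (L.me x hx) (hO x hx).1 (hO x hx).2.1 (hO x hx).2.2
  have e1 : ∀ z ∈ O, ∀ b, fa (u'.1 (φ z)) b = cj (csL o'.m.J ζ ∘L w z) (fa (u.1 z) b) :=
    fun z hz b => by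
      rw [hu z hz, ΛC, f2_sm2, ridx_apply, ← idx_sum (p1 u z) b]
      simp only [map_sum, map_smul]
  have c2 := fun s : ℝ => hN (Y s) (Y' s) (a1 s).1 (b1 s).1 (by
    unfold Pnt.cfg
    rw [(a1 s).2.1, (b1 s).2.1, (a1 s).2.2.1, (b1 s).2.2.1, (a1 s).2.2.2, (b1 s).2.2.2]
    exact ceq_vr g o.ok o'.ok c (a := fun z => s • u.1 z) (a' := fun z => s • u'.1 z)
      (fun z => idx_mem (p1 (s • u) z)) (fun z => idx_sum (p1 (s • u) z))
      fun z hz => (congrArg (s • ·) (hu z hz)).trans (map_smul _ _ _).symm) x hx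
  refine ext2 ?_ (ext2 ?_ ?_)
  · have e2 : fp (u'.1 (φ x)) = (csL o'.m.J ζ ∘L w x) (fp (u.1 x)) := by rw [hu x hx, ΛC, s2_sm2]
    have e3 : y'.cfg.Φ (φ x) = (csL o'.m.J ζ ∘L w x) (y.cfg.Φ x) := c.Φ x hx
    have Pg : ∀ ξ, o'.Pg (φ x) (cj (csL o'.m.J ζ ∘L w x) ξ) =
      cj (csL o'.m.J ζ ∘L w x) (o.Pg x ξ) := P.g
    rw [map_add, f2_i1, ΛF, f2_sm2, (a2 x).1, (b2 _).1, ← Pg, ← map_add, e2, e3, rk1_map, ← cj_hsL]
    have e4 : ∀ b, nab I' (𝔉'.G y'.t).F.e (o'.m.adW y'.cfg.W) b (fun y => fa (u'.1 y) b) (φ x) =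
        cj (csL o'.m.J ζ ∘L w x) (nab I (𝔉.G y.t).F.e (o.m.adW y.cfg.W) b
          (fun y => fa (u.1 y) b) x) :=
      div_nat L hx (SA.clm fa (u.2.1 x)) (SA.clm fa (u'.2.1 _)) e1
    congr 1
    simp only [e4, e1 x hx, map_add,
      map_sum, map_smul, Finset.sum_add_distrib, sub_smul, Finset.sum_sub_distrib]
    abel
  · rw [map_add, s2_i1, add_zero, ΛF, s2_sm2, f2_sm2, (a2 x).2, (b2 _).2, map_add, map_add, f2_i1,
      f2_i1, f2_i2, f2_i2, add_zero, add_zero]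
    refine der_eq d d' ((csL o'.m.J ζ ∘L w x) ∘L 𝔉.F0.ev k _ x ∘L .fst ℝ _ _)
      (𝔉'.F0.ev k _ (φ x) ∘L .fst ℝ _ _) fun s => ?_
    refine (congrFun (hf'.2 _).D _).trans (Eq.trans ?_ 
      (congrArg (csL o'.m.J ζ ∘L w x) (congrFun (hf.2 (Y s)).D x).symm))
    by_cases hx' : x ∈ 𝔉.Om'
    · simp [hx', (hO x hx).2.2, (a1 s).1, (b1 s).1, (c2 s).1, csL_apply]
    · rw [indicator_of_notMem hx', indicator_of_notMem (mt (hO x hx).2.2.1 hx')]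
      exact (map_zero _).symm
  · rw [map_add, s2_i1, add_zero, ΛF, s2_sm2, s2_sm2, (a2 x).2, (b2 _).2, map_add, map_add, s2_i1,
      s2_i1, s2_i2, s2_i2, zero_add, zero_add]
    refine der_eq d d' (ridx _ _ ∘L 𝔉.F0.ev k _ x ∘L .fst ℝ _ _ ∘L .snd ℝ _ _)
      (𝔉'.F0.ev k _ (φ x) ∘L .fst ℝ _ _ ∘L .snd ℝ _ _) fun s => ?_
    refine (congrFun (hf'.2 _).C _).trans (Eq.trans ?_ 
      (congrArg (ridx _ _) (congrFun (hf.2 (Y s)).C x).symm))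
    have c3 := val_proj h.sup hk (f ((Y s).pt k)).2.1 x
    rw [(hf.2 _).C, indicator_of_mem (hO x hx).1] at c3
    simp only [(hO x hx).1, (hO x hx).2.1, (a1 s).1, (b1 s).1, (c2 s).2, indicator_of_mem]
    exact ridx_congr _ fun b => (cj_phase (me_of_meq c.m hx) o.ok o'.ok ζ
      ((a1 s).1 ▸ idx_mem c3 b)).symm

end Crest.Agent.X212.Cht98
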