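import Crest.Agent.X212.Cht98.TrA
import Crest.Agent.X212.Nk89.Frd

/-! Row 212, IX-TRN (helper98): transports with cut-off functions, the interior and the patching. -/

set_option autoImplicit false
set_option linter.unusedSectionVars false
noncomputable section
open scoped Manifold ContDiff Topology InnerProductSpace NNReal
open MeasureTheory Set Function Filter

namespace Crest.Agent.X212.Cht98
open An An.Pre Sob92 Prm93 Map77 Ell97 Nk89 Cyf70

variable {E : Type} [NormedAddCommGroup E] [NormedSpace ℝ E] [FiniteDimensional ℝ E]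
  [MeasurableSpace E] [BorelSpace E]
  {HM : Type} [TopologicalSpace HM] {I : ModelWithCorners ℝ E HM} [I.Boundaryless]
  {M : Type} [TopologicalSpace M] [ChartedSpace HM M] [IsManifold I ∞ M]
  [MeasurableSpace M] [T2Space M] [BorelSpace M] [SecondCountableTopology M]
  {E' : Type} [NormedAddCommGroup E'] [NormedSpace ℝ E'] [FiniteDimensional ℝ E']
  [MeasurableSpace E'] [BorelSpace E']
  {HM' : Type} [TopologicalSpace HM'] {I' : ModelWithCorners ℝ E' HM'} [I'.Boundaryless]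
  {M' : Type} [TopologicalSpace M'] [ChartedSpace HM' M'] [IsManifold I' ∞ M']
  [MeasurableSpace M'] [T2Space M'] [BorelSpace M'] [SecondCountableTopology M']
  {κ κ' : Type} [Fintype κ] [Fintype κ']
  {V W V' W' : Type} [NormedAddCommGroup V] [InnerProductSpace ℝ V] [FiniteDimensional ℝ V]
  [NormedAddCommGroup W] [InnerProductSpace ℝ W] [FiniteDimensional ℝ W]
  [NormedAddCommGroup V'] [InnerProductSpace ℝ V'] [FiniteDimensional ℝ V']
  [NormedAddCommGroup W'] [InnerProductSpace ℝ W'] [FiniteDimensional ℝ W']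
  {φ : OpenPartialHomeomorph M M'} {k : ℕ} {F : Fr I M κ} {F' : Fr I' M' κ'} {S S' : ℝ}
  {p : M → V →L[ℝ] V} {p' : M' → V' →L[ℝ] V'} {g θ : M' → ℝ} {Λ : M → V →L[ℝ] V'}

variable (φ g Λ) in
/-- `a` is the transport by `Λ` along `φ`, cut off by `g` -/
def VF (a : F.H k p →L[ℝ] F'.H k p') : Prop :=
  ∀ u y, F'.val k p' (a u) y = g y • Λ (φ.symm y) (F.val k p u (φ.symm y))

variable (I φ Λ p p') in
/-- a smooth bundle map over `φ` -/
structure BM : Prop where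
  sm : ContMDiffOn I 𝓘(ℝ, V →L[ℝ] V') ∞ Λ φ.source
  mp : ∀ x ∈ φ.source, ∀ v, p x v = v → p' (φ x) (Λ x v) = Λ x v

variable (φ F F') in
/-- `φ` is smooth and bounded over compact sets -/
structure TDf : Prop where
  sm : ContMDiffOn I I' ∞ φ φ.source
  ld : ∀ K, IsCompact K → K ⊆ φ.source → LD φ.symm K F'.toPre F.toPre

theorem cpt_symm (h2 : HasCompactSupport g) (h3 : tsupport g ⊆ φ.target) :
    IsCompact (φ.symm '' tsupport g) ∧ φ.symm '' tsupport g ⊆ φ.source :=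
  ⟨h2.image_of_continuousOn (φ.continuousOn_symm.mono h3),
    image_subset_iff.2 fun _ hy => φ.map_target (h3 hy)⟩

theorem supp_mul (φ : OpenPartialHomeomorph M M') (g : M' → ℝ) (Λ : M → V →L[ℝ] V') :
    support (fun x => pull φ g x • Λ x) ⊆ φ.symm '' tsupport g := fun x hx => by
  by_cases h : x ∈ φ.source
  · exact ⟨φ x, subset_tsupport g fun e => hx (by simp [pull_of_mem h, e]), φ.left_inv h⟩
  · exact (hx (by simp [pull_of_notMem h])).elim

section cmp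
variable (d : TDf φ F F') (b : BM I φ p p' Λ) (h1 : Sm I' g) (h2 : HasCompactSupport g)
  (h3 : tsupport g ⊆ φ.target)
include d b h1 h2 h3

theorem cb_mul : F.Cb fun x => pull φ g x • Λ x :=
  cb_of_on φ.open_source (cpt_symm h2 h3).1 (cpt_symm h2 h3).2
    ((sm_pull' d.sm h1 (Adm.of_isCompact h2 h3)).contMDiffOn.smul b.sm) (supp_mul φ g Λ)

omit d h1 h2 h3 in
theorem mp_mul (y : M') (hy : y ∈ φ.symm.source) (v : V) (hv : p (φ.symm y) v = v) :
    p' y ((pull φ g (φ.symm y) • Λ (φ.symm y)) v) = (pull φ g (φ.symm y) • Λ (φ.symm y)) v := by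
  have := b.mp _ (φ.map_target hy) v hv
  rw [φ.right_inv hy] at this
  simp only [_root_.smul_apply, map_smul, this]

theorem vf_tG (hS : Sup F.toPre S) (hS' : Sup F'.toPre S') (hk : 4 ≤ k) :
    VF φ g Λ (tG F'.toPre F.toPre φ.symm k p p' fun x => pull φ g x • Λ x) := fun u y => by
  rw [val_pull ((d.ld _ (cpt_symm h2 h3).1 (cpt_symm h2 h3).2).rep (cb_mul d b h1 h2 h3)
    (closure_minimal (supp_mul φ g Λ) (cpt_symm h2 h3).1.isClosed) (mp_mul b)) hS' hS hk hk]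
  by_cases hy : y ∈ φ.target
  · rw [pull_of_mem (φ := φ.symm) hy, pull_of_mem (φ.map_target hy), φ.right_inv hy]; rfl
  · rw [pull_of_notMem (φ := φ.symm) hy, image_eq_zero_of_notMem_tsupport fun e => hy (h3 e),
      zero_smul]

end cmp

theorem VF.ext {a a' : F.H k p →L[ℝ] F'.H k p'} (h : VF φ g Λ a) (h' : VF φ g Λ a')
    (hS' : Sup F'.toPre S') (hk : 4 ≤ k) : a = a' :=
  ContinuousLinearMap.ext fun u => val_injective hS' hk (funext fun y => (h u y).trans (h' u y).symm)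

theorem VF.smul {a : F.H k p →L[ℝ] F'.H k p'} (h : VF φ g Λ a) (hS' : Sup F'.toPre S') (hk : 4 ≤ k)
    (hθ : F'.Cb θ) : VF φ (θ * g) Λ (smulH F'.toPre k p' θ ∘L a) := fun u y => by
  rw [ContinuousLinearMap.comp_apply, val_smulH hS' hk hθ, h, smul_smul]; rfl

theorem cq_int {X Y X' Y' : Type} [NormedAddCommGroup X] [NormedSpace ℝ X] [NormedAddCommGroup Y]
    [NormedSpace ℝ Y] [NormedAddCommGroup X'] [NormedSpace ℝ X'] [NormedAddCommGroup Y']
    [NormedSpace ℝ Y'] {T L : X →L[ℝ] Y} {T' L' : X' →L[ℝ] Y'} {a : X →L[ℝ] X'} {a' : Y →L[ℝ] Y'}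
    {s e : Y' →L[ℝ] Y'} {e' : X' →L[ℝ] X'} {c : Y →L[ℝ] Y} {K : X →L[ℝ] Y'}
    (h1 : Cq (s ∘L T') (s ∘L L')) (h2 : Cq (e ∘L L') (L' ∘L e'))
    (h3 : (e ∘L a') ∘L L = L' ∘L e' ∘L a + K) (hK : Cq (s ∘L K) 0) (h4 : Cq (c ∘L T) (c ∘L L))
    (e3 : ∀ w, s (e w) = s w) (e4 : ∀ w, e (a' (c w)) = e (a' w)) :
    Cq (s ∘L T' ∘L a) (s ∘L a' ∘L T) := by
  have c1 : Cq (s ∘L L' ∘L a) (s ∘L L' ∘L e' ∘L a) :=
    ((h2.left s).right a).congr (fun u => (e3 _).symm) fun _ => rfl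
  have c2 : Cq (s ∘L (e ∘L a') ∘L L) (s ∘L L' ∘L e' ∘L a) :=
    .of_cpt hK.cpt fun u => by rw [h3]; exact s.map_add _ _
  have c3 : Cq (s ∘L (e ∘L a') ∘L L) (s ∘L a' ∘L T) := (h4.symm.left (s ∘L e ∘L a')).congr
    (fun u => congrArg s (e4 _).symm) fun u => (e3 _).symm.trans (congrArg s (e4 _).symm)
  exact (h1.right a).trans (c1.trans (c2.symm.trans c3))

/-- **the interior** -/
theorem int_cq {G : Fr I M κ} {G' : Fr I' M' κ'} {R : κ' → κ → M → ℝ} {A : Op M κ V W}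
    {A' : Op M' κ' V' W'} {Λ' : M → W →L[ℝ] W'} (d : TDf φ F F') (hS : Sup F.toPre S)
    (hS' : Sup F'.toPre S') (hk : 4 ≤ k) (r : PD φ.symm G'.toPre G.toPre R) (t : Tw F G)
    (t' : Tw F' G') (hA : Nc F.toPre G.P A) (hA' : Nc F'.toPre G'.P A') (b : BM I φ A.p A'.p Λ)
    (b' : BM I φ A.q A'.q Λ')
    (hσ : ∀ x ∈ φ.source, ∀ j v, ∑ i, R i j x • A'.σ i (φ x) (Λ x v) = Λ' x (A.σ j x v))
    {T : F.H (k + 1) A.p →L[ℝ] F.H k A.q} {T' : F'.H (k + 1) A'.p →L[ℝ] F'.H k A'.q}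
    (hT : ∀ χ, Sm I χ → HasCompactSupport χ →
      Cq (smulH _ k _ χ ∘L T) (smulH _ k _ χ ∘L LH F.toPre G.toPre k A.p A.q A))
    (hT' : ∀ χ, Sm I' χ → HasCompactSupport χ →
      Cq (smulH _ k _ χ ∘L T') (smulH _ k _ χ ∘L LH F'.toPre G'.toPre k A'.p A'.q A'))
    (h1 : Sm I' g) (h3 : tsupport g ⊆ φ.target) {a : F.H (k + 1) A.p →L[ℝ] F'.H (k + 1) A'.p}
    {a' : F.H k A.q →L[ℝ] F'.H k A'.q} (ha : VF φ g Λ a) (ha' : VF φ g Λ' a') (s1 : Sm I' θ)
    (s2 : HasCompactSupport θ) :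
    Cq (smulH _ k _ θ ∘L T' ∘L a) (smulH _ k _ θ ∘L a' ∘L T) := by
  obtain ⟨η, η1, η2, -, -, η3⟩ := Met55.exists_cut (I := I') s2 isOpen_univ (subset_univ _)
  have cθ : F'.Cb θ := Cb_of_hcs s1 s2
  have cη : F'.Cb η := Cb_of_hcs η1 η2
  have g1 : Sm I' (η * g) := η1.mul h1
  have g2 : HasCompactSupport (η * g) := η2.mul_right
  have g3 : tsupport (η * g) ⊆ φ.target := tsupport_mul_subset_right.trans h3
  obtain ⟨K1, K2⟩ := cpt_symm g2 g3
  obtain ⟨χ, χ1, χ2, -, -, χ3⟩ := Met55.exists_cut (I := I) K1 isOpen_univ (subset_univ _)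
  have e1 := (ha.smul hS' (by omega) cη).ext (vf_tG d b g1 g2 g3 hS hS' (by omega)) hS' (by omega)
  have e2 := (ha'.smul hS' hk cη).ext (vf_tG d b' g1 g2 g3 hS hS' hk) hS' hk
  obtain ⟨L, eL⟩ := comm_ld (k := k) (d.ld _ K1 K2) K1 r t' t hA' hA (cb_mul d b g1 g2 g3)
    (cb_mul d b' g1 g2 g3) (closure_minimal (supp_mul φ _ Λ) K1.isClosed)
    (closure_minimal (supp_mul φ _ Λ') K1.isClosed) (mp_mul b) (mp_mul b') fun y hy j v => by
      have := hσ _ (φ.map_target hy) j v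
      rw [φ.right_inv hy] at this
      simp only [_root_.smul_apply, map_smul, ← this, Finset.smul_sum, smul_comm (R _ _ _)]
  rw [← e1, ← e2] at eL
  have e3 : ∀ w, smulH _ k A'.q θ (smulH _ k A'.q η w) = smulH _ k A'.q θ w := fun w =>
    val_injective hS' hk (funext fun y => by
      rw [val_smulH hS' hk cθ, val_smulH hS' hk cθ, val_smulH hS' hk cη]
      by_cases hy : y ∈ tsupport θ
      · rw [(η3 y hy).self_of_nhds, Pi.one_apply, one_smul]
      · rw [image_eq_zero_of_notMem_tsupport hy, zero_smul, zero_smul])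
  have e4 : ∀ w, smulH _ k A'.q η (a' (smulH _ k A.q χ w)) = smulH _ k A'.q η (a' w) := fun w =>
    val_injective hS' hk (funext fun y => by
      rw [val_smulH hS' hk cη, val_smulH hS' hk cη, ha', ha', val_smulH hS hk (Cb_of_hcs χ1 χ2),
        smul_smul, smul_smul]
      by_cases hy : η y * g y = 0
      · rw [hy, zero_smul, zero_smul]
      · rw [(χ3 _ ⟨y, subset_tsupport _ hy, rfl⟩).self_of_nhds, Pi.one_apply, one_smul])
  exact cq_int (hT' θ s1 s2) (cq_comm t' hA' η1 η2 k) eL (lc_incl L θ s1 s2) (hT χ χ1 χ2) e3 e4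

end Crest.Agent.X212.Cht98
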