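import Crest.Agent.X212.Cht98.TrI
import Crest.Agent.X212.Cht98.TrF

/-! Row 212, IX-TRN (helper98): the transport to the cylinder of an end. -/

set_option autoImplicit false
set_option linter.unusedSectionVars false
noncomputable section
open scoped Manifold ContDiff Topology InnerProductSpace
open MeasureTheory Set Function Filter

namespace Crest.Agent.X212.Cht98
open An M Nd18 Nk89 Map77 Mod61 Cyf70 Fred93

variable {κ lam : Type} [Fintype κ] [Fintype lam] {Z Z' : Mf 4} {b : BG κ lam Z} {b' : BG κ lam Z'}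
  {O : Set Z.M} {O' : Set Z'.M} {k : ℕ} {δ : ℝ} {h : IC b O k δ} {h' : IC b' O' k δ}

/-- above the height `s` of the end `P` the cut-off vanishes, or it is `1` and the transport to
the cylinder of `P` commutes with the linearisations -/
def Lnk.Ec (A : Lnk b b' O O' h.c0 h'.c0) (P : End h'.g.𝔉) (s : ℝ) : Prop :=
  ∃ (ha : P.D.Adm (P.sl h'.o (h'.R + 1) h'.g.t)) (h0 : _) (eZ : _)
    (fZ : (refZ T0 δ ha h0).C 0 k → (refZ T0 δ ha h0).Y 0 0 k), CylOK (δ := δ) ha h0 k eZ ∧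
    P.Loc h'.o k δ h'.R h'.e h'.g.t ha h0 eZ ∧ RepF (fun _ => eZ) fZ ∧
    ((∀ y ∈ P.U s, A.f' y = 0) ∨ (∀ y ∈ P.U s, A.f' y = 1) ∧
      ∃ (cC : h.V →L[ℝ] (famZ T0 P.D δ (P.O' h'.R)).F0.H (k + 1) (bd (refZ T0 δ ha h0)).pC)
        (cF : h.W →L[ℝ] (famZ T0 P.D δ (P.O' h'.R)).F0.H k
          (ps (refZ T0 δ ha h0).Pg (bd (refZ T0 δ ha h0)).pE)),
        (∀ u z, (famZ T0 P.D δ (P.O' h'.R)).F0.val (k + 1) _ (cC u) z = P.θZ (s + 1) z •
          A.LC (A.p.φ.symm (P.K.ψ z)) (h.g.𝔉.F0.val (k + 1) _ u (A.p.φ.symm (P.K.ψ z)))) ∧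
        (∀ u z, (famZ T0 P.D δ (P.O' h'.R)).F0.val k _ (cF u) z = P.θZ (s + 1) z •
          A.LF (A.p.φ.symm (P.K.ψ z)) (h.g.𝔉.F0.val k _ u (A.p.φ.symm (P.K.ψ z)))) ∧
        Cq (TT k fZ (yZ δ ha h0) ∘L cC) (cF ∘L h.T))

variable (κ lam) in
/-- **IX-EC** -/
def EcStmt (k : ℕ) : Prop := ∀ (Z Z' : Mf 4) (b : BG κ lam Z) (b' : BG κ lam Z') O O' δ
  (h : IC b O k δ) (h' : IC b' O' k δ) (A : Lnk b b' O O' h.c0 h'.c0), b.OK O → b'.OK O' →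
  ∀ a : b'.A, ∀ᶠ s in atTop, A.Ec (h'.g.X.P (h'.g.f a)) s

end Crest.Agent.X212.Cht98
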