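import Crest.Agent.X212.Cht98.TrS
import Crest.Agent.X212.Ulc97.Ec

/-! Row 212, IX-TRN (helper98): the transport from the naturality on cylinders. -/

set_option autoImplicit false

namespace Crest.Agent.X212.Cht98

theorem trn_nat {κ lam : Type} [Fintype κ] [Fintype lam] {k : ℕ} (hk : 7 ≤ k) (hN : NatZ κ lam k) :
    TrnStmt κ lam k := trn_of hk (Ulc97.ec hk hN)

end Crest.Agent.X212.Cht98
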